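import Vale.Agent.P016Z.Ab.Ctx
import Mathlib.Algebra.BigOperators.Field
import Mathlib.Tactic.LinearCombination

/-!
P016, abstract context: generators, divisors, Moebius sums, gcd bookkeeping, divisor bounds.
-/

namespace Vale.Agent.P016Z.Ab

open Finset
open scoped ComplexConjugate

set_option linter.unusedSectionVars false

variable {M : Type} [CommMonoidWithZero M] [Ar M]

/-! ### norm and generators -/

theorem N_mul (a b : M) : N (a * b) = N a * N b := Ar.N_mul a b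

@[simp] theorem N_one : N (1 : M) = 1 := Ar.N_one

@[simp] theorem N_zero : N (0 : M) = 0 := Ar.N_zero

theorem N_pos {a : M} (h : a ≠ 0) : 0 < N a := Ar.N_pos a h

theorem N_pow (a : M) (k : ℕ) : N (a ^ k) = N a ^ k := by
  induction k with
  | zero => simp
  | succ k ih => rw [pow_succ, N_mul, ih, pow_succ]

theorem N_dvd_N {a b : M} (h : a ∣ b) : N a ∣ N b := by
  obtain ⟨c, rfl⟩ := h
  exact ⟨N c, N_mul a c⟩

theorem isUnit_iff_N {a : M} : IsUnit a ↔ N a = 1 := by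
  refine ⟨fun h => ?_, Ar.isUnit_of_N a⟩
  have := N_dvd_N (isUnit_iff_dvd_one.1 h)
  rwa [N_one, Nat.dvd_one] at this

theorem one_ne_zero' : (1 : M) ≠ 0 := Ar.prim_ne 1 Ar.prim_one

theorem prim_one : Prim (1 : M) := Ar.prim_one

theorem Prim.mul {k l : M} (hk : Prim k) (hl : Prim l) : Prim (k * l) := Ar.prim_mul k l hk hl

theorem Prim.ne_zero {k : M} (hk : Prim k) : k ≠ 0 := Ar.prim_ne k hk

theorem Prim.prim {k : M} (hk : Prim k) : Prim k := hk

theorem Prim.pow {k : M} (hk : Prim k) (j : ℕ) : Prim (k ^ j) := by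
  induction j with
  | zero => rw [pow_zero]; exact prim_one
  | succ j ih => rw [pow_succ]; exact ih.mul hk

theorem Prim.N_pos {k : M} (hk : Prim k) : 0 < N k := Vale.Agent.P016Z.Ab.N_pos hk.ne_zero

theorem Prim.exists_prim_of_dvd {k d : M} (hk : Prim k) (hd : d ∣ k) :
    ∃ d' : M, Prim d' ∧ Associated d d' := Ar.prim_dvd k d hk hd

theorem Prim.eq_of_associated {k l : M} (hk : Prim k) (hl : Prim l) (h : Associated k l) :
    k = l := Ar.prim_eq k l hk hl h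

theorem Prim.eq_one_of_isUnit {k : M} (hk : Prim k) (hu : IsUnit k) : k = 1 :=
  hk.eq_of_associated prim_one (associated_one_iff_isUnit.2 hu)

@[simp] theorem mem_Hn {X : ℝ} {z : M} : z ∈ Hn M X ↔ (N z : ℝ) ≤ X ∧ z ≠ 0 := by
  simp [Hn]

theorem Hn_mono {X Y : ℝ} (h : X ≤ Y) : Hn M X ⊆ Hn M Y := by
  intro z hz
  rw [mem_Hn] at *
  exact ⟨hz.1.trans h, hz.2⟩

theorem summable_N_rpow {s : ℝ} (hs : 1 < s) : Summable fun z : M => (N z : ℝ) ^ (-s) :=
  Ar.summable_N s hs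

theorem one_le_N {n : M} (h : n ≠ 0) : (1 : ℝ) ≤ N n := by exact_mod_cast N_pos h

theorem N_pos' {n : M} (h : n ≠ 0) : (0 : ℝ) < N n := by exact_mod_cast N_pos h

theorem N_mul' (a b : M) : (N (a * b) : ℝ) = N a * N b := by rw [N_mul]; push_cast; ring

theorem N_le_of_dvd {d n : M} (hn : n ≠ 0) (h : d ∣ n) : (N d : ℝ) ≤ N n := by
  exact_mod_cast Nat.le_of_dvd (N_pos hn) (N_dvd_N h)

variable (M) in
/-- `∑_{0<N(h)≤X} 1/N(h) ≪ X^ε` -/
theorem sum_inv_N_le {ε : ℝ} (hε : 0 < ε) :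
    ∃ C : ℝ, 0 < C ∧ ∀ X : ℝ, 0 ≤ X → ∑ h ∈ Hn M X, (N h : ℝ)⁻¹ ≤ C * X ^ ε := by
  have hs := summable_N_rpow (M := M) (s := 1 + ε) (by linarith)
  refine ⟨(∑' z : M, (N z : ℝ) ^ (-(1 + ε))) + 1, ?_, fun X hX => ?_⟩
  · have : 0 ≤ ∑' z : M, (N z : ℝ) ^ (-(1 + ε)) := tsum_nonneg fun z => by positivity
    linarith
  · have h1 : ∀ h ∈ Hn M X, (N h : ℝ)⁻¹ ≤ X ^ ε * (N h : ℝ) ^ (-(1 + ε)) := by
      intro h hh
      rw [mem_Hn] at hh
      have hN : (0 : ℝ) < N h := by exact_mod_cast N_pos hh.2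
      have h2 : (N h : ℝ)⁻¹ = (N h : ℝ) ^ ε * (N h : ℝ) ^ (-(1 + ε)) := by
        rw [← Real.rpow_add hN, ← Real.rpow_neg_one]; congr 1; ring
      rw [h2]
      gcongr
      exact hh.1
    calc ∑ h ∈ Hn M X, (N h : ℝ)⁻¹ ≤ ∑ h ∈ Hn M X, X ^ ε * (N h : ℝ) ^ (-(1 + ε)) :=
          sum_le_sum h1
      _ = X ^ ε * ∑ h ∈ Hn M X, (N h : ℝ) ^ (-(1 + ε)) := by rw [mul_sum]
      _ ≤ X ^ ε * (∑' z : M, (N z : ℝ) ^ (-(1 + ε))) := by
          gcongr
          exact hs.sum_le_tsum _ fun z _ => by positivity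
      _ ≤ _ := by
          have : 0 ≤ X ^ ε := by positivity
          nlinarith

variable (M) in
/-- crude counting: `#{0<N(h)≤X} ≪ X^{1+ε}` -/
theorem card_Hn_le {ε : ℝ} (hε : 0 < ε) :
    ∃ C : ℝ, 0 < C ∧ ∀ X : ℝ, 0 ≤ X → ((Hn M X).card : ℝ) ≤ C * X ^ (1 + ε) := by
  obtain ⟨C, hC, h⟩ := sum_inv_N_le M hε
  refine ⟨C, hC, fun X hX => ?_⟩
  have h1 : ((Hn M X).card : ℝ) ≤ ∑ h ∈ Hn M X, X * (N h : ℝ)⁻¹ := by
    rw [card_eq_sum_ones, Nat.cast_sum]
    refine sum_le_sum fun h hh => ?_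
    rw [mem_Hn] at hh
    have hN : (0 : ℝ) < N h := by exact_mod_cast N_pos hh.2
    rw [← div_eq_mul_inv, Nat.cast_one, one_le_div hN]
    exact hh.1
  rw [← mul_sum] at h1
  rcases hX.eq_or_lt with rfl | hX'
  · simpa using h1.trans (by simp [Real.zero_rpow (by linarith : (1 + ε) ≠ 0)])
  · calc ((Hn M X).card : ℝ) ≤ X * ∑ h ∈ Hn M X, (N h : ℝ)⁻¹ := h1
      _ ≤ X * (C * X ^ ε) := by gcongr; exact h X hX
      _ = C * X ^ (1 + ε) := by
        rw [Real.rpow_add hX', Real.rpow_one]; ring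

variable [UniqueFactorizationMonoid M]

theorem Prim.of_mul_left {k l : M} (hk : Prim k) (hkl : Prim (k * l)) : Prim l := by
  obtain ⟨l', h1, h2⟩ := hkl.exists_prim_of_dvd (dvd_mul_left l k)
  have h3 := hkl.eq_of_associated (hk.mul h1) (h2.mul_left k)
  rwa [mul_left_cancel₀ hk.ne_zero h3]

theorem Prim.of_mul_right {k l : M} (hl : Prim l) (hkl : Prim (k * l)) : Prim k :=
  hl.of_mul_left (by rwa [mul_comm])

open Classical in
/-- exact division -/
noncomputable def dv (k e : M) : M := if h : e ∣ k then h.choose else 0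

theorem eq_mul_dv {k e : M} (h : e ∣ k) : k = e * dv k e := by
  rw [dv, dif_pos h]; exact h.choose_spec

theorem dv_mul {e : M} (he : e ≠ 0) (t : M) : dv (e * t) e = t :=
  (mul_left_cancel₀ he (eq_mul_dv (dvd_mul_right e t))).symm

/-- induction over primary prime factors -/
theorem prim_induction {P : M → Prop} (h1 : P 1)
    (hmul : ∀ p k : M, Prim p → Prime p → Prim k → P k → P (p * k)) :
    ∀ k : M, Prim k → P k := by
  suffices H : ∀ n : ℕ, ∀ k : M, N k = n → Prim k → P k from fun k hk => H _ k rfl hk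
  intro n
  induction n using Nat.strong_induction_on with
  | _ n ih =>
    intro k hn hk
    by_cases hu : IsUnit k
    · rw [hk.eq_one_of_isUnit hu]; exact h1
    · obtain ⟨q, hq, hqk⟩ := WfDvdMonoid.exists_irreducible_factor hu hk.ne_zero
      obtain ⟨p, hp, hqp⟩ := hk.exists_prim_of_dvd hqk
      have hpk : p ∣ k := (hqp.dvd_iff_dvd_left).1 hqk
      obtain ⟨l, rfl⟩ := hpk
      have hpi : Irreducible p := (hqp.irreducible_iff).1 hq
      have hl : Prim l := hp.of_mul_left hk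
      refine hmul p l hp hpi.prime hl (ih (N l) ?_ l rfl hl)
      rw [← hn, N_mul]
      have hNp : 1 < N p := by
        have h0 := hp.N_pos
        have h1 : N p ≠ 1 := fun h => hpi.not_isUnit (isUnit_iff_N.2 h)
        omega
      have := hl.N_pos
      nlinarith

/-- induction over squarefree primary elements -/
theorem sf_induction {P : M → Prop} (h1 : P 1)
    (hmul : ∀ p k : M, Prim p → Prime p → Prim k → Squarefree k → IsRelPrime p k →
      P k → P (p * k)) :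
    ∀ k : M, Prim k → Squarefree k → P k := by
  refine prim_induction (P := fun k => Squarefree k → P k) (fun _ => h1) ?_
  intro p k hp hpp hk ih hsq
  have hk' : Squarefree k := hsq.squarefree_of_dvd (Dvd.intro_left p rfl)
  refine hmul p k hp hpp hk hk' ?_ (ih hk')
  have : ¬ p ∣ k := by
    intro h
    have h2 : p * p ∣ p * k := mul_dvd_mul_left p h
    exact hpp.not_isUnit (hsq p h2)
  exact (hpp.irreducible.isRelPrime_iff_not_dvd).2 this

/-! ### primary divisors -/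

open Classical in
/-- primary divisors of `k` -/
noncomputable def D (k : M) : Finset M := (Hn M (N k : ℝ)).filter (fun d => Prim d ∧ d ∣ k)

theorem mem_D {k d : M} (hk : k ≠ 0) : d ∈ D k ↔ Prim d ∧ d ∣ k := by
  simp only [D, mem_filter, mem_Hn, and_iff_right_iff_imp, and_imp]
  intro h hd
  exact ⟨N_le_of_dvd hk hd, h.ne_zero⟩

theorem D_one : D (1 : M) = {1} := by
  ext d
  rw [mem_D one_ne_zero', mem_singleton]
  constructor
  · rintro ⟨h1, h2⟩
    exact h1.eq_one_of_isUnit (isUnit_of_dvd_one h2)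
  · rintro rfl
    exact ⟨prim_one, dvd_rfl⟩

theorem sum_D_mul {B : Type*} [AddCommMonoid B] {p k : M} (hp : Prim p) (hpp : Prime p)
    (hk : Prim k) (hc : IsRelPrime p k) (f : M → B) :
    ∑ d ∈ D (p * k), f d = ∑ d ∈ D k, f d + ∑ d ∈ D k, f (p * d) := by
  classical
  have hinj : ∀ x ∈ D k, ∀ y ∈ D k, p * x = p * y → x = y :=
    fun x _ y _ h => mul_left_cancel₀ hp.ne_zero h
  rw [← sum_image (s := D k) (g := fun d => p * d) (f := f) hinj]
  rw [← sum_union]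
  · apply sum_congr _ fun _ _ => rfl
    ext d
    rw [mem_union, mem_image, mem_D (hp.mul hk).ne_zero, mem_D hk.ne_zero]
    constructor
    · rintro ⟨h1, h2⟩
      by_cases hpd : p ∣ d
      · right
        obtain ⟨e, rfl⟩ := hpd
        refine ⟨e, ?_, rfl⟩
        rw [mem_D hk.ne_zero]
        exact ⟨hp.of_mul_left h1, (mul_dvd_mul_iff_left hp.ne_zero).1 h2⟩
      · left
        have hcop : IsRelPrime p d := (hpp.irreducible.isRelPrime_iff_not_dvd).2 hpd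
        exact ⟨h1, hcop.symm.dvd_of_dvd_mul_left h2⟩
    · rintro (⟨h1, h2⟩ | ⟨e, he, rfl⟩)
      · exact ⟨h1, h2.mul_left p⟩
      · rw [mem_D hk.ne_zero] at he
        exact ⟨hp.mul he.1, mul_dvd_mul_left p he.2⟩
  · rw [disjoint_left]
    intro d hd hd'
    rw [mem_D hk.ne_zero] at hd
    rw [mem_image] at hd'
    obtain ⟨e, -, rfl⟩ := hd'
    have h1 : p ∣ k := (Dvd.intro e rfl).trans hd.2
    exact hpp.not_isUnit (hc dvd_rfl h1)

theorem card_D_mul {p k : M} (hp : Prim p) (hpp : Prime p)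
    (hk : Prim k) (hc : IsRelPrime p k) : (D (p * k)).card = 2 * (D k).card := by
  rw [card_eq_sum_ones, sum_D_mul hp hpp hk hc, ← card_eq_sum_ones]; ring

theorem mob_one : mob (1 : M) = 1 := by simp [mob]

theorem norm_mob (d : M) : ‖mob d‖ = 1 := by simp [mob]

theorem mob_mul {p d : M} (hp : Prime p) (hd : d ≠ 0) : mob (p * d) = - mob d := by
  have h1 := UniqueFactorizationMonoid.factors_mul hp.ne_zero hd
  have h2 := Multiset.card_eq_card_of_rel h1
  have h3 : (UniqueFactorizationMonoid.factors p).card = 1 :=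
    UniqueFactorizationMonoid.card_factors_of_irreducible hp.irreducible
  rw [mob, h2, Multiset.card_add, h3, pow_add, mob]; ring

open Classical in
/-- Moebius detection of coprimality -/
theorem sum_mob (δ : M) (h1 : Prim δ) (h2 : Squarefree δ) (n : M) :
    ∑ d ∈ D δ, (if d ∣ n then mob d else 0) = if IsRelPrime δ n then 1 else 0 := by
  refine sf_induction (P := fun δ => ∑ d ∈ D δ, (if d ∣ n then mob d else 0)
    = if IsRelPrime δ n then 1 else 0) ?_ ?_ δ h1 h2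
  · rw [D_one]; simp [mob_one, isRelPrime_one_left]
  · intro p k hp hpp hk hsk hc ih
    rw [sum_D_mul hp hpp hk hc]
    have h3 : ∀ d ∈ D k, (if p * d ∣ n then mob (p * d) else 0)
        = - (if p ∣ n then (if d ∣ n then mob d else 0) else 0) := by
      intro d hd
      rw [mem_D hk.ne_zero] at hd
      have hcd : IsRelPrime p d := hc.of_dvd_right hd.2
      have h4 : p * d ∣ n ↔ p ∣ n ∧ d ∣ n :=
        ⟨fun h => ⟨(Dvd.intro _ rfl).trans h, (Dvd.intro_left _ rfl).trans h⟩,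
          fun h => hcd.mul_dvd h.1 h.2⟩
      rw [mob_mul hpp hd.1.ne_zero]
      by_cases ha : p ∣ n <;> by_cases hb : d ∣ n <;> simp [h4, ha, hb]
    rw [sum_congr rfl h3, sum_neg_distrib, IsRelPrime.mul_left_iff]
    by_cases ha : p ∣ n
    · have : ¬ IsRelPrime p n := fun h => hpp.not_isUnit (h dvd_rfl ha)
      simp [ha, this]
    · have : IsRelPrime p n := (hpp.irreducible.isRelPrime_iff_not_dvd).2 ha
      simp [ha, this, ih]

/-! ### divisor bound -/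

variable (M) in
/-- `τ(k) ≪ N(k)^ε` for squarefree generators `k` -/
theorem card_D_le {ε : ℝ} (hε : 0 < ε) :
    ∃ C : ℝ, 1 ≤ C ∧ ∀ k : M, Prim k → Squarefree k → ((D k).card : ℝ) ≤ C * (N k : ℝ) ^ ε := by
  classical
  -- small primes: norm less than `2^{1/ε}`
  set P : ℝ := (2 : ℝ) ^ (1 / ε) with hP
  set S : Finset M := Hn M P with hS
  refine ⟨2 ^ S.card, one_le_pow₀ (by norm_num), ?_⟩
  suffices H : ∀ k : M, Prim k → Squarefree k →
      ((D k).card : ℝ) ≤ 2 ^ (S.filter (fun p => p ∣ k ∧ ¬ IsUnit p)).card * (N k : ℝ) ^ ε by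
    intro k hk hk'
    refine (H k hk hk').trans ?_
    gcongr
    · norm_num
    · exact filter_subset _ _
  refine sf_induction ?_ ?_
  · rw [D_one]
    simp only [card_singleton, Nat.cast_one, N_one, Real.one_rpow, mul_one]
    exact one_le_pow₀ (by norm_num)
  · intro p k hp hpp hk hsk hc ih
    rw [card_D_mul hp hpp hk hc, N_mul]
    push_cast
    rw [Real.mul_rpow (by positivity) (by positivity)]
    have hNk : (0 : ℝ) ≤ (N k : ℝ) ^ ε := by positivity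
    have hsub : S.filter (fun q => q ∣ k ∧ ¬ IsUnit q) ⊆
        S.filter (fun q => q ∣ p * k ∧ ¬ IsUnit q) := by
      intro q hq
      rw [mem_filter] at *
      exact ⟨hq.1, hq.2.1.mul_left p, hq.2.2⟩
    by_cases hpS : p ∈ S
    · have hmem : p ∈ S.filter (fun q => q ∣ p * k ∧ ¬ IsUnit q) := by
        rw [mem_filter]; exact ⟨hpS, Dvd.intro _ rfl, hpp.not_isUnit⟩
      have hnmem : p ∉ S.filter (fun q => q ∣ k ∧ ¬ IsUnit q) := by
        rw [mem_filter]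
        rintro ⟨-, h, -⟩
        exact hpp.not_isUnit (hc dvd_rfl h)
      have hcard : (S.filter (fun q => q ∣ k ∧ ¬ IsUnit q)).card + 1 ≤
          (S.filter (fun q => q ∣ p * k ∧ ¬ IsUnit q)).card := by
        rw [← card_insert_of_notMem hnmem]
        apply card_le_card
        intro q hq
        rw [mem_insert] at hq
        rcases hq with rfl | hq
        · exact hmem
        · exact hsub hq
      have hNp : (1 : ℝ) ≤ (N p : ℝ) ^ ε :=
        Real.one_le_rpow (by exact_mod_cast hp.N_pos) hε.le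
      calc 2 * ((D k).card : ℝ)
          ≤ 2 * (2 ^ (S.filter (fun q => q ∣ k ∧ ¬ IsUnit q)).card * (N k : ℝ) ^ ε) := by
            gcongr
        _ = 2 ^ ((S.filter (fun q => q ∣ k ∧ ¬ IsUnit q)).card + 1) * (1 * (N k : ℝ) ^ ε) := by
            rw [pow_succ]; ring
        _ ≤ 2 ^ (S.filter (fun q => q ∣ p * k ∧ ¬ IsUnit q)).card *
              ((N p : ℝ) ^ ε * (N k : ℝ) ^ ε) := by
            gcongr
            norm_num
    · have hNp : (2 : ℝ) ≤ (N p : ℝ) ^ ε := by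
        rw [hS, mem_Hn, and_iff_left hp.ne_zero, not_le] at hpS
        calc (2 : ℝ) = P ^ ε := by
              rw [hP, ← Real.rpow_mul (by norm_num), one_div, inv_mul_cancel₀ hε.ne',
                Real.rpow_one]
          _ ≤ (N p : ℝ) ^ ε := by
              apply Real.rpow_le_rpow (by positivity) hpS.le hε.le
      calc 2 * ((D k).card : ℝ)
          ≤ 2 * (2 ^ (S.filter (fun q => q ∣ k ∧ ¬ IsUnit q)).card * (N k : ℝ) ^ ε) := by
            gcongr
        _ = 2 ^ (S.filter (fun q => q ∣ k ∧ ¬ IsUnit q)).card * (2 * (N k : ℝ) ^ ε) := by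
            ring
        _ ≤ _ := by
            gcongr
            norm_num

/-! ### the gcd of two generators -/

theorem exists_pgcd {k l : M} (hk : Prim k) (hl : Prim l) :
    ∃ δ a b : M, Prim δ ∧ Prim a ∧ Prim b ∧ k = δ * a ∧ l = δ * b ∧ IsRelPrime a b := by
  obtain ⟨a, b, c, hab, h1, h2⟩ := UniqueFactorizationMonoid.exists_reduced_factors k hk.ne_zero l
  obtain ⟨δ, hδ, u, hu⟩ := hk.exists_prim_of_dvd (d := c) ⟨a, h1.symm⟩
  have e1 : k = δ * ((u⁻¹ : Mˣ) * a) := by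
    rw [← h1, ← hu, mul_assoc, Units.mul_inv_cancel_left]
  have e2 : l = δ * ((u⁻¹ : Mˣ) * b) := by
    rw [← h2, ← hu, mul_assoc, Units.mul_inv_cancel_left]
  exact ⟨δ, _, _, hδ, hδ.of_mul_left (e1 ▸ hk), hδ.of_mul_left (e2 ▸ hl), e1, e2,
    (isRelPrime_mul_unit_left (Units.isUnit _)).2 hab⟩

theorem dvd_of_dvd_mul_rel {d δ a b : M} (hδ : δ ≠ 0) (hab : IsRelPrime a b) (h1 : d ∣ δ * a)
    (h2 : d ∣ δ * b) : d ∣ δ := by
  obtain ⟨x, y, c, hxy, e1, e2⟩ := UniqueFactorizationMonoid.exists_reduced_factors δ hδ d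
  have hc : c ≠ 0 := by rintro rfl; exact hδ (by rw [← e1, zero_mul])
  rw [← e1, ← e2, mul_assoc, mul_dvd_mul_iff_left hc] at h1 h2
  have hy : IsUnit y := hab (hxy.symm.dvd_of_dvd_mul_left h1) (hxy.symm.dvd_of_dvd_mul_left h2)
  rw [← e1, ← e2]
  exact mul_dvd_mul_left c hy.dvd

theorem pgcd_unique {δ a b δ' a' b' : M} (hδ : Prim δ) (hδ' : Prim δ')
    (h1 : δ * a = δ' * a') (h2 : δ * b = δ' * b') (hc : IsRelPrime a b) (hc' : IsRelPrime a' b') :
    δ = δ' :=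
  hδ.eq_of_associated hδ' (associated_of_dvd_dvd
    (dvd_of_dvd_mul_rel hδ'.ne_zero hc' ⟨a, h1.symm⟩ ⟨b, h2.symm⟩)
    (dvd_of_dvd_mul_rel hδ.ne_zero hc ⟨a', h1⟩ ⟨b', h2⟩))

theorem mob_collapse : ∀ g : M, Prim g → Squarefree g → ∀ Φ : M → ℂ,
    ∑ e ∈ D g, ∑ δ ∈ D e, mob (dv e δ) * Φ δ = Φ g := by
  refine sf_induction ?_ ?_
  · intro Φ
    rw [D_one, Finset.sum_singleton, D_one, Finset.sum_singleton]
    have := dv_mul (one_ne_zero' (M := M)) 1
    rw [one_mul] at this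
    rw [this, mob_one, one_mul]
  · intro p k hp hpp hk hsk hc ih Φ
    rw [sum_D_mul hp hpp hk hc]
    have h1 : ∀ e ∈ D k, ∑ δ ∈ D (p * e), mob (dv (p * e) δ) * Φ δ =
        -(∑ δ ∈ D e, mob (dv e δ) * Φ δ) + ∑ δ ∈ D e, mob (dv e δ) * Φ (p * δ) := by
      intro e he
      rw [mem_D hk.ne_zero] at he
      have hce : IsRelPrime p e := hc.of_dvd_right he.2
      rw [sum_D_mul hp hpp he.1 hce, ← Finset.sum_neg_distrib]
      congr 1
      · refine Finset.sum_congr rfl fun δ hδ => ?_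
        rw [mem_D he.1.ne_zero] at hδ
        obtain ⟨hδp, t, rfl⟩ := hδ
        have ht : t ≠ 0 := by rintro rfl; exact he.1.ne_zero (mul_zero _)
        rw [mul_left_comm, dv_mul hδp.ne_zero, dv_mul hδp.ne_zero, mob_mul hpp ht]
        ring
      · refine Finset.sum_congr rfl fun δ hδ => ?_
        rw [mem_D he.1.ne_zero] at hδ
        obtain ⟨hδp, t, rfl⟩ := hδ
        rw [← mul_assoc, dv_mul (mul_ne_zero hp.ne_zero hδp.ne_zero), dv_mul hδp.ne_zero]
    rw [Finset.sum_congr rfl h1, Finset.sum_add_distrib, Finset.sum_neg_distrib]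
    rw [add_neg_cancel_left]
    exact ih fun δ => Φ (p * δ)

open Classical in
theorem cop_eq_sum {δ : M} (h1 : Prim δ) (h2 : Squarefree δ) (x : M) :
    cop δ x = ∑ d ∈ D δ, if d ∣ x then mob d else 0 := by
  rw [sum_mob δ h1 h2 x, cop]
  simp only [isRelPrime_comm]

theorem Sq.prim {n : M} (h : Sq n) : Prim n := h.1

theorem Sq.ne_zero {n : M} (h : Sq n) : n ≠ 0 := h.prim.ne_zero

theorem sq_one : Sq (1 : M) := ⟨prim_one, squarefree_one⟩

theorem Sq.of_dvd {n d : M} (h : Sq n) (hd : Prim d) (hdn : d ∣ n) : Sq d :=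
  ⟨hd, h.2.squarefree_of_dvd hdn⟩

theorem Sq.of_mul_left {a b : M} (h : Sq (a * b)) (ha : Prim a) : Sq b :=
  h.of_dvd (ha.of_mul_left h.prim) (dvd_mul_left _ _)

theorem Sq.left {a b : M} (h : Sq (a * b)) (ha : Prim a) : Sq a :=
  h.of_dvd ha (dvd_mul_right _ _)

theorem Sq.coprime {a b : M} (h : Sq (a * b)) : IsRelPrime a b := by
  exact (squarefree_mul_iff.1 h.2).1

theorem Sq.mul {a b : M} (ha : Sq a) (hb : Sq b) (hab : IsRelPrime a b) : Sq (a * b) :=
  ⟨ha.1.mul hb.1, squarefree_mul_iff.2 ⟨hab, ha.2, hb.2⟩⟩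

theorem sq_mul_iff {a b : M} (ha : Sq a) (hb : Sq b) : Sq (a * b) ↔ IsRelPrime a b :=
  ⟨fun h => h.coprime, fun h => ha.mul hb h⟩

/-! ### the Moebius sign -/

theorem mob_mul' {a b : M} (ha : a ≠ 0) (hb : b ≠ 0) : mob (a * b) = mob a * mob b := by
  have h1 := UniqueFactorizationMonoid.factors_mul ha hb
  have h2 := Multiset.card_eq_card_of_rel h1
  rw [mob, h2, Multiset.card_add, pow_add, mob, mob]

theorem mob_mul_self (a : M) : mob a * mob a = 1 := by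
  rw [mob, ← mul_pow]; simp

theorem conj_mob (a : M) : conj (mob a) = mob a := by
  rw [mob, map_pow]; simp

/-! ### finite ranges -/

variable (M) in
open Classical in
/-- squarefree generators of norm at most `L` -/
noncomputable def SO (L : ℝ) : Finset M := (Hn M L).filter Sq

variable (M) in
open Classical in
/-- generators of norm at most `L` -/
noncomputable def AO (L : ℝ) : Finset M := (Hn M L).filter Prim

theorem mem_SO {L : ℝ} {n : M} : n ∈ SO M L ↔ (N n : ℝ) ≤ L ∧ Sq n := by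
  simp only [SO, mem_filter, mem_Hn]
  exact ⟨fun h => ⟨h.1.1, h.2⟩, fun h => ⟨⟨h.1, h.2.ne_zero⟩, h.2⟩⟩

theorem mem_AO {L : ℝ} {n : M} : n ∈ AO M L ↔ (N n : ℝ) ≤ L ∧ Prim n := by
  simp only [AO, mem_filter, mem_Hn]
  exact ⟨fun h => ⟨h.1.1, h.2⟩, fun h => ⟨⟨h.1, h.2.ne_zero⟩, h.2⟩⟩

theorem SO_subset_Hn (L : ℝ) : SO M L ⊆ Hn M L := by
  intro n hn
  rw [mem_SO] at hn
  rw [mem_Hn]
  exact ⟨hn.1, hn.2.ne_zero⟩

theorem AO_subset_Hn (L : ℝ) : AO M L ⊆ Hn M L := by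
  intro n hn
  rw [mem_AO] at hn
  rw [mem_Hn]
  exact ⟨hn.1, hn.2.ne_zero⟩

theorem SO_mono {L L' : ℝ} (h : L ≤ L') : SO M L ⊆ SO M L' := by
  intro n hn
  rw [mem_SO] at *
  exact ⟨hn.1.trans h, hn.2⟩

theorem mem_SO_of_dvd {L : ℝ} {n d : M} (hn : n ∈ SO M L) (hd : Prim d) (h : d ∣ n) : d ∈ SO M L := by
  rw [mem_SO] at *
  exact ⟨(N_le_of_dvd hn.2.ne_zero h).trans hn.1, hn.2.of_dvd hd h⟩

theorem D_subset_SO {L : ℝ} {n : M} (hn : n ∈ SO M L) : D n ⊆ SO M L := by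
  intro d hd
  rw [mem_D (mem_SO.1 hn).2.ne_zero] at hd
  exact mem_SO_of_dvd hn hd.1 hd.2

theorem sq_of_mem_D {n d : M} (hn : Sq n) (hd : d ∈ D n) : Sq d := by
  rw [mem_D hn.ne_zero] at hd
  exact hn.of_dvd hd.1 hd.2

open Classical in
/-- multiples of `d` -/
theorem sum_dvd {B : Type*} [AddCommMonoid B] {L : ℝ} {d : M} (hd : Prim d) {f : M → B}
    (hf : ∀ n, n ∉ SO M L → f n = 0) :
    ∑ n ∈ SO M L, (if d ∣ n then f n else 0) = ∑ m ∈ SO M L, f (d * m) := by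
  have hinj : ∀ x ∈ SO M L, ∀ y ∈ SO M L, d * x = d * y → x = y :=
    fun x _ y _ h => mul_left_cancel₀ hd.ne_zero h
  rw [← sum_image (s := SO M L) (g := fun m => d * m) (f := f) hinj, ← sum_filter]
  refine sum_subset ?_ ?_
  · intro n hn
    rw [mem_filter] at hn
    obtain ⟨hn, m, rfl⟩ := hn
    rw [mem_image]
    exact ⟨m, mem_SO_of_dvd hn (hd.of_mul_left (mem_SO.1 hn).2.prim) (dvd_mul_left _ _), rfl⟩
  · intro n hn hn'
    rw [mem_image] at hn
    obtain ⟨m, -, rfl⟩ := hn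
    apply hf
    intro h
    exact hn' (mem_filter.2 ⟨h, dvd_mul_right _ _⟩)

/-- a function of two variables supported on pairs of the range -/
def Supp2 (L : ℝ) (F : M → M → ℂ) : Prop :=
  ∀ n1 n2, (n1 ∉ SO M L ∨ n2 ∉ SO M L) → F n1 n2 = 0

open Classical in
theorem sum_dvd2 {L : ℝ} {d : M} (hd : Prim d) {F : M → M → ℂ} (hF : Supp2 L F) :
    ∑ n1 ∈ SO M L, ∑ n2 ∈ SO M L, (if d ∣ n1 ∧ d ∣ n2 then F n1 n2 else 0) =
      ∑ m1 ∈ SO M L, ∑ m2 ∈ SO M L, F (d * m1) (d * m2) := by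
  have h1 : ∀ n1 ∈ SO M L, ∑ n2 ∈ SO M L, (if d ∣ n1 ∧ d ∣ n2 then F n1 n2 else 0) =
      if d ∣ n1 then ∑ m2 ∈ SO M L, F n1 (d * m2) else 0 := by
    intro n1 _
    by_cases h : d ∣ n1
    · rw [if_pos h, ← sum_dvd hd (f := F n1) (fun n hn => hF n1 n (Or.inr hn))]
      refine sum_congr rfl fun n2 _ => ?_
      simp [h]
    · rw [if_neg h]
      exact sum_eq_zero fun n2 _ => by simp [h]
  rw [sum_congr rfl h1, sum_dvd hd (f := fun n1 => ∑ m2 ∈ SO M L, F n1 (d * m2))]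
  intro n hn
  exact sum_eq_zero fun m2 _ => hF _ _ (Or.inl hn)

/-! ### the primary gcd -/

open Classical in
/-- the primary gcd of two primary elements -/
noncomputable def pg (k l : M) : M :=
  if h : Prim k ∧ Prim l then (exists_pgcd h.1 h.2).choose else 1

theorem pg_spec {k l : M} (hk : Prim k) (hl : Prim l) : ∃ a b : M, Prim (pg k l) ∧ Prim a ∧
    Prim b ∧ k = pg k l * a ∧ l = pg k l * b ∧ IsRelPrime a b := by
  have h : Prim k ∧ Prim l := ⟨hk, hl⟩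
  rw [pg, dif_pos h]
  exact (exists_pgcd h.1 h.2).choose_spec

theorem pg_prim {k l : M} (hk : Prim k) (hl : Prim l) : Prim (pg k l) := by
  obtain ⟨a, b, h, -⟩ := pg_spec hk hl; exact h

theorem pg_dvd_left {k l : M} (hk : Prim k) (hl : Prim l) : pg k l ∣ k := by
  obtain ⟨a, b, -, -, -, h, -⟩ := pg_spec hk hl; exact ⟨a, h⟩

theorem dvd_pg_iff {k l d : M} (hk : Prim k) (hl : Prim l) : d ∣ pg k l ↔ d ∣ k ∧ d ∣ l := by
  obtain ⟨a, b, h0, -, -, h1, h2, hab⟩ := pg_spec hk hl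
  constructor
  · intro h
    exact ⟨h.trans ⟨a, h1⟩, h.trans ⟨b, h2⟩⟩
  · rintro ⟨h3, h4⟩
    exact dvd_of_dvd_mul_rel h0.ne_zero hab (h1 ▸ h3) (h2 ▸ h4)

theorem pg_mul_eq_iff {k a b : M} (hk : Prim k) (ha : Prim a) (hb : Prim b) :
    pg (k * a) (k * b) = k ↔ IsRelPrime a b := by
  obtain ⟨a', b', h0, -, -, h1, h2, h3⟩ := pg_spec (hk.mul ha) (hk.mul hb)
  constructor
  · intro h
    rw [h] at h1 h2
    rw [mul_left_cancel₀ hk.ne_zero h1, mul_left_cancel₀ hk.ne_zero h2]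
    exact h3
  · intro h
    exact (pgcd_unique hk h0 h1 h2 h h3).symm

theorem pg_eq_one_iff {a b : M} (ha : Prim a) (hb : Prim b) : pg a b = 1 ↔ IsRelPrime a b := by
  have := pg_mul_eq_iff prim_one ha hb
  rwa [one_mul, one_mul] at this

theorem pg_mem_SO {L : ℝ} {k l : M} (hk : k ∈ SO M L) (hl : l ∈ SO M L) : pg k l ∈ SO M L :=
  mem_SO_of_dvd hk (pg_prim (mem_SO.1 hk).2.prim (mem_SO.1 hl).2.prim)
    (pg_dvd_left (mem_SO.1 hk).2.prim (mem_SO.1 hl).2.prim)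

/-- weights on common divisors -/
theorem sum_weight {L : ℝ} {F : M → M → ℂ} (hF : Supp2 L F) (φ : M → ℂ) :
    ∑ d ∈ SO M L, φ d * ∑ m1 ∈ SO M L, ∑ m2 ∈ SO M L, F (d * m1) (d * m2) =
      ∑ n1 ∈ SO M L, ∑ n2 ∈ SO M L, (∑ d ∈ D (pg n1 n2), φ d) * F n1 n2 := by
  classical
  have h1 : ∀ d ∈ SO M L, φ d * ∑ m1 ∈ SO M L, ∑ m2 ∈ SO M L, F (d * m1) (d * m2) =
      ∑ n1 ∈ SO M L, ∑ n2 ∈ SO M L, (if d ∣ n1 ∧ d ∣ n2 then φ d * F n1 n2 else 0) := by
    intro d hd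
    rw [← sum_dvd2 (mem_SO.1 hd).2.prim hF, mul_sum]
    refine sum_congr rfl fun n1 _ => ?_
    rw [mul_sum]
    refine sum_congr rfl fun n2 _ => ?_
    split_ifs <;> simp
  rw [sum_congr rfl h1, sum_comm]
  refine sum_congr rfl fun n1 h1 => ?_
  rw [sum_comm]
  refine sum_congr rfl fun n2 h2 => ?_
  have p1 := (mem_SO.1 h1).2.prim
  have p2 := (mem_SO.1 h2).2.prim
  rw [sum_mul, ← sum_filter]
  refine sum_congr ?_ fun _ _ => rfl
  ext d
  rw [mem_filter, mem_D (pg_prim p1 p2).ne_zero, dvd_pg_iff p1 p2]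
  constructor
  · rintro ⟨h3, h4⟩
    exact ⟨(mem_SO.1 h3).2.prim, h4⟩
  · rintro ⟨h3, h4⟩
    exact ⟨mem_SO_of_dvd h1 h3 h4.1, h4⟩

/-- decomposition according to the gcd -/
theorem sum_gcd {L : ℝ} {F : M → M → ℂ} (hF : Supp2 L F) (ψ : M → ℂ) :
    ∑ n1 ∈ SO M L, ∑ n2 ∈ SO M L, ψ (pg n1 n2) * F n1 n2 =
      ∑ k ∈ SO M L, ψ k * ∑ m1 ∈ SO M L, ∑ m2 ∈ SO M L, cop m1 m2 * F (k * m1) (k * m2) := by
  classical
  have h1 : ∀ k ∈ SO M L, ∑ m1 ∈ SO M L, ∑ m2 ∈ SO M L, cop m1 m2 * F (k * m1) (k * m2) =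
      ∑ n1 ∈ SO M L, ∑ n2 ∈ SO M L, (if pg n1 n2 = k then F n1 n2 else 0) := by
    intro k hk
    have pk := (mem_SO.1 hk).2.prim
    have hF' : Supp2 L fun n1 n2 => if pg n1 n2 = k then F n1 n2 else 0 := by
      intro n1 n2 h
      simp [hF n1 n2 h]
    have h2 := sum_dvd2 pk hF'
    have h3 : ∑ m1 ∈ SO M L, ∑ m2 ∈ SO M L, cop m1 m2 * F (k * m1) (k * m2) =
        ∑ m1 ∈ SO M L, ∑ m2 ∈ SO M L,
          (if pg (k * m1) (k * m2) = k then F (k * m1) (k * m2) else 0) := by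
      refine sum_congr rfl fun m1 h1 => sum_congr rfl fun m2 h2 => ?_
      rw [cop]
      simp only [pg_mul_eq_iff pk (mem_SO.1 h1).2.prim (mem_SO.1 h2).2.prim, isRelPrime_comm (x := m2)]
      split_ifs <;> simp
    rw [h3, ← h2]
    refine sum_congr rfl fun n1 h1 => sum_congr rfl fun n2 h2 => ?_
    by_cases h : pg n1 n2 = k
    · rw [if_pos h, if_pos]
      rw [← dvd_pg_iff (mem_SO.1 h1).2.prim (mem_SO.1 h2).2.prim, h]
    · simp [h]
  have h2 : ∀ k ∈ SO M L, ψ k * ∑ m1 ∈ SO M L, ∑ m2 ∈ SO M L, cop m1 m2 * F (k * m1) (k * m2) =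
      ∑ n1 ∈ SO M L, ∑ n2 ∈ SO M L, (if pg n1 n2 = k then ψ k * F n1 n2 else 0) := by
    intro k hk
    rw [h1 k hk, mul_sum]
    refine sum_congr rfl fun n1 _ => ?_
    rw [mul_sum]
    refine sum_congr rfl fun n2 _ => ?_
    split_ifs <;> simp
  rw [sum_congr rfl h2, sum_comm (s := SO M L) (t := SO M L)
    (f := fun k n1 => ∑ n2 ∈ SO M L, (if pg n1 n2 = k then ψ k * F n1 n2 else 0))]
  refine sum_congr rfl fun n1 h1 => ?_
  rw [sum_comm]
  refine sum_congr rfl fun n2 h2 => ?_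
  rw [sum_ite_eq, if_pos (pg_mem_SO h1 h2)]

open Classical in
theorem sum_mob_D {δ : M} (h1 : Prim δ) (h2 : Squarefree δ) :
    ∑ d ∈ D δ, mob d = if δ = 1 then 1 else 0 := by
  classical
  have h := sum_mob δ h1 h2 0
  simp only [dvd_zero, if_true, isRelPrime_zero_right] at h
  rw [h]
  by_cases h3 : δ = 1
  · simp [h3]
  · rw [if_neg h3, if_neg]
    intro h4; exact h3 (h1.eq_one_of_isUnit h4)

/-- Moebius removal of coprimality -/
theorem sum_cop {L : ℝ} {G : M → M → ℂ} (hG : Supp2 L G) :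
    ∑ m1 ∈ SO M L, ∑ m2 ∈ SO M L, cop m1 m2 * G m1 m2 =
      ∑ d ∈ SO M L, mob d * ∑ n1 ∈ SO M L, ∑ n2 ∈ SO M L, G (d * n1) (d * n2) := by
  classical
  rw [sum_weight hG]
  refine sum_congr rfl fun m1 h1 => sum_congr rfl fun m2 h2 => ?_
  have p1 := (mem_SO.1 h1).2.prim
  have p2 := (mem_SO.1 h2).2.prim
  rw [sum_mob_D (pg_prim p1 p2) (mem_SO.1 (pg_mem_SO h1 h2)).2.2, cop]
  simp only [pg_eq_one_iff p1 p2, isRelPrime_comm (x := m2)]

/-! ### divisor bounds -/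

theorem exists_kernel {v : M} (hv : v ≠ 0) : ∃ r : M, Prim r ∧ Squarefree r ∧ r ∣ v ∧
    ∀ k : M, Prim k → Squarefree k → k ∣ v → k ∣ r := by
  classical
  set T := (D v).filter Squarefree with hT
  have hne : T.Nonempty := ⟨1, by
    rw [hT, mem_filter, mem_D hv]; exact ⟨⟨prim_one, one_dvd _⟩, squarefree_one⟩⟩
  obtain ⟨r, hr, hmax⟩ := T.exists_max_image N hne
  rw [hT, mem_filter, mem_D hv] at hr
  refine ⟨r, hr.1.1, hr.2, hr.1.2, fun k hk hsk hkv => ?_⟩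
  obtain ⟨δ, a, b, hδ, ha, hb, h1, h2, hab⟩ := exists_pgcd hk hr.1.1
  have hδa : IsRelPrime δ a := by
    rw [h1] at hsk
    exact (squarefree_mul_iff.1 hsk).1
  have hra : IsRelPrime r a := by
    rw [h2]; exact hδa.mul_left hab.symm
  have hsa : Squarefree a := hsk.squarefree_of_dvd ⟨δ, by rw [h1, mul_comm]⟩
  have hav : a ∣ v := (Dvd.intro_left δ h1.symm).trans hkv
  have h3 : r * a ∈ T := by
    rw [hT, mem_filter, mem_D hv]
    exact ⟨⟨hr.1.1.mul ha, hra.mul_dvd hr.1.2 hav⟩,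
      squarefree_mul_iff.2 ⟨hra, hr.2, hsa⟩⟩
  have h4 := hmax _ h3
  rw [N_mul] at h4
  have h5 : N a = 1 := by
    have p1 := hr.1.1.N_pos
    have p2 := ha.N_pos
    nlinarith
  have h6 : a = 1 := ha.eq_one_of_isUnit (isUnit_iff_N.2 h5)
  rw [h1, h6, mul_one, h2]
  exact dvd_mul_right _ _

variable (M) in
open Classical in
/-- the number of squarefree admissible divisors of a nonzero element -/
theorem card_SO_dvd_le {ε : ℝ} (hε : 0 < ε) : ∃ C : ℝ, 1 ≤ C ∧ ∀ (L : ℝ) (v : M), v ≠ 0 →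
    (((SO M L).filter (fun k => k ∣ v)).card : ℝ) ≤ C * (N v : ℝ) ^ ε := by
  obtain ⟨C, hC, h⟩ := card_D_le M hε
  refine ⟨C, hC, fun L v hv => ?_⟩
  obtain ⟨r, h1, h2, h3, h4⟩ := exists_kernel hv
  have hsub : (SO M L).filter (fun k => k ∣ v) ⊆ D r := by
    intro k hk
    rw [mem_filter, mem_SO] at hk
    rw [mem_D h1.ne_zero]
    exact ⟨hk.1.2.prim, h4 k hk.1.2.prim hk.1.2.2 hk.2⟩
  calc (((SO M L).filter (fun k => k ∣ v)).card : ℝ) ≤ (D r).card := by
        exact_mod_cast card_le_card hsub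
    _ ≤ C * (N r : ℝ) ^ ε := h r h1 h2
    _ ≤ C * (N v : ℝ) ^ ε := by
        have := N_le_of_dvd hv h3
        gcongr

theorem card_D_mono {a b : M} (hb : b ≠ 0) (h : a ∣ b) : (D a).card ≤ (D b).card := by
  apply card_le_card
  intro d hd
  rw [mem_D (ne_zero_of_dvd_ne_zero hb h)] at hd
  rw [mem_D hb]
  exact ⟨hd.1, hd.2.trans h⟩

variable (M) in
/-- `∑ τ(k)^j / N k ≪ L^ε` -/
theorem sum_tau_div_le (j : ℕ) {ε : ℝ} (hε : 0 < ε) : ∃ C : ℝ, 0 < C ∧ ∀ L : ℝ, 1 ≤ L →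
    ∑ k ∈ SO M L, ((D k).card : ℝ) ^ j * (N k : ℝ)⁻¹ ≤ C * L ^ ε := by
  obtain ⟨C1, hC1, h1⟩ := card_D_le M (ε := ε / 2 / (j + 1)) (by positivity)
  obtain ⟨C2, hC2, h2⟩ := sum_inv_N_le M (ε := ε / 2) (by positivity)
  refine ⟨C1 ^ j * C2, by positivity, fun L hL => ?_⟩
  have h3 : ∀ k ∈ SO M L, ((D k).card : ℝ) ^ j ≤ C1 ^ j * L ^ (ε / 2) := by
    intro k hk
    rw [mem_SO] at hk
    have h4 := h1 k hk.2.prim hk.2.2
    have h5 : (N k : ℝ) ^ (ε / 2 / (j + 1)) ≤ L ^ (ε / 2 / (j + 1)) := by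
      gcongr; exact hk.1
    calc ((D k).card : ℝ) ^ j ≤ (C1 * L ^ (ε / 2 / (j + 1))) ^ j := by
          gcongr
          exact h4.trans (by gcongr)
      _ = C1 ^ j * L ^ (ε / 2 / (j + 1) * j) := by
          rw [mul_pow, ← Real.rpow_natCast (L ^ _), ← Real.rpow_mul (by linarith)]
      _ ≤ C1 ^ j * L ^ (ε / 2) := by
          gcongr
          rw [div_mul_eq_mul_div, div_le_iff₀ (by positivity)]
          nlinarith
  calc ∑ k ∈ SO M L, ((D k).card : ℝ) ^ j * (N k : ℝ)⁻¹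
      ≤ ∑ k ∈ SO M L, C1 ^ j * L ^ (ε / 2) * (N k : ℝ)⁻¹ :=
        sum_le_sum fun k hk => by gcongr; exact h3 k hk
    _ = C1 ^ j * L ^ (ε / 2) * ∑ k ∈ SO M L, (N k : ℝ)⁻¹ := by rw [mul_sum]
    _ ≤ C1 ^ j * L ^ (ε / 2) * ∑ k ∈ Hn M L, (N k : ℝ)⁻¹ := by
        gcongr
        exact SO_subset_Hn L
    _ ≤ C1 ^ j * L ^ (ε / 2) * (C2 * L ^ (ε / 2)) := by
        gcongr
        exact h2 L (by linarith)
    _ = C1 ^ j * C2 * L ^ ε := by
        have : L ^ ε = L ^ (ε / 2) * L ^ (ε / 2) := by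
          rw [← Real.rpow_add (by linarith)]; congr 1; ring
        rw [this]; ring

variable (M) in
/-- `∑ τ(k)^j ≪ L^{1+ε}` -/
theorem sum_tau_le (j : ℕ) {ε : ℝ} (hε : 0 < ε) : ∃ C : ℝ, 0 < C ∧ ∀ L : ℝ, 1 ≤ L →
    ∑ k ∈ SO M L, ((D k).card : ℝ) ^ j ≤ C * (L * L ^ ε) := by
  obtain ⟨C, hC, h⟩ := sum_tau_div_le M j hε
  refine ⟨C, hC, fun L hL => ?_⟩
  calc ∑ k ∈ SO M L, ((D k).card : ℝ) ^ j ≤
      ∑ k ∈ SO M L, L * (((D k).card : ℝ) ^ j * (N k : ℝ)⁻¹) := by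
        refine sum_le_sum fun k hk => ?_
        rw [mem_SO] at hk
        have h1 := N_pos' hk.2.ne_zero
        rw [mul_left_comm, ← div_eq_mul_inv]
        exact le_mul_of_one_le_right (by positivity) ((one_le_div h1).2 hk.1)
    _ = L * ∑ k ∈ SO M L, ((D k).card : ℝ) ^ j * (N k : ℝ)⁻¹ := by rw [mul_sum]
    _ ≤ L * (C * L ^ ε) := by gcongr; exact h L hL
    _ = _ := by ring

/-! ### the character -/

namespace Sext

variable [Sc M] (S : Sext M)

theorem chi_eq_zero {n u : M} (hn : Prim n) (h : ¬ IsRelPrime u n) : S.chi n u = 0 := by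
  have h1 := S.conj_mul n u hn
  rw [cop, if_neg h, mul_comm, Complex.mul_conj, Complex.ofReal_eq_zero,
    Complex.normSq_eq_zero] at h1
  exact h1

theorem norm_chi {n u : M} (hn : Prim n) (h : IsRelPrime u n) : ‖S.chi n u‖ = 1 := by
  have h1 := S.conj_mul n u hn
  rw [cop, if_pos h, mul_comm, Complex.mul_conj, Complex.normSq_eq_norm_sq] at h1
  have h2 : ‖S.chi n u‖ ^ 2 = 1 := by exact_mod_cast h1
  exact (pow_eq_one_iff_of_nonneg (norm_nonneg _) two_ne_zero).1 h2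

theorem norm_chi_le {n : M} (hn : Prim n) (u : M) : ‖S.chi n u‖ ≤ 1 := by
  by_cases h : IsRelPrime u n
  · exact (S.norm_chi hn h).le
  · rw [S.chi_eq_zero hn h]; simp

theorem chi_one {n : M} (hn : Prim n) : S.chi n 1 = 1 := by
  have h1 := S.chi_mul n 1 1 hn
  rw [mul_one] at h1
  have h2 : S.chi n 1 ≠ 0 := by
    intro h
    have := S.norm_chi hn (u := 1) isRelPrime_one_left
    rw [h] at this; simp at this
  have h3 : S.chi n 1 * 1 = S.chi n 1 * S.chi n 1 := by rw [mul_one]; exact h1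
  exact (mul_left_cancel₀ h2 h3).symm

theorem chi_pow {n : M} (hn : Prim n) (u : M) (k : ℕ) : S.chi n (u ^ k) = S.chi n u ^ k := by
  induction k with
  | zero => simpa using S.chi_one hn
  | succ k ih => rw [pow_succ, S.chi_mul _ _ _ hn, ih, pow_succ]

theorem chi_pow_six {n : M} (hn : Prim n) (u : M) : S.chi n (u ^ 6) = cop n u := by
  rw [S.chi_pow hn, ← S.conj_mul n u hn, S.conj_eq n u hn]; ring

theorem chi_zero {n : M} (hn : Prim n) (h : n ≠ 1) : S.chi n 0 = 0 := by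
  apply S.chi_eq_zero hn
  intro h1
  exact h (hn.prim.eq_one_of_isUnit (isRelPrime_zero_left.1 h1))

theorem cop_mul_chi {n : M} (hn : Prim n) {k v : M} (h : k ∣ v) :
    cop n k * S.chi n v = S.chi n v := by
  rw [cop]
  split_ifs with h1
  · rw [one_mul]
  · rw [zero_mul, S.chi_eq_zero hn]
    intro h2
    exact h1 (h2.of_dvd_left h)

end Sext

theorem cop_mul_right (n a b : M) : cop n (a * b) = cop n a * cop n b := by
  have h : IsRelPrime (a * b) n ↔ IsRelPrime a n ∧ IsRelPrime b n := IsRelPrime.mul_left_iff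
  by_cases h1 : IsRelPrime a n <;> by_cases h2 : IsRelPrime b n <;> simp [cop, h, h1, h2]

theorem norm_cop_le (a b : M) : ‖cop a b‖ ≤ 1 := by
  rw [cop]; split_ifs <;> simp

theorem conj_cop (a b : M) : conj (cop a b) = cop a b := by
  rw [cop]; split_ifs <;> simp

end Vale.Agent.P016Z.Ab
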