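import Vale.Agent.P016Z.Ab.Iface
import Mathlib.RingTheory.Coprime.Lemmas

/-!
P016, abstract Poisson block: the truncated inversion of the cube divisors. The Gauss sum sums are bounded
through the completed theta sums (short cubes) and through themselves at shorter lengths (long
cubes).
-/

namespace Vale.Agent.P016Z.Ab

open Finset
open scoped ComplexConjugate

set_option linter.unusedSectionVars false

variable {O : Type} [CommMonoidWithZero O] [UniqueFactorizationMonoid O] [Ar O] [Sc O]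

theorem ps_one (t : Tw O) : ps t (1 : O) = 1 := by
  have h := ps_mul t (one_ne_zero' (M := O)) one_ne_zero'
  rw [mul_one] at h
  exact (mul_left_cancel₀ (ch_ne_zero t _) (by rw [mul_one]; exact h)).symm

namespace BBx

theorem N_pow3 (c : O) : (N (c ^ 3) : ℝ) = (N c : ℝ) ^ 3 := by
  rw [pow_three, N_mul', N_mul']; ring

theorem N_le_pow3 {c : O} (hc : c ≠ 0) : (N c : ℝ) ≤ (N c : ℝ) ^ 3 :=
  le_self_pow₀ (one_le_N hc) (by norm_num)

/-- uniqueness of the decomposition `n c ^ 3` -/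
theorem cube_unique {n n' c c' : O} (hn : Sq n) (hn' : Sq n') (hc : Prim c) (hc' : Prim c')
    (h : n * c ^ 3 = n' * c' ^ 3) : c = c' ∧ n = n' := by
  obtain ⟨δ, a, a', hδ, ha, ha', h1, h2, hab⟩ := exists_pgcd hc hc'
  have h3 : n * a ^ 3 = n' * a' ^ 3 := by
    refine mul_left_cancel₀ (pow_ne_zero 3 hδ.ne_zero) ?_
    rw [h1, h2, mul_pow, mul_pow] at h
    rw [mul_left_comm, h, mul_left_comm]
  have h4 : a = 1 := by
    have h5 : a ^ 3 ∣ n' * a' ^ 3 := ⟨n, by rw [← h3, mul_comm]⟩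
    have h6 : a ^ 3 ∣ n' := (hab.pow (m := 3) (n := 3)).dvd_of_dvd_mul_right h5
    exact ha.eq_one_of_isUnit (hn'.2 a ((Dvd.intro a (by rw [pow_three, mul_assoc])).trans h6))
  have h7 : a' = 1 := by
    have h5 : a' ^ 3 ∣ n * a ^ 3 := ⟨n', by rw [h3, mul_comm]⟩
    have h6 : a' ^ 3 ∣ n := (hab.symm.pow (m := 3) (n := 3)).dvd_of_dvd_mul_right h5
    exact ha'.eq_one_of_isUnit (hn.2 a' ((Dvd.intro a' (by rw [pow_three, mul_assoc])).trans h6))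
  rw [h4, h7] at h3
  rw [h1, h2, h4, h7]
  exact ⟨rfl, by simpa using h3⟩

open Classical in
/-- multiples of `d` among the admissible elements -/
theorem sum_dvd_AO {L : ℝ} {d : O} (hd : Prim d) {f : O → ℂ}
    (hf : ∀ n, Prim n → ¬ (N n : ℝ) ≤ L → f n = 0) :
    ∑ n ∈ AO O L, (if d ∣ n then f n else 0) = ∑ m ∈ AO O L, f (d * m) := by
  have hinj : ∀ x ∈ AO O L, ∀ y ∈ AO O L, d * x = d * y → x = y :=
    fun x _ y _ h => mul_left_cancel₀ hd.ne_zero h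
  rw [← sum_image (s := AO O L) (g := fun m => d * m) (f := f) hinj, ← sum_filter]
  refine sum_subset ?_ ?_
  · intro n hn
    rw [mem_filter, mem_AO] at hn
    obtain ⟨hn, m, rfl⟩ := hn
    rw [mem_image]
    refine ⟨m, mem_AO.2 ⟨(N_le_of_dvd hn.2.ne_zero (dvd_mul_left _ _)).trans hn.1,
      hd.of_mul_left hn.2⟩, rfl⟩
  · intro n hn hn'
    rw [mem_image] at hn
    obtain ⟨m, hm, rfl⟩ := hn
    have h1 : Prim (d * m) := hd.mul (mem_AO.1 hm).2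
    refine hf _ h1 fun h => hn' (mem_filter.2 ⟨mem_AO.2 ⟨h, h1⟩, dvd_mul_right _ _⟩)

/-- weighted Cauchy-Schwarz inequality -/
theorem norm_sum_sq_le {s : Finset O} (hs : ∀ i ∈ s, i ≠ 0) (u : O → ℂ) :
    ‖∑ i ∈ s, u i‖ ^ 2 ≤ (∑ i ∈ s, (N i : ℝ)⁻¹) * ∑ i ∈ s, (N i : ℝ) * ‖u i‖ ^ 2 := by
  have h1 : ‖∑ i ∈ s, u i‖ ≤ ∑ i ∈ s, (√(N i : ℝ))⁻¹ * (√(N i : ℝ) * ‖u i‖) := by
    refine (norm_sum_le _ _).trans (le_of_eq (sum_congr rfl fun i hi => ?_))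
    have : 0 < √(N i : ℝ) := Real.sqrt_pos.2 (N_pos' (hs i hi))
    field_simp
  have h2 := sum_mul_sq_le_sq_mul_sq s (fun i => (√(N i : ℝ))⁻¹) (fun i => √(N i : ℝ) * ‖u i‖)
  calc ‖∑ i ∈ s, u i‖ ^ 2 ≤ (∑ i ∈ s, (√(N i : ℝ))⁻¹ * (√(N i : ℝ) * ‖u i‖)) ^ 2 := by gcongr
    _ ≤ _ := h2
    _ = _ := by
      congr 1
      · exact sum_congr rfl fun i _ => by rw [inv_pow, Real.sq_sqrt (Nat.cast_nonneg _)]
      · exact sum_congr rfl fun i _ => by rw [mul_pow, Real.sq_sqrt (Nat.cast_nonneg _)]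

open Classical in
/-- the truncated Moebius sum -/
noncomputable def lamb (Z : ℝ) (c : O) : ℂ := ∑ b ∈ SO O Z, if b ∣ c then mob b else 0

open Classical in
theorem lamb_short {Z : ℝ} {c : O} (hc : Prim c) (hZ : (N c : ℝ) ≤ Z) :
    lamb Z c = if c = 1 then 1 else 0 := by
  classical
  obtain ⟨r, h1, h2, h3, h4⟩ := exists_kernel hc.ne_zero
  have hr : Sq r := ⟨h1, h2⟩
  have e : (SO O Z).filter (fun b => b ∣ c) = D r := by
    ext b
    rw [mem_filter, mem_SO, mem_D h1.ne_zero]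
    constructor
    · rintro ⟨⟨-, h5⟩, h6⟩
      exact ⟨h5.prim, h4 b h5.prim h5.2 h6⟩
    · rintro ⟨h5, h6⟩
      exact ⟨⟨(N_le_of_dvd hc.ne_zero (h6.trans h3)).trans hZ, hr.of_dvd h5 h6⟩, h6.trans h3⟩
  rw [lamb, ← sum_filter, e, sum_mob_D h1 h2]
  by_cases h5 : c = 1
  · rw [if_pos h5, if_pos]
    rw [h5] at h3
    exact h1.eq_one_of_isUnit (isUnit_of_dvd_one h3)
  · rw [if_neg h5, if_neg]
    intro h6
    have hu : ¬ IsUnit c := fun h => h5 (hc.prim.eq_one_of_isUnit h)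
    obtain ⟨q, hq, hqc⟩ := WfDvdMonoid.exists_irreducible_factor hu hc.ne_zero
    obtain ⟨p, hp, hqp⟩ := hc.prim.exists_prim_of_dvd hqc
    have hpi : Irreducible p := (hqp.irreducible_iff).1 hq
    have h7 := h4 p hp hpi.squarefree ((hqp.dvd_iff_dvd_left).1 hqc)
    rw [h6] at h7
    exact hpi.not_isUnit (isUnit_of_dvd_one h7)

variable (O) in
theorem norm_lamb_le {ε : ℝ} (hε : 0 < ε) : ∃ C : ℝ, 1 ≤ C ∧ ∀ (Z : ℝ) (c : O), c ≠ 0 →
    ‖lamb Z c‖ ≤ C * (N c : ℝ) ^ ε := by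
  classical
  obtain ⟨C, hC, h⟩ := card_SO_dvd_le O hε
  refine ⟨C, hC, fun Z c hc => le_trans ?_ (h Z c hc)⟩
  rw [lamb, ← sum_filter]
  refine (norm_sum_le _ _).trans (le_of_eq ?_)
  simp [norm_mob]

section

variable (S : Sext O) (κ : O → ℂ) {W : ℝ → ℂ} {b : ℝ} (X : ℝ) (t : Tw O) (v : O)

/-- the Gauss sum sum attached to the cube divisor `c` -/
noncomputable def Bc (W : ℝ → ℂ) (c : O) : ℂ :=
  S.Bs (fun n => ps t (c ^ 3) * κ (c ^ 3 * n)) W (X / (N c : ℝ) ^ 3) t v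

/-- the completed sum attached to the cube divisor `c` -/
noncomputable def Tc (W : ℝ → ℂ) (c : O) : ℂ :=
  Tsum S (fun n => ps t (c ^ 3) * κ (c ^ 3 * n)) W (X / (N c : ℝ) ^ 3) t v

/-- the term of the cube divisor `c` -/
noncomputable def Uc (W : ℝ → ℂ) (c : O) : ℂ := S.w c * S.chi c v ^ 3 * Bc S κ X t v W c

variable {X}

theorem Bs_eq_zero (hb : ∀ x, W x ≠ 0 → x ≤ b) (hX : 0 < X) (h : b * X < 1) :
    S.Bs κ W X t v = 0 := by
  rw [Sext.Bs, S.Sm_eq _ hb hX le_rfl]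
  refine sum_eq_zero fun n hn => ?_
  rw [mem_SO] at hn
  have := one_le_N hn.2.ne_zero
  linarith [hn.1]

theorem Bc_eq_zero (hb : ∀ x, W x ≠ 0 → x ≤ b) (hX : 0 < X) {c : O} (hc : c ≠ 0)
    (h : b * X < (N c : ℝ) ^ 3) : Bc S κ X t v W c = 0 := by
  have hN := N_pos' hc
  refine Bs_eq_zero S _ t v hb (by positivity) ?_
  rw [← mul_div_assoc, div_lt_one (by positivity)]
  exact h

theorem chi_cube {c : O} (hc : Prim c) : S.chi (c ^ 3) v = S.chi c v ^ 3 := by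
  rw [pow_three, S.chi_mul_left _ _ _ hc (hc.mul hc), S.chi_mul_left _ _ _ hc hc]; ring

/-- the completed sum in terms of the Gauss sum sums -/
theorem Tsum_eq (hb0 : 0 ≤ b) (hb : ∀ x, W x ≠ 0 → x ≤ b) (hX : 0 < X) {L : ℝ}
    (hL : b * X ≤ L) : Tsum S κ W X t v = ∑ c ∈ AO O L, Uc S κ X t v W c := by
  classical
  set F : O → ℂ := fun m => S.tau m * κ m * S.chi m v * wt W t X m with hF
  have hinj : ∀ x ∈ AO O L ×ˢ SO O L, ∀ y ∈ AO O L ×ˢ SO O L,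
      x.2 * x.1 ^ 3 = y.2 * y.1 ^ 3 → x = y := by
    intro x hx y hy h
    rw [mem_product, mem_AO, mem_SO] at hx hy
    obtain ⟨h1, h2⟩ := cube_unique hx.2.2 hy.2.2 hx.1.2.prim hy.1.2.prim h
    exact Prod.ext h1 h2
  have h1 : Tsum S κ W X t v =
      ∑ m ∈ (AO O L ×ˢ SO O L).image (fun x : O × O => x.2 * x.1 ^ 3), F m := by
    rw [Tsum, tsum_eq_sum (s := (AO O L ×ˢ SO O L).image (fun x : O × O => x.2 * x.1 ^ 3))]
    · refine sum_congr rfl fun m hm => if_pos ?_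
      rw [mem_image] at hm
      obtain ⟨x, hx, rfl⟩ := hm
      rw [mem_product, mem_AO, mem_SO] at hx
      exact hx.2.2.1.mul (hx.1.2.pow 3)
    · intro m hm
      split_ifs with h
      · by_cases h2 : ∃ n c : O, Sq n ∧ Prim c ∧ m = n * c ^ 3
        · obtain ⟨n, c, hn, hc, rfl⟩ := h2
          rw [wt_eq_zero hb hX hL, mul_zero]
          intro h3
          refine hm (mem_image.2 ⟨(c, n), mem_product.2 ⟨mem_AO.2 ⟨?_, hc⟩, mem_SO.2 ⟨?_, hn⟩⟩,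
            rfl⟩)
          · exact (N_le_of_dvd h.ne_zero ⟨n * c ^ 2, by rw [mul_left_comm, ← pow_succ']⟩).trans h3
          · exact (N_le_of_dvd h.ne_zero (dvd_mul_right _ _)).trans h3
        · rw [S.tau_zero m h h2, zero_mul, zero_mul, zero_mul]
      · rfl
  rw [h1, sum_image hinj, sum_product]
  refine sum_congr rfl fun c hc => ?_
  rw [mem_AO] at hc
  have hN := one_le_N hc.2.ne_zero
  have hN3 : (1 : ℝ) ≤ (N c : ℝ) ^ 3 := one_le_pow₀ hN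
  have hL' : b * (X / (N c : ℝ) ^ 3) ≤ L :=
    le_trans (mul_le_mul_of_nonneg_left (div_le_self hX.le hN3) hb0) hL
  rw [Uc, Bc, Sext.Bs, S.Sm_eq _ hb (by positivity) hL', mul_sum]
  refine sum_congr rfl fun n hn => ?_
  rw [mem_SO] at hn
  simp only [hF]
  rw [S.tau_eq n c hn.2 hc.2, S.chi_mul_left _ _ _ hn.2.1 (hc.2.pow 3), chi_cube S v hc.2,
    mul_comm n (c ^ 3), wt_mul W t X (pow_ne_zero 3 hc.2.ne_zero) hn.2.ne_zero, N_pow3]
  ring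

theorem Uc_mul {d c : O} (hd : Prim d) (hc : Prim c) :
    S.w d * S.chi d v ^ 3 * 
      Uc S (fun n => ps t (d ^ 3) * κ (d ^ 3 * n)) (X / (N d : ℝ) ^ 3) t v W c =
      Uc S κ X t v W (d * c) := by
  have e1 : (fun n => ps t (c ^ 3) * (ps t (d ^ 3) * κ (d ^ 3 * (c ^ 3 * n)))) =
      fun n => ps t ((d * c) ^ 3) * κ ((d * c) ^ 3 * n) := by
    funext n
    rw [mul_pow, ps_mul t (pow_ne_zero 3 hd.ne_zero) (pow_ne_zero 3 hc.ne_zero), mul_assoc (d ^ 3)]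
    ring
  have e2 : X / (N d : ℝ) ^ 3 / (N c : ℝ) ^ 3 = X / (N (d * c) : ℝ) ^ 3 := by
    rw [N_mul', mul_pow, div_div]
  rw [Uc, Uc, Bc, Bc, e1, e2, S.w_mul d c hd hc, S.chi_mul_left d c v hd hc]
  ring

theorem Uc_one : Uc S κ X t v W 1 = S.Bs κ W X t v := by
  rw [Uc, Bc, S.w_one, S.chi_one_left]
  simp [ps_one]

/-- the truncated inversion -/
theorem inversion (hb1 : 1 ≤ b) (hb : ∀ x, W x ≠ 0 → x ≤ b) (hX : 1 ≤ X) {Z : ℝ} (hZ : 1 ≤ Z) :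
    S.Bs κ W X t v = ∑ d ∈ SO O Z, mob d * (S.w d * S.chi d v ^ 3 * Tc S κ X t v W d) -
      ∑ c ∈ (AO O (b * X)).filter (fun c => Z < N c), lamb Z c * Uc S κ X t v W c := by
  classical
  have hX0 : 0 < X := by linarith
  have hbX : 1 ≤ b * X := one_le_mul_of_one_le_of_one_le hb1 hX
  have hU : ∀ c, Prim c → ¬ (N c : ℝ) ≤ b * X → Uc S κ X t v W c = 0 := by
    intro c hc h
    rw [Uc, Bc_eq_zero S κ t v hb hX0 hc.ne_zero
      (lt_of_lt_of_le (not_le.1 h) (N_le_pow3 hc.ne_zero)), mul_zero]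
  have h1 : ∀ d ∈ SO O Z, mob d * (S.w d * S.chi d v ^ 3 * Tc S κ X t v W d) =
      ∑ c ∈ AO O (b * X), (if d ∣ c then mob d else 0) * Uc S κ X t v W c := by
    intro d hd
    rw [mem_SO] at hd
    have hN := one_le_N hd.2.ne_zero
    have hN3 : (1 : ℝ) ≤ (N d : ℝ) ^ 3 := one_le_pow₀ hN
    have hL' : b * (X / (N d : ℝ) ^ 3) ≤ b * X :=
      mul_le_mul_of_nonneg_left (div_le_self hX0.le hN3) (by linarith)
    rw [Tc, Tsum_eq S _ t v (by linarith) hb (by positivity) hL', mul_sum,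
      sum_congr rfl fun c hc => Uc_mul S κ t v hd.2.1 (mem_AO.1 hc).2,
      ← sum_dvd_AO hd.2.1 hU, mul_sum]
    refine sum_congr rfl fun c _ => ?_
    split_ifs <;> simp
  rw [sum_congr rfl h1, sum_comm]
  have h2 : ∀ c ∈ AO O (b * X), ∑ d ∈ SO O Z, (if d ∣ c then mob d else 0) * Uc S κ X t v W c =
      lamb Z c * Uc S κ X t v W c := fun c _ => by rw [lamb, sum_mul]
  rw [sum_congr rfl h2, ← sum_filter_add_sum_filter_not (AO O (b * X)) (fun c => Z < N c),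
    add_sub_cancel_left]
  have h3 : ∀ c ∈ (AO O (b * X)).filter (fun c => ¬ Z < N c), lamb Z c * Uc S κ X t v W c =
      if c = 1 then Uc S κ X t v W c else 0 := by
    intro c hc
    rw [mem_filter, mem_AO] at hc
    rw [lamb_short hc.1.2 (not_lt.1 hc.2)]
    split_ifs <;> simp
  rw [sum_congr rfl h3, sum_ite_eq', if_pos, Uc_one]
  rw [mem_filter, mem_AO]
  simp only [N_one, Nat.cast_one]
  exact ⟨⟨hbX, prim_one⟩, not_lt.2 hZ⟩

theorem norm_w_chi_sq {c : O} (hc : Prim c) : ‖S.w c * S.chi c v ^ 3‖ ^ 2 ≤ (N c : ℝ) := by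
  have h1 := S.norm_w c hc
  have h2 : ‖S.chi c v‖ ^ 3 ≤ 1 := pow_le_one₀ (norm_nonneg _) (S.norm_chi_le hc v)
  have h3 : ‖S.w c * S.chi c v ^ 3‖ ≤ √(N c : ℝ) := by
    rw [norm_mul, norm_pow]
    calc ‖S.w c‖ * ‖S.chi c v‖ ^ 3 ≤ √(N c : ℝ) * 1 := by gcongr
      _ = _ := mul_one _
  calc ‖S.w c * S.chi c v ^ 3‖ ^ 2 ≤ √(N c : ℝ) ^ 2 := by gcongr
    _ = (N c : ℝ) := Real.sq_sqrt (Nat.cast_nonneg _)

/-- the pointwise inequality -/
theorem pointwise (hb1 : 1 ≤ b) (hb : ∀ x, W x ≠ 0 → x ≤ b) (hX : 1 ≤ X) {Z : ℝ} (hZ : 1 ≤ Z) :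
    ‖S.Bs κ W X t v‖ ^ 2 ≤
      2 * ((∑ d ∈ Hn O Z, (N d : ℝ)⁻¹) * ∑ d ∈ SO O Z, (N d : ℝ) ^ 2 * ‖Tc S κ X t v W d‖ ^ 2) +
      2 * ((∑ c ∈ Hn O (b * X), (N c : ℝ)⁻¹) * ∑ c ∈ (AO O (b * X)).filter (fun c => Z < N c),
        (N c : ℝ) ^ 2 * ‖lamb Z c‖ ^ 2 * ‖Bc S κ X t v W c‖ ^ 2) := by
  rw [inversion S κ t v hb1 hb hX hZ]
  set A := ∑ d ∈ SO O Z, mob d * (S.w d * S.chi d v ^ 3 * Tc S κ X t v W d) with hA
  set B := ∑ c ∈ (AO O (b * X)).filter (fun c => Z < N c), lamb Z c * Uc S κ X t v W c with hB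
  have h0 : ‖A - B‖ ^ 2 ≤ 2 * ‖A‖ ^ 2 + 2 * ‖B‖ ^ 2 := by
    have h1 := norm_sub_le A B
    have h2 : ‖A - B‖ ^ 2 ≤ (‖A‖ + ‖B‖) ^ 2 := by gcongr
    nlinarith [sq_nonneg (‖A‖ - ‖B‖)]
  refine h0.trans (add_le_add ?_ ?_)
  · refine mul_le_mul_of_nonneg_left ?_ (by norm_num)
    refine (norm_sum_sq_le (fun i hi => (mem_SO.1 hi).2.ne_zero) _).trans ?_
    refine mul_le_mul (sum_le_sum_of_subset_of_nonneg (SO_subset_Hn Z) fun _ _ _ => by positivity)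
      (sum_le_sum fun d hd => ?_) (sum_nonneg fun _ _ => by positivity)
      (sum_nonneg fun _ _ => by positivity)
    have h1 := norm_w_chi_sq S v (mem_SO.1 hd).2.1
    rw [norm_mul, norm_mob, one_mul, norm_mul, mul_pow]
    calc (N d : ℝ) * (‖S.w d * S.chi d v ^ 3‖ ^ 2 * ‖Tc S κ X t v W d‖ ^ 2)
        ≤ (N d : ℝ) * (N d * ‖Tc S κ X t v W d‖ ^ 2) := by gcongr
      _ = _ := by ring
  · refine mul_le_mul_of_nonneg_left ?_ (by norm_num)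
    refine (norm_sum_sq_le (fun i hi => (mem_AO.1 (mem_filter.1 hi).1).2.ne_zero) _).trans ?_
    refine mul_le_mul (sum_le_sum_of_subset_of_nonneg
      ((filter_subset _ _).trans (AO_subset_Hn _)) fun _ _ _ => by positivity)
      (sum_le_sum fun c hc => ?_) (sum_nonneg fun _ _ => by positivity)
      (sum_nonneg fun _ _ => by positivity)
    have h1 := norm_w_chi_sq S v (mem_AO.1 (mem_filter.1 hc).1).2
    rw [Uc, norm_mul, norm_mul, mul_pow, mul_pow]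
    calc (N c : ℝ) * (‖lamb Z c‖ ^ 2 * (‖S.w c * S.chi c v ^ 3‖ ^ 2 * ‖Bc S κ X t v W c‖ ^ 2))
        ≤ (N c : ℝ) * (‖lamb Z c‖ ^ 2 * (N c * ‖Bc S κ X t v W c‖ ^ 2)) := by gcongr
      _ = _ := by ring

end

end BBx

open BBx in
/-- **the Gauss sum sums through the completed theta sums** -/
theorem bb_of_pb (S : Sext O) {θ β : ℝ} (h0 : 0 ≤ θ) (h1 : θ ≤ 1) (hβ : 0 ≤ β) (hT : TB S)
    (hP : PB S θ β) : BB S θ β := by
  intro W hW δ hδ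
  obtain ⟨a, b, M, -, -, hb1, -, hab, -⟩ := hW.bounds
  have hb : ∀ x, W x ≠ 0 → x ≤ b := fun x hx => (hab x hx).2
  have hb0 : 0 < b := by linarith
  set ε := δ / 5 with hε
  have hε0 : 0 < ε := by positivity
  obtain ⟨CT, KT, hCT⟩ := hT W hW ε hε0
  obtain ⟨CP, KP, hCP0, hCP⟩ := hP W hW ε hε0
  obtain ⟨C1, hC1, hs1⟩ := sum_inv_N_le O hε0
  obtain ⟨C2, hC2, hs2⟩ := norm_lamb_le O hε0
  refine ⟨2 * (C1 ^ 2 * max CT 0) + 2 * (C1 ^ 2 * C2 ^ 2 * CP * (b * b ^ (θ + β) * b ^ δ)),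
    KT + KP, by positivity, fun κ hκ t X Y Z Dm hZ hZX hXD hY hDY => ?_⟩
  have hZ3 : Z ≤ Z ^ 3 := le_self_pow₀ hZ (by norm_num)
  have hX : 1 ≤ X := hZ.trans (hZ3.trans hZX)
  have hD : 1 ≤ Dm := hX.trans hXD
  have hX0 : 0 < X := by linarith
  have hDY1 : Dm ≤ Dm * Y := le_mul_of_one_le_right (by linarith) hY
  have ht := one_le_sz t
  have hsz := sz_pos t
  have hKT : sz t ^ KT ≤ sz t ^ (KT + KP) := pow_le_pow_right₀ ht (by omega)
  have hKP : sz t ^ KP ≤ sz t ^ (KT + KP) := pow_le_pow_right₀ ht (by omega)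
  set P := (Dm * Y) ^ ε with hPdef
  have hP1 : 1 ≤ P := Real.one_le_rpow (hD.trans hDY1) hε0.le
  have hP5 : P ^ 5 = (Dm * Y) ^ δ := by
    rw [hPdef, ← Real.rpow_natCast, ← Real.rpow_mul (by linarith)]
    congr 1
    rw [hε]; push_cast; ring
  set Q := b ^ ε with hQdef
  have hQ0 : 0 < Q := Real.rpow_pos_of_pos hb0 _
  have hQ5 : Q ^ 5 = b ^ δ := by
    rw [hQdef, ← Real.rpow_natCast, ← Real.rpow_mul hb0.le]
    congr 1
    rw [hε]; push_cast; ring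
  have hQP : ∀ x : ℝ, 0 ≤ x → x ≤ b * X → x ^ ε ≤ Q * P := by
    intro x hx hx'
    rw [hQdef, hPdef, ← Real.mul_rpow hb0.le (by linarith)]
    refine Real.rpow_le_rpow hx (hx'.trans ?_) hε0.le
    exact mul_le_mul_of_nonneg_left (hXD.trans hDY1) hb0.le
  have hsZ : ∑ d ∈ Hn O Z, (N d : ℝ)⁻¹ ≤ C1 * P := by
    refine (hs1 Z (by linarith)).trans (mul_le_mul_of_nonneg_left ?_ hC1.le)
    exact Real.rpow_le_rpow (by linarith) (hZ3.trans (hZX.trans (hXD.trans hDY1))) hε0.le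
  have hsL : ∑ c ∈ Hn O (b * X), (N c : ℝ)⁻¹ ≤ C1 * (Q * P) :=
    (hs1 (b * X) (by positivity)).trans
      (mul_le_mul_of_nonneg_left (hQP _ (by positivity) le_rfl) hC1.le)
  -- short cubes
  have hshort : ∀ d ∈ SO O Z, ∑ h ∈ Hn O Y, (N d : ℝ) ^ 2 * ‖Tc S κ X t h W d‖ ^ 2 ≤
      (max CT 0 * sz t ^ (KT + KP) * P * (X * Y + Z ^ 3 * Y ^ 2)) * (N d : ℝ)⁻¹ := by
    intro d hd
    rw [mem_SO] at hd
    have hN := one_le_N hd.2.ne_zero
    have hN0 : (0 : ℝ) < N d := by linarith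
    have hN3 : (N d : ℝ) ^ 3 ≤ Z ^ 3 := by gcongr; exact hd.1
    have hXd : 1 ≤ X / (N d : ℝ) ^ 3 := (one_le_div (by positivity)).2 (hN3.trans hZX)
    have hXd' : X / (N d : ℝ) ^ 3 ≤ Dm := (div_le_self hX0.le (one_le_pow₀ hN)).trans hXD
    have h2 := hCT _ ((hκ.comp_mul (d ^ 3)).const_mul (norm_ps t (d ^ 3)).le) t (X / (N d : ℝ) ^ 3) Y hXd hY
    have h3 : (X / (N d : ℝ) ^ 3 * Y) ^ ε ≤ P :=
      Real.rpow_le_rpow (by positivity) (by gcongr) hε0.le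
    have h4 : (N d : ℝ) ^ 2 * (X / (N d : ℝ) ^ 3 * (Y + Y ^ 2 / (X / (N d : ℝ) ^ 3))) ≤
        (X * Y + Z ^ 3 * Y ^ 2) * (N d : ℝ)⁻¹ := by
      have e : (N d : ℝ) ^ 2 * (X / (N d : ℝ) ^ 3 * (Y + Y ^ 2 / (X / (N d : ℝ) ^ 3))) =
          (X * Y + (N d : ℝ) ^ 3 * Y ^ 2) * (N d : ℝ)⁻¹ := by field_simp
      rw [e]
      gcongr
    rw [← mul_sum]
    calc (N d : ℝ) ^ 2 * ∑ h ∈ Hn O Y, ‖Tc S κ X t h W d‖ ^ 2
        ≤ (N d : ℝ) ^ 2 * (max CT 0 * sz t ^ (KT + KP) * P *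
          (X / (N d : ℝ) ^ 3 * (Y + Y ^ 2 / (X / (N d : ℝ) ^ 3)))) := by
          refine mul_le_mul_of_nonneg_left (h2.trans ?_) (by positivity)
          have h5 : CT ≤ max CT 0 := le_max_left _ _
          have h6 : 0 ≤ max CT 0 := le_max_right _ _
          gcongr
      _ = max CT 0 * sz t ^ (KT + KP) * P * ((N d : ℝ) ^ 2 *
          (X / (N d : ℝ) ^ 3 * (Y + Y ^ 2 / (X / (N d : ℝ) ^ 3)))) := by ring
      _ ≤ max CT 0 * sz t ^ (KT + KP) * P * ((X * Y + Z ^ 3 * Y ^ 2) * (N d : ℝ)⁻¹) := by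
          have h6 : 0 ≤ max CT 0 := le_max_right _ _
          gcongr
      _ = _ := by ring
  -- long cubes
  set R := (Dm / Z ^ 3) ^ (θ + β) with hR
  have hR0 : 0 ≤ R := by positivity
  have hlong : ∀ c ∈ (AO O (b * X)).filter (fun c => Z < N c),
      ∑ h ∈ Hn O Y, (N c : ℝ) ^ 2 * ‖lamb Z c‖ ^ 2 * ‖Bc S κ X t h W c‖ ^ 2 ≤
      (C2 ^ 2 * CP * sz t ^ (KT + KP) * (Q * P) ^ 3 * (b * b ^ (θ + β)) * (Y * X * R)) *
        (N c : ℝ)⁻¹ := by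
    intro c hc
    rw [mem_filter, mem_AO] at hc
    have hN := one_le_N hc.1.2.ne_zero
    have hN0 : (0 : ℝ) < N c := by linarith
    by_cases hc3 : b * X < (N c : ℝ) ^ 3
    · rw [sum_eq_zero fun h _ => by
        rw [Bc_eq_zero S κ t h hb hX0 hc.1.2.ne_zero hc3]; simp]
      positivity
    have hc3 : (N c : ℝ) ^ 3 ≤ b * X := not_lt.1 hc3
    have hXc0 : 0 < X / (N c : ℝ) ^ 3 := by positivity
    have hXc : X / (N c : ℝ) ^ 3 ≤ X := div_le_self hX0.le (one_le_pow₀ hN)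
    have hm1 : max 1 (X / (N c : ℝ) ^ 3) ≤ X := max_le hX hXc
    have hm0 : 0 < max 1 (X / (N c : ℝ) ^ 3) := lt_of_lt_of_le one_pos (le_max_left _ _)
    have hm2 : max 1 (X / (N c : ℝ) ^ 3) ≤ b * X / (N c : ℝ) ^ 3 := by
      refine max_le ((one_le_div (by positivity)).2 hc3) ?_
      gcongr
      exact le_mul_of_one_le_left hX0.le hb1
    have hm3 : max 1 (X / (N c : ℝ) ^ 3) ≤ b * (Dm / Z ^ 3) := by
      refine hm2.trans ?_
      rw [mul_div_assoc]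
      have := hc.2.le
      gcongr
    have h2 := hCP _ ((hκ.comp_mul (c ^ 3)).const_mul (norm_ps t (c ^ 3)).le) t (X / (N c : ℝ) ^ 3) Y hXc0 hY
      ((Real.rpow_le_rpow hm0.le (hm1.trans hXD) (by linarith)).trans hDY)
    have h3 : (max 1 (X / (N c : ℝ) ^ 3)) ^ (1 + θ + β + ε) ≤
        b * X / (N c : ℝ) ^ 3 * (b ^ (θ + β) * R) * (Q * P) := by
      rw [show 1 + θ + β + ε = 1 + (θ + β) + ε by ring, Real.rpow_add hm0, Real.rpow_add hm0,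
        Real.rpow_one, hR, ← Real.mul_rpow hb0.le (by positivity)]
      have h4 := hQP _ hm0.le (hm1.trans (le_mul_of_one_le_left hX0.le hb1))
      have h5 := Real.rpow_le_rpow hm0.le hm3 (show 0 ≤ θ + β by linarith)
      gcongr
    have h6 : ‖lamb Z c‖ ≤ C2 * (Q * P) :=
      (hs2 Z c hc.1.2.ne_zero).trans
        (mul_le_mul_of_nonneg_left (hQP _ hN0.le hc.1.1) (by linarith))
    rw [← mul_sum]
    calc (N c : ℝ) ^ 2 * ‖lamb Z c‖ ^ 2 * ∑ h ∈ Hn O Y, ‖Bc S κ X t h W c‖ ^ 2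
        ≤ (N c : ℝ) ^ 2 * (C2 * (Q * P)) ^ 2 * (CP * sz t ^ (KT + KP) * Y *
          (b * X / (N c : ℝ) ^ 3 * (b ^ (θ + β) * R) * (Q * P))) := by
          refine mul_le_mul (by gcongr) (h2.trans ?_) (sum_nonneg fun _ _ => by positivity)
            (by positivity)
          gcongr
      _ = _ := by field_simp
  -- assembly
  have hA0 : 0 ≤ max CT 0 * sz t ^ (KT + KP) * P * (X * Y + Z ^ 3 * Y ^ 2) := by
    have h6 : 0 ≤ max CT 0 := le_max_right _ _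
    positivity
  have hB0 : 0 ≤ C2 ^ 2 * CP * sz t ^ (KT + KP) * (Q * P) ^ 3 * (b * b ^ (θ + β)) *
      (Y * X * R) := by positivity
  have s1 : ∑ h ∈ Hn O Y, ∑ d ∈ SO O Z, (N d : ℝ) ^ 2 * ‖Tc S κ X t h W d‖ ^ 2 ≤
      (max CT 0 * sz t ^ (KT + KP) * P * (X * Y + Z ^ 3 * Y ^ 2)) * (C1 * P) := by
    rw [sum_comm]
    refine (sum_le_sum hshort).trans ?_
    rw [← mul_sum]
    refine mul_le_mul_of_nonneg_left (le_trans ?_ hsZ) hA0
    exact sum_le_sum_of_subset_of_nonneg (SO_subset_Hn Z) fun _ _ _ => by positivity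
  have s2 : ∑ h ∈ Hn O Y, ∑ c ∈ (AO O (b * X)).filter (fun c => Z < N c),
      (N c : ℝ) ^ 2 * ‖lamb Z c‖ ^ 2 * ‖Bc S κ X t h W c‖ ^ 2 ≤
      (C2 ^ 2 * CP * sz t ^ (KT + KP) * (Q * P) ^ 3 * (b * b ^ (θ + β)) * (Y * X * R)) *
        (C1 * (Q * P)) := by
    rw [sum_comm]
    refine (sum_le_sum hlong).trans ?_
    rw [← mul_sum]
    refine mul_le_mul_of_nonneg_left (le_trans ?_ hsL) hB0
    exact sum_le_sum_of_subset_of_nonneg ((filter_subset _ _).trans (AO_subset_Hn _))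
      fun _ _ _ => by positivity
  have hP3 : P ^ 3 ≤ P ^ 5 := pow_le_pow_right₀ hP1 (by norm_num)
  have h6 : 0 ≤ max CT 0 := le_max_right _ _
  have hYXR : 0 ≤ Y * X * R := by positivity
  have hXY : 0 ≤ X * Y + Z ^ 3 * Y ^ 2 := by positivity
  calc ∑ h ∈ Hn O Y, ‖S.Bs κ W X t h‖ ^ 2
      ≤ ∑ h ∈ Hn O Y, (2 * ((∑ d ∈ Hn O Z, (N d : ℝ)⁻¹) *
          ∑ d ∈ SO O Z, (N d : ℝ) ^ 2 * ‖Tc S κ X t h W d‖ ^ 2) +
        2 * ((∑ c ∈ Hn O (b * X), (N c : ℝ)⁻¹) * ∑ c ∈ (AO O (b * X)).filter (fun c => Z < N c),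
          (N c : ℝ) ^ 2 * ‖lamb Z c‖ ^ 2 * ‖Bc S κ X t h W c‖ ^ 2)) :=
        sum_le_sum fun h _ => pointwise S κ t h hb1 hb hX hZ
    _ = 2 * ((∑ d ∈ Hn O Z, (N d : ℝ)⁻¹) *
          ∑ h ∈ Hn O Y, ∑ d ∈ SO O Z, (N d : ℝ) ^ 2 * ‖Tc S κ X t h W d‖ ^ 2) +
        2 * ((∑ c ∈ Hn O (b * X), (N c : ℝ)⁻¹) *
          ∑ h ∈ Hn O Y, ∑ c ∈ (AO O (b * X)).filter (fun c => Z < N c),
            (N c : ℝ) ^ 2 * ‖lamb Z c‖ ^ 2 * ‖Bc S κ X t h W c‖ ^ 2) := by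
        rw [sum_add_distrib, ← mul_sum, ← mul_sum, ← mul_sum, ← mul_sum]
    _ ≤ 2 * ((C1 * P) * ((max CT 0 * sz t ^ (KT + KP) * P * (X * Y + Z ^ 3 * Y ^ 2)) *
          (C1 * P))) +
        2 * ((C1 * (Q * P)) * ((C2 ^ 2 * CP * sz t ^ (KT + KP) * (Q * P) ^ 3 *
          (b * b ^ (θ + β)) * (Y * X * R)) * (C1 * (Q * P)))) := by
        gcongr
    _ = 2 * (C1 ^ 2 * max CT 0) * sz t ^ (KT + KP) * P ^ 3 * (X * Y + Z ^ 3 * Y ^ 2) +
        2 * (C1 ^ 2 * C2 ^ 2 * CP * (b * b ^ (θ + β) * Q ^ 5)) * sz t ^ (KT + KP) * P ^ 5 *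
          (Y * X * R) := by ring
    _ ≤ 2 * (C1 ^ 2 * max CT 0) * sz t ^ (KT + KP) * P ^ 5 *
          (X * Y + Z ^ 3 * Y ^ 2 + Y * X * R) +
        2 * (C1 ^ 2 * C2 ^ 2 * CP * (b * b ^ (θ + β) * Q ^ 5)) * sz t ^ (KT + KP) * P ^ 5 *
          (X * Y + Z ^ 3 * Y ^ 2 + Y * X * R) := by
        have e1 : X * Y + Z ^ 3 * Y ^ 2 ≤ X * Y + Z ^ 3 * Y ^ 2 + Y * X * R := by linarith
        have e2 : Y * X * R ≤ X * Y + Z ^ 3 * Y ^ 2 + Y * X * R := by linarith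
        exact add_le_add
          (mul_le_mul (mul_le_mul_of_nonneg_left hP3 (by positivity)) e1 hXY (by positivity))
          (mul_le_mul_of_nonneg_left e2 (by positivity))
    _ = _ := by rw [hP5, hQ5]; ring

end Vale.Agent.P016Z.Ab
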