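import Vale.Agent.P016Z.Ab.Iface

/-!
P016, abstract Poisson block: the mean square with a coprimality condition follows from the plain one.
-/

namespace Vale.Agent.P016Z.Ab

open Finset
open scoped ComplexConjugate

set_option linter.unusedSectionVars false

variable {O : Type} [CommMonoidWithZero O] [UniqueFactorizationMonoid O] [Ar O] [Sc O]

theorem CopAux.cop_prime {p : O} (hpp : Prime p) (n : O) [Decidable (p ∣ n)] :
    cop n p = if p ∣ n then 0 else 1 := by
  rw [cop]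
  by_cases h : p ∣ n
  · rw [if_pos h, if_neg]
    intro h1
    exact hpp.not_isUnit (h1 dvd_rfl h)
  · rw [if_neg h, if_pos ((hpp.irreducible.isRelPrime_iff_not_dvd).2 h)]

theorem CopAux.cop_mul_left {p k : O} (hc : IsRelPrime p k) (m : O) :
    cop (p * m) k = cop m k := by
  have h : IsRelPrime k (p * m) ↔ IsRelPrime k m :=
    ⟨fun h => h.of_mul_right_right, fun h => hc.symm.mul_right h⟩
  by_cases h1 : IsRelPrime k m <;> simp [cop, h, h1]

/-- removing one prime from the coprimality condition -/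
theorem Sext.copAc_mul (S : Sext O) {p k : O} (hp : Sq p) (hpp : Prime p) (hc : IsRelPrime p k)
    (κ : O → ℂ) {W : ℝ → ℂ} {b : ℝ} (hb0 : 0 ≤ b) (hb : ∀ x, W x ≠ 0 → x ≤ b) {X : ℝ}
    (hX : 0 < X) (t : Tw O) (u : O) :
    S.Ac (p * k) κ W X t u = S.Ac k κ W X t u +
      S.chi p u * S.Ac (p * k) (fun n => ps t p * κ (p * n)) W (X / N p) t u := by
  classical
  have hNp : (0 : ℝ) < N p := N_pos' hp.ne_zero
  have hNp1 : (1 : ℝ) ≤ N p := one_le_N hp.ne_zero
  have hX' : 0 < X / N p := div_pos hX hNp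
  have hL' : b * (X / N p) ≤ b * X := mul_le_mul_of_nonneg_left (div_le_self hX.le hNp1) hb0
  unfold Sext.Ac
  rw [S.Sm_eq _ hb hX le_rfl, S.Sm_eq _ hb hX le_rfl, S.Sm_eq _ hb hX' hL']
  set L := b * X with hL
  set f : O → ℂ := fun n => mob n * (cop n k * κ n) * S.chi n u * wt W t X n with hf
  have h1 : ∀ n ∈ SO O L, f n = mob n * (cop n (p * k) * κ n) * S.chi n u * wt W t X n +
      (if p ∣ n then (if n ∈ SO O L then f n else 0) else 0) := by
    intro n hn
    rw [cop_mul_right, CopAux.cop_prime hpp, if_pos hn]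
    by_cases h : p ∣ n <;> simp [h, hf]
  have h2 := sum_dvd (L := L) hp.prim (f := fun n => if n ∈ SO O L then f n else 0)
    (fun n hn => if_neg hn)
  have h3 : ∀ m ∈ SO O L, (if p * m ∈ SO O L then f (p * m) else 0) =
      - (S.chi p u * (mob m * (cop m (p * k) * (ps t p * κ (p * m))) * S.chi m u *
        wt W t (X / N p) m)) := by
    intro m hm
    have hsm := (mem_SO.1 hm).2
    have e1 := wt_mul W t X hp.ne_zero hsm.ne_zero
    rw [cop_mul_right]
    by_cases h : p * m ∈ SO O L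
    · have hs := (mem_SO.1 h).2
      have hcm : IsRelPrime p m := hs.coprime
      have e2 : cop m p = 1 := by rw [cop, if_pos hcm]
      rw [if_pos h, hf]
      simp only
      rw [mob_mul hpp hsm.ne_zero, CopAux.cop_mul_left hc, S.chi_mul_left _ _ _ hp.1 hsm.1, e2, e1]
      ring
    · rw [if_neg h]
      by_cases h4 : (N (p * m) : ℝ) ≤ L
      · have h5 : ¬ IsRelPrime p m := fun h5 => h (mem_SO.2 ⟨h4, hp.mul hsm h5⟩)
        have e2 : cop m p = 0 := by rw [cop, if_neg h5]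
        rw [e2]; ring
      · rw [wt_eq_zero hb hX le_rfl h4] at e1
        linear_combination (-(S.chi p u * mob m * (cop m p * cop m k) * κ (p * m) * S.chi m u)) * e1
  rw [sum_congr rfl h1, sum_add_distrib, h2, sum_congr rfl h3, sum_neg_distrib, mul_sum]
  ring

theorem Sext.copAc_eq_zero (S : Sext O) (c0 : O) (κ : O → ℂ) {W : ℝ → ℂ} {b : ℝ}
    (hb : ∀ x, W x ≠ 0 → x ≤ b) {X : ℝ} (hX : 0 < X) (h : b * X < 1) (t : Tw O) (u : O) :
    S.Ac c0 κ W X t u = 0 := by
  unfold Sext.Ac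
  rw [S.Sm_eq _ hb hX le_rfl]
  refine sum_eq_zero fun n hn => ?_
  rw [mem_SO] at hn
  have := one_le_N hn.2.ne_zero
  linarith [hn.1]

theorem Sext.copAc_one (S : Sext O) (κ : O → ℂ) (W : ℝ → ℂ) (X : ℝ) (t : Tw O) (u : O) :
    S.Ac 1 κ W X t u = Asum S κ W X t u := by
  rw [S.Asum_eq, Sext.Ac]
  congr 1
  funext n
  rw [cop, if_pos isRelPrime_one_left, one_mul]

theorem CopAux.norm_add_sq_le (x y : ℂ) : ‖x + y‖ ^ 2 ≤ 2 * ‖x‖ ^ 2 + 2 * ‖y‖ ^ 2 := by
  have h := norm_add_le x y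
  have h1 : ‖x + y‖ ^ 2 ≤ (‖x‖ + ‖y‖) ^ 2 := by gcongr
  nlinarith [sq_nonneg (‖x‖ - ‖y‖)]

theorem cop_of_MB (S : Sext O) {θ β : ℝ} (h0 : 0 ≤ θ) (hβ : 0 ≤ β) :
    MBexp S θ β → COP S θ β := by
  intro hMB W hW δ hδ
  obtain ⟨C, K, hC⟩ := hMB W hW δ hδ
  obtain ⟨-, a, b0, -, hab⟩ := hW
  set b := max b0 0 with hbdef
  have hb0 : 0 ≤ b := le_max_right _ _
  have hb : ∀ x, W x ≠ 0 → x ≤ b := fun x hx => (hab x hx).2.trans (le_max_left _ _)
  refine ⟨max C 0, K, le_max_right _ _, ?_⟩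
  intro c0 hc0 κ hκ t X H hX hH hXH
  have hsz := sz_pos t
  set A : ℝ := max C 0 * sz t ^ K with hA
  have hA0 : 0 ≤ A := by positivity
  have hH0 : 0 ≤ H ^ (1 + δ) := by positivity
  suffices key : ∀ c : O, Prim c → Squarefree c → (Prim c → ∀ κ : O → ℂ, Cls κ →
      ∀ X : ℝ, 0 < X → X ^ (1 + θ) ≤ H → ∑ u ∈ Hn O H, ‖S.Ac c κ W X t u‖ ^ 2 ≤
        A * ((D c).card : ℝ) ^ 2 * X ^ (1 + β) * H ^ (1 + δ)) from
    key c0 hc0.prim hc0.2 hc0.1 κ hκ X hX hXH
  refine sf_induction ?_ ?_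
  · intro _ κ hκ X hX hXH
    simp only [S.copAc_one, D_one, card_singleton, Nat.cast_one, one_pow, mul_one]
    refine (hC κ hκ t X H hX hH hXH).trans ?_
    rw [hA]
    gcongr
    exact le_max_left _ _
  · intro p k hp hpp hk hsk hc ih hadm
    have hpa : Prim p := hp
    have hka : Prim k := hk
    have hps : Sq p := ⟨hpa, hpp.squarefree⟩
    have hNp4 : (4 : ℝ) ≤ N p := by exact_mod_cast Ar.four_le p hp hpp.ne_one
    have hNp : (0 : ℝ) < N p := by linarith
    have inner : ∀ j : ℕ, ∀ κ : O → ℂ, Cls κ → ∀ X : ℝ, 0 < X → X ^ (1 + θ) ≤ H →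
        b * X < 4 ^ j → ∑ u ∈ Hn O H, ‖S.Ac (p * k) κ W X t u‖ ^ 2 ≤
          4 * (A * ((D k).card : ℝ) ^ 2 * X ^ (1 + β) * H ^ (1 + δ)) := by
      intro j
      induction j with
      | zero =>
        intro κ _ X hX _ hj
        rw [pow_zero] at hj
        rw [sum_eq_zero fun u _ => by rw [S.copAc_eq_zero _ _ hb hX hj]; simp]
        positivity
      | succ j ihj =>
        intro κ hκ X hX hXH hj
        have hX' : 0 < X / N p := div_pos hX hNp
        have hle : X / N p ≤ X / 4 := by gcongr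
        have hle' : X / N p ≤ X := by linarith
        have h1 : (X / N p) ^ (1 + θ) ≤ H :=
          (Real.rpow_le_rpow hX'.le hle' (by linarith)).trans hXH
        have h2 : b * (X / N p) < 4 ^ j := by
          have : b * (X / N p) ≤ b * (X / 4) := by gcongr
          rw [pow_succ] at hj
          linarith
        have h3 := ihj _ ((hκ.comp_mul p).const_mul (norm_ps t p).le) _ hX' h1 h2
        have h4 := ih hka κ hκ X hX hXH
        have h5 : (X / N p) ^ (1 + β) ≤ X ^ (1 + β) / 4 := by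
          rw [Real.rpow_add hX', Real.rpow_add hX, Real.rpow_one, Real.rpow_one]
          have : (X / N p) ^ β ≤ X ^ β := Real.rpow_le_rpow hX'.le hle' hβ
          calc X / N p * (X / N p) ^ β ≤ X / 4 * X ^ β := by gcongr
            _ = _ := by ring
        have h6 : ∀ u ∈ Hn O H, ‖S.Ac (p * k) κ W X t u‖ ^ 2 ≤ 2 * ‖S.Ac k κ W X t u‖ ^ 2 +
            2 * ‖S.Ac (p * k) (fun n => ps t p * κ (p * n)) W (X / N p) t u‖ ^ 2 := by
          intro u _
          rw [S.copAc_mul hps hpp hc κ hb0 hb hX t u]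
          refine (CopAux.norm_add_sq_le _ _).trans ?_
          rw [norm_mul]
          have h7 := S.norm_chi_le hpa u
          have h8 : ‖S.chi p u‖ * ‖S.Ac (p * k) (fun n => ps t p * κ (p * n)) W (X / N p) t u‖ ≤
              ‖S.Ac (p * k) (fun n => ps t p * κ (p * n)) W (X / N p) t u‖ :=
            mul_le_of_le_one_left (norm_nonneg _) h7
          gcongr
        refine (sum_le_sum h6).trans ?_
        rw [sum_add_distrib, ← mul_sum, ← mul_sum]
        have h9 : A * ((D k).card : ℝ) ^ 2 * (X / N p) ^ (1 + β) * H ^ (1 + δ) ≤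
            A * ((D k).card : ℝ) ^ 2 * (X ^ (1 + β) / 4) * H ^ (1 + δ) := by gcongr
        linarith
    intro κ hκ X hX hXH
    obtain ⟨j, hj⟩ := pow_unbounded_of_one_lt (b * X) (by norm_num : (1 : ℝ) < 4)
    refine (inner j κ hκ X hX hXH hj).trans (le_of_eq ?_)
    rw [card_D_mul hp hpp hk hc]
    push_cast
    ring

end Vale.Agent.P016Z.Ab
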