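import Mathlib.RingTheory.UniqueFactorizationDomain.Basic
import Mathlib.Algebra.Squarefree.Basic
import Mathlib.MeasureTheory.Integral.Bochner.Basic
import Mathlib.Analysis.SpecialFunctions.Pow.Complex
import Mathlib.Analysis.SpecialFunctions.Pow.Real
import Mathlib.Analysis.Calculus.ContDiff.Defs

/-!
P016, abstract multiplicative context for the Poisson method over a number field.

Intended model: `R` the ring of `S`-integers (a principal ideal domain), `U` the group of sixth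
powers of `S`-units, `M` the quotient of the multiplicative monoid of `R` by `U`, `Prim` the image
of a multiplicative choice of generators of the ideals, `J` the classes modulo sixth powers at the
places of `S`, `G` the group of absolute values at the places of `S` modulo `U`, `T` the dual group.
-/

namespace Vale.Agent.P016Z.Ab

open MeasureTheory
open scoped ComplexConjugate ContDiff

/-- norm, chosen generators and classes -/
class Ar (M : Type) [CommMonoidWithZero M] where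
  N : M → ℕ
  Prim : M → Prop
  J : Type
  fin : Fintype J
  cm : M → J
  N_mul : ∀ a b : M, N (a * b) = N a * N b
  N_one : N 1 = 1
  N_zero : N 0 = 0
  N_pos : ∀ a : M, a ≠ 0 → 0 < N a
  isUnit_of_N : ∀ a : M, N a = 1 → IsUnit a
  summable_N : ∀ s : ℝ, 1 < s → Summable fun a : M => (N a : ℝ) ^ (-s)
  prim_one : Prim 1
  prim_mul : ∀ a b : M, Prim a → Prim b → Prim (a * b)
  prim_ne : ∀ a : M, Prim a → a ≠ 0
  prim_dvd : ∀ k d : M, Prim k → d ∣ k → ∃ d' : M, Prim d' ∧ Associated d d'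
  prim_eq : ∀ a b : M, Prim a → Prim b → Associated a b → a = b
  four_le : ∀ a : M, Prim a → a ≠ 1 → 4 ≤ N a
  cm_mul : ∀ c x y : M, cm x = cm y → cm (c * x) = cm (c * y)

/-- the scale group, the theta weight and its Mellin representation -/
class Sc (M : Type) [CommMonoidWithZero M] [Ar M] where
  G : Type
  T : Type
  grp : CommGroup G
  agr : AddCommGroup T
  msp : MeasurableSpace T
  mu : Measure T
  sc : M → G
  nG : G → ℝ
  Th : G → ℝ
  dl : G
  ch : T → G → ℂ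
  sz : T → ℝ
  em : ℝ → T
  sc_mul : ∀ a b : M, a ≠ 0 → b ≠ 0 → sc (a * b) = sc a * sc b
  nG_mul : ∀ x y : G, nG (x * y) = nG x * nG y
  nG_pos : ∀ x : G, 0 < nG x
  nG_sc : ∀ a : M, a ≠ 0 → nG (sc a) = Ar.N a
  nG_surj : ∀ x : ℝ, 0 < x → ∃ γ : G, nG γ = x
  nG_dl : nG dl = 1
  Th_nonneg : ∀ γ : G, 0 ≤ Th γ
  Th_lower : ∃ c0 c1 : ℝ, 0 < c0 ∧ 0 < c1 ∧ ∀ γ : G, nG γ ≤ c0 → c1 ≤ Th γ
  ch_mul : ∀ (τ : T) (x y : G), ch τ (x * y) = ch τ x * ch τ y
  ch_add : ∀ (τ τ' : T) (x : G), ch (τ + τ') x = ch τ x * ch τ' x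
  norm_ch : ∀ (τ : T) (x : G), ‖ch τ x‖ = 1
  ch_meas : ∀ x : G, Measurable fun τ : T => ch τ x
  ch_em : ∀ (t : ℝ) (x : G), ch (em t) x = (nG x : ℂ) ^ ((t : ℂ) * Complex.I)
  one_le_sz : ∀ τ : T, 1 ≤ sz τ
  sz_add : ∀ τ τ' : T, sz (τ + τ') ≤ sz τ * sz τ'
  sz_neg : ∀ τ : T, sz (-τ) = sz τ
  sz_em : ∀ t : ℝ, sz (em t) ≤ 1 + |t|
  mellin : ∀ σ : ℝ, 0 < σ → ∃ ρ : T → ℂ, AEStronglyMeasurable ρ mu ∧
    (∀ K : ℕ, Integrable (fun τ => ‖ρ τ‖ * sz τ ^ K) mu) ∧
    ∀ γ : G, (Th γ : ℂ) = ∫ τ, ρ τ * (((nG γ ^ (-σ) : ℝ) : ℂ) * conj (ch τ γ)) ∂mu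

variable {M : Type} [CommMonoidWithZero M] [Ar M]

/-- the norm -/
abbrev N (a : M) : ℕ := Ar.N a

/-- the chosen generators -/
def Prim (a : M) : Prop := Ar.Prim a

/-- the classes -/
abbrev J (M : Type) [CommMonoidWithZero M] [Ar M] : Type := Ar.J M

instance : Fintype (J M) := Ar.fin

/-- the class of an element -/
abbrev cm (a : M) : J M := Ar.cm a

/-- squarefree chosen generators -/
def Sq (n : M) : Prop := Prim n ∧ Squarefree n

/-- class functions -/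
def Per (κ : M → ℂ) : Prop := ∀ x y : M, cm x = cm y → κ x = κ y

/-- class functions bounded by `1` -/
def Cls (κ : M → ℂ) : Prop := Per κ ∧ ∀ x, ‖κ x‖ ≤ 1

open Classical in
/-- indicator of coprimality -/
noncomputable def cop (m x : M) : ℂ := if IsRelPrime x m then 1 else 0

theorem finite_N_le (M : Type) [CommMonoidWithZero M] [Ar M] (X : ℝ) :
    {z : M | (N z : ℝ) ≤ X ∧ z ≠ 0}.Finite := by
  have hs := (Ar.summable_N (M := M) 2 one_lt_two).tendsto_cofinite_zero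
  have h0 : (0 : ℝ) < (max X 1) ^ (-2 : ℝ) := by positivity
  have h1 := hs.eventually (gt_mem_nhds h0)
  rw [Filter.eventually_cofinite] at h1
  refine h1.subset fun z hz => ?_
  have p : (0 : ℝ) < N z := by exact_mod_cast Ar.N_pos z hz.2
  simp only [Set.mem_ofPred_eq, not_lt]
  exact Real.rpow_le_rpow_of_nonpos p (hz.1.trans (le_max_left _ _)) (by norm_num)

/-- nonzero elements of norm at most `X` -/
noncomputable def Hn (M : Type) [CommMonoidWithZero M] [Ar M] (X : ℝ) : Finset M :=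
  (finite_N_le M X).toFinset

/-- the Moebius sign `(-1)^{number of prime factors}` -/
noncomputable def mob [UniqueFactorizationMonoid M] (d : M) : ℂ :=
  (-1) ^ (UniqueFactorizationMonoid.factors d).card

/-- smooth weights with compact support in `(0, ∞)` -/
def IsWt (W : ℝ → ℂ) : Prop :=
  ContDiff ℝ ∞ W ∧ ∃ a b : ℝ, 0 < a ∧ ∀ x, W x ≠ 0 → a ≤ x ∧ x ≤ b

variable [Sc M]

/-- the scale group -/
abbrev Gr (M : Type) [CommMonoidWithZero M] [Ar M] [Sc M] : Type := Sc.G M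

/-- the dual group -/
abbrev Tw (M : Type) [CommMonoidWithZero M] [Ar M] [Sc M] : Type := Sc.T M

instance : CommGroup (Gr M) := Sc.grp

instance : AddCommGroup (Tw M) := Sc.agr

instance : MeasurableSpace (Tw M) := Sc.msp

/-- the scale of an element -/
abbrev sc (a : M) : Gr M := Sc.sc a

/-- the norm on the scale group -/
abbrev nG (x : Gr M) : ℝ := Sc.nG x

/-- the size of a twist -/
abbrev sz (τ : Tw M) : ℝ := Sc.sz τ

/-- the twist of an element -/
abbrev ps (τ : Tw M) (n : M) : ℂ := Sc.ch τ (sc n)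

open Classical in
/-- the theta weight of a frequency at scale `A` -/
noncomputable def gw (A : Gr M) (x : M) : ℝ := if x = 0 then 1 else Sc.Th (sc x / A)

/-- the twisted weight `W(N n / X) ψ_τ(n)` -/
noncomputable def wt (W : ℝ → ℂ) (τ : Tw M) (X : ℝ) (n : M) : ℂ := W (N n / X) * ps τ n

/-- The sextic data used by the Poisson block. Intended meaning: `chi n u = (u/n)_6`, `g` the
normalised cubic Gauss sum, `tau` the theta coefficient, `Esg`, `E2` class factors;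
`pair` is Poisson summation together with the evaluation of the Gauss sums. -/
structure Sext (M : Type) [CommMonoidWithZero M] [UniqueFactorizationMonoid M] [Ar M] [Sc M] where
  chi : M → M → ℂ
  g : M → ℂ
  Esg : M → M → ℂ
  E2 : M → M → ℂ
  w : M → ℂ
  tau : M → ℂ
  chi_mul : ∀ n u v : M, Prim n → chi n (u * v) = chi n u * chi n v
  chi_mul_left : ∀ a b u : M, Prim a → Prim b → chi (a * b) u = chi a u * chi b u
  chi_one_left : ∀ u : M, chi 1 u = 1
  conj_mul : ∀ n u : M, Prim n → conj (chi n u) * chi n u = cop n u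
  conj_eq : ∀ n u : M, Prim n → conj (chi n u) = chi n u ^ 5
  norm_g : ∀ n : M, Sq n → ‖g n‖ = 1
  g_mul : ∀ d n : M, Sq d → Sq n → IsRelPrime d n →
    g (d * n) = g d * g n * chi n (d ^ 4) * E2 d n
  E2_per : ∀ d : M, Per (E2 d)
  norm_E2 : ∀ d n : M, ‖E2 d n‖ ≤ 1
  pair : ∀ (a b : M) (A : Gr M), Sq a → Sq b → IsRelPrime a b →
    (∑' x : M, (conj (chi a x) * chi b x) * (gw A x : ℂ)) =
      ((nG A / (Real.sqrt (N a) * Real.sqrt (N b)) : ℝ) : ℂ) *
        ((Esg a b * (mob a * mob b) * (g a * conj (g b))) *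
          ∑' x : M, (conj (chi b x) * chi a x) * (gw (Sc.dl * (sc a * sc b) / A) x : ℂ))
  Esg_per_left : ∀ b : M, Per (fun a => Esg a b)
  Esg_per_right : ∀ a : M, Per (Esg a)
  norm_Esg : ∀ a b : M, ‖Esg a b‖ ≤ 1
  w_mul : ∀ b c : M, Prim b → Prim c → w (b * c) = w b * w c
  w_one : w 1 = 1
  norm_w : ∀ b : M, Prim b → ‖w b‖ ≤ Real.sqrt (N b)
  tau_eq : ∀ n b : M, Sq n → Prim b → tau (n * b ^ 3) = g n * w b
  tau_zero : ∀ k : M, Prim k → (¬ ∃ n b : M, Sq n ∧ Prim b ∧ k = n * b ^ 3) → tau k = 0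

variable [UniqueFactorizationMonoid M]

open Classical in
/-- the Moebius sum `∑ μ(n) κ(n) χ_n(u) W(N n / D) ψ_τ(n)` over squarefree generators `n` -/
noncomputable def Asum (S : Sext M) (κ : M → ℂ) (W : ℝ → ℂ) (D : ℝ) (t : Tw M) (u : M) : ℂ :=
  ∑' n : M, if Sq n then mob n * κ n * S.chi n u * wt W t D n else 0

open Classical in
/-- the completed theta sum `∑ τ(m) κ(m) χ_m(h) W(N m / X) ψ_τ(m)` over generators `m` -/
noncomputable def Tsum (S : Sext M) (κ : M → ℂ) (W : ℝ → ℂ) (X : ℝ) (t : Tw M) (h : M) : ℂ :=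
  ∑' m : M, if Prim m then S.tau m * κ m * S.chi m h * wt W t X m else 0

/-- the theta input: mean square of the completed sums over all `h ≠ 0` -/
def TB (S : Sext M) : Prop :=
  ∀ W : ℝ → ℂ, IsWt W → ∀ ε : ℝ, 0 < ε → ∃ (C : ℝ) (K : ℕ), ∀ κ : M → ℂ, Cls κ →
    ∀ (t : Tw M) (X Y : ℝ), 1 ≤ X → 1 ≤ Y →
      ∑ h ∈ Hn M Y, ‖Tsum S κ W X t h‖ ^ 2 ≤
        C * sz t ^ K * (X * Y) ^ ε * (X * (Y + Y ^ 2 / X))

/-- the Moebius mean square with exponent `β` in the range `H ≥ D^{1+θ}` -/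
def MBexp (S : Sext M) (θ β : ℝ) : Prop :=
  ∀ W : ℝ → ℂ, IsWt W → ∀ δ : ℝ, 0 < δ → ∃ (C : ℝ) (K : ℕ), ∀ κ : M → ℂ, Cls κ →
    ∀ (t : Tw M) (D H : ℝ), 0 < D → 1 ≤ H → D ^ (1 + θ) ≤ H →
      ∑ u ∈ Hn M H, ‖Asum S κ W D t u‖ ^ 2 ≤ C * sz t ^ K * D ^ (1 + β) * H ^ (1 + δ)

/-- the output of the block -/
def MB (S : Sext M) : Prop :=
  ∀ θ : ℝ, 0 < θ → ∀ W : ℝ → ℂ, IsWt W → ∀ δ : ℝ, 0 < δ → ∃ (C : ℝ) (K : ℕ),
    ∀ κ : M → ℂ, Cls κ → ∀ (t : Tw M) (D H : ℝ), 0 < D → 1 ≤ H → D ^ (1 + θ) ≤ H →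
      ∑ u ∈ Hn M H, ‖Asum S κ W D t u‖ ^ 2 ≤ C * sz t ^ K * D * H ^ (1 + δ)

end Vale.Agent.P016Z.Ab
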