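import Vale.Agent.P016Z.Ab.Main
import Mathlib.Algebra.Order.Chebyshev

/-!
P016, abstract Poisson block: from the mean square of the twisted Moebius sums to a bound for the
plain Moebius sum (amplification over sixth powers).
-/

namespace Vale.Agent.P016Z.Ab

open Finset
open scoped ComplexConjugate

set_option linter.unusedSectionVars false

variable {O : Type} [CommMonoidWithZero O] [UniqueFactorizationMonoid O] [Ar O] [Sc O]

variable (O) in
open Classical in
/-- the smoothed Moebius sum over squarefree generators -/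
noncomputable def Msum (W : ℝ → ℂ) (X : ℝ) : ℂ :=
  ∑' n : O, if Sq n then mob n * W (N n / X) else 0

variable (O) in
/-- cancellation in smoothed Moebius sums -/
def MuB (θ : ℝ) : Prop :=
  ∀ W : ℝ → ℂ, IsWt W → ∀ σ : ℝ, θ < σ → ∃ C : ℝ, ∀ X : ℝ, 1 ≤ X → ‖Msum O W X‖ ≤ C * X ^ σ

theorem one_le_tsum_gw (A : Gr O) : 1 ≤ ∑' x : O, gw A x := by
  have h := (summable_gw0 A).le_tsum 0 fun x _ => gw_nonneg A x
  rwa [gw_zero] at h

theorem sc_one : sc (1 : O) = 1 := by
  have h := sc_mul (one_ne_zero' (M := O)) one_ne_zero'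
  rw [mul_one] at h
  exact (mul_left_cancel (a := sc (1 : O)) (by rw [mul_one]; exact h)).symm

/-- the theta-weighted number of elements grows at least linearly -/
theorem tsum_gw_ge (S : Sext O) : ∃ c : ℝ, 0 < c ∧ ∀ A : Gr O, c * nG A ≤ ∑' x : O, gw A x := by
  have h1 : ∀ B : Gr O, S.psum B 1 1 = ((∑' x : O, gw B x : ℝ) : ℂ) := by
    intro B
    rw [Sext.psum, Complex.ofReal_tsum]
    refine tsum_congr fun x => ?_
    rw [S.chi_one_left, map_one, one_mul, one_mul]
  have h2 : ∀ A : Gr O, ∑' x : O, gw A x =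
      nG A * (‖S.cst 1 1‖ * ∑' x : O, gw (Sc.dl * (sc (1 : O) * sc (1 : O)) / A) x) := by
    intro A
    have h := congrArg norm (S.psum_eq_Fd sq_one sq_one isRelPrime_one_left A)
    rw [Sext.Fd, h1, h1, norm_mul, norm_mul, Complex.norm_real, Complex.norm_real,
      Complex.norm_real, N_one, Nat.cast_one, Real.sqrt_one, mul_one, div_one,
      Real.norm_of_nonneg (nG_pos A).le,
      Real.norm_of_nonneg (zero_le_one.trans (one_le_tsum_gw _)),
      Real.norm_of_nonneg (zero_le_one.trans (one_le_tsum_gw _))] at h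
    exact h
  refine ⟨‖S.cst 1 1‖, ?_, fun A => ?_⟩
  · refine lt_of_le_of_ne (norm_nonneg _) fun h0 => ?_
    have h3 := one_le_tsum_gw (1 : Gr O)
    rw [h2, ← h0, zero_mul, mul_zero] at h3
    linarith
  · rw [h2, mul_comm]
    exact mul_le_mul_of_nonneg_left
      (le_mul_of_one_le_right (norm_nonneg _) (one_le_tsum_gw _)) (nG_pos A).le

/-- a lower bound for the number of elements of bounded norm -/
theorem card_Hn_ge (S : Sext O) {ε : ℝ} (hε : 0 < ε) : ∃ c : ℝ, 0 < c ∧ ∀ P : ℝ, 1 ≤ P →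
    c * P ^ (1 - ε) ≤ ((Hn O P).card : ℝ) := by
  classical
  obtain ⟨c, hc, h0⟩ := tsum_gw_ge S
  set η := ε / 2 with hη
  have hη0 : 0 < η := by positivity
  obtain ⟨C1, hC1, h1⟩ := Th_le O hη0
  obtain ⟨C2, hC2, h2⟩ := Th_le O (σ := 2 + 2 / η) (by positivity)
  have hZ := summable_N_rpow (M := O) one_lt_two
  set Z : ℝ := ∑' x : O, (N x : ℝ) ^ (-2 : ℝ) with hZdef
  have hZ0 : 0 ≤ Z := tsum_nonneg fun _ => by positivity
  refine ⟨c / (1 + C1 + C2 * Z), by positivity, fun P hP => ?_⟩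
  have hP0 : 0 < P := by linarith
  set Y := P ^ (1 + η)⁻¹ with hY
  have hY1 : 1 ≤ Y := Real.one_le_rpow hP (by positivity)
  have hY0 : 0 < Y := by linarith
  have hPY : P = Y ^ (1 + η) := by
    rw [hY, ← Real.rpow_mul hP0.le, inv_mul_cancel₀ (by positivity), Real.rpow_one]
  obtain ⟨A, hA⟩ := Sc.nG_surj (M := O) Y hY0
  have hA' : nG A = Y := hA
  have hcard : (1 : ℝ) ≤ (Hn O P).card := by
    have : (1 : O) ∈ Hn O P := mem_Hn.2 ⟨by simpa using hP, one_ne_zero'⟩
    exact_mod_cast card_pos.2 ⟨_, this⟩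
  have hYη : 1 ≤ Y ^ η := Real.one_le_rpow hY1 hη0.le
  have hpt : ∀ x : O, gw A x ≤ (if x = 0 then 1 else 0) +
      ((if x ∈ Hn O P then C1 * Y ^ η else 0) + C2 * (N x : ℝ) ^ (-2 : ℝ)) := by
    intro x
    by_cases hx : x = 0
    · have a1 : 0 ≤ (if x ∈ Hn O P then C1 * Y ^ η else 0) := by split_ifs <;> positivity
      have a2 : 0 ≤ C2 * (N x : ℝ) ^ (-2 : ℝ) := by positivity
      rw [if_pos hx]
      conv_lhs => rw [hx, gw_zero]
      linarith
    · have px := one_le_N hx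
      rw [if_neg hx, zero_add, gw_of_ne A hx]
      by_cases hm : x ∈ Hn O P
      · rw [if_pos hm]
        refine (h1 _).trans (le_add_of_le_of_nonneg ?_ (by positivity))
        refine mul_le_mul_of_nonneg_left ?_ hC1
        rw [nG_div, nG_sc hx, hA', Real.rpow_neg (by positivity), ← Real.inv_rpow (by positivity),
          inv_div]
        exact Real.rpow_le_rpow (by positivity) (div_le_self hY0.le px) hη0.le
      · rw [if_neg hm, zero_add]
        refine (h2 _).trans (mul_le_mul_of_nonneg_left ?_ hC2)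
        have hPx : P ≤ N x := le_of_lt (not_le.1 fun h => hm (mem_Hn.2 ⟨h, hx⟩))
        have hx0 : (0 : ℝ) < N x := by linarith
        have e1 : Y ^ (2 + 2 / η) ≤ (N x : ℝ) ^ (2 / η) := by
          calc Y ^ (2 + 2 / η) = P ^ (2 / η) := by
                rw [hPY, ← Real.rpow_mul hY0.le]
                congr 1
                field_simp
                ring
            _ ≤ _ := Real.rpow_le_rpow hP0.le hPx (by positivity)
        rw [nG_div, nG_sc hx, hA', Real.rpow_neg (by positivity), Real.div_rpow hx0.le hY0.le,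
          inv_div, Real.rpow_add hx0, Real.rpow_neg hx0.le, div_le_iff₀ (by positivity),
          ← mul_assoc, inv_mul_cancel₀ (by positivity), one_mul]
        exact e1
  have hs1 : HasSum (fun x : O => if x = 0 then (1 : ℝ) else 0) 1 := hasSum_ite_eq 0 1
  have hs2 : HasSum (fun x : O => if x ∈ Hn O P then C1 * Y ^ η else 0)
      ((Hn O P).card * (C1 * Y ^ η)) := by
    have := hasSum_sum_of_ne_finset_zero (s := Hn O P) (L := SummationFilter.unconditional O)
      (f := fun x : O => if x ∈ Hn O P then C1 * Y ^ η else 0) (fun x hx => if_neg hx)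
    rwa [sum_congr rfl fun x hx => if_pos hx, sum_const, nsmul_eq_mul] at this
  have h3 := hasSum_le hpt (summable_gw0 A).hasSum (hs1.add (hs2.add (hZ.hasSum.mul_left C2)))
  have h4 : c * Y ≤ (1 + C1 + C2 * Z) * (Y ^ η * (Hn O P).card) := by
    have a1 : 1 ≤ Y ^ η * (Hn O P).card := one_le_mul_of_one_le_of_one_le hYη hcard
    have a2 := mul_le_mul_of_nonneg_left a1 (mul_nonneg hC2 hZ0)
    have a3 := h0 A
    rw [hA'] at a3
    nlinarith
  have h5 : P ^ (1 - ε) * Y ^ η ≤ Y := by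
    rw [hPY, ← Real.rpow_mul hY0.le, ← Real.rpow_add hY0]
    conv_rhs => rw [← Real.rpow_one Y]
    refine Real.rpow_le_rpow_of_exponent_le hY1 ?_
    nlinarith
  rw [div_mul_eq_mul_div, div_le_iff₀ (by positivity)]
  refine le_of_mul_le_mul_right ?_ (show 0 < Y ^ η by positivity)
  calc c * P ^ (1 - ε) * Y ^ η = c * (P ^ (1 - ε) * Y ^ η) := by ring
    _ ≤ c * Y := mul_le_mul_of_nonneg_left h5 hc.le
    _ ≤ _ := h4
    _ = _ := by ring

theorem cop_kernel {u r m : O} (h3 : r ∣ u) (h4 : ∀ k : O, Prim k → Squarefree k → k ∣ u → k ∣ r)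
    (hm : Prim m) : cop m u = cop m r := by
  have h : IsRelPrime u m ↔ IsRelPrime r m := by
    refine ⟨fun h => h.of_dvd_left h3, fun h => ?_⟩
    refine ((UniqueFactorizationMonoid.isRelPrime_iff_no_prime_factors hm.ne_zero).2
      fun q h1 h2 hq => ?_).symm
    obtain ⟨p, hp, hqp⟩ := hm.exists_prim_of_dvd h1
    have hpi : Irreducible p := (hqp.irreducible_iff).1 hq.irreducible
    exact hpi.not_isUnit (h (h4 p hp hpi.squarefree ((hqp.dvd_iff_dvd_left).1 h2))
      ((hqp.dvd_iff_dvd_left).1 h1))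
  by_cases h1 : IsRelPrime u m
  · rw [cop, cop, if_pos h1, if_pos (h.1 h1)]
  · rw [cop, cop, if_neg h1, if_neg fun h2 => h1 (h.2 h2)]

/-- the Moebius sum through the sums with a coprimality condition -/
theorem Msum_eq (S : Sext O) {W : ℝ → ℂ} {b X : ℝ} (hb : ∀ x, W x ≠ 0 → x ≤ b) (hb0 : 0 ≤ b)
    (hX : 0 < X) {u r : O} (hr : Sq r) (h3 : r ∣ u)
    (h4 : ∀ k : O, Prim k → Squarefree k → k ∣ u → k ∣ r) :
    Msum O W X = ∑ d ∈ D r, mob d * Asum S (fun _ => 1) W (X / N d) 0 (u ^ 6) := by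
  classical
  have hw : ∀ (Y : ℝ) (n : O), wt W (0 : Tw O) Y n = W (N n / Y) := fun Y n => by
    rw [wt, ps, ch_zero, mul_one]
  set f : O → ℂ := fun n => if n ∈ SO O (b * X) then mob n * W (N n / X) else 0 with hf
  have h1 : Msum O W X = ∑ n ∈ SO O (b * X), f n := by
    rw [Msum, tsum_eq_sum (s := SO O (b * X))]
    · exact sum_congr rfl fun n hn => by rw [if_pos (mem_SO.1 hn).2, hf]; exact (if_pos hn).symm
    · intro n hn
      split_ifs with h
      · rw [← hw, wt_eq_zero hb hX le_rfl (fun h1 => hn (mem_SO.2 ⟨h1, h⟩)), mul_zero]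
      · rfl
  have h2 : ∀ n ∈ SO O (b * X), f n =
      ∑ d ∈ D r, if d ∣ n then (if pg n r = d then f n else 0) else 0 := by
    intro n hn
    have pn := (mem_SO.1 hn).2.prim
    have hd := (dvd_pg_iff pn hr.prim).1 dvd_rfl
    rw [sum_eq_single_of_mem (pg n r) ((mem_D hr.ne_zero).2 ⟨pg_prim pn hr.prim, hd.2⟩),
      if_pos hd.1, if_pos rfl]
    intro d _ hne
    rw [if_neg (Ne.symm hne), ite_self]
  rw [h1, sum_congr rfl h2, sum_comm]
  refine sum_congr rfl fun d hd => ?_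
  have sd := sq_of_mem_D hr hd
  obtain ⟨r', rfl⟩ := ((mem_D hr.ne_zero).1 hd).2
  have sr := hr.of_mul_left sd.prim
  rw [sum_dvd sd.prim (f := fun n => if pg n (d * r') = d then f n else 0)
      (fun n hn => by rw [hf]; simp only [if_neg hn, ite_self]),
    Sext.Asum_eq, S.Sm_eq _ hb (div_pos hX (N_pos' sd.ne_zero)) (div_N_le hb0 hX le_rfl sd.ne_zero),
    mul_sum]
  refine sum_congr rfl fun m hm => ?_
  have sm := (mem_SO.1 hm).2
  have e0 : (N m : ℝ) / (X / N d) = N (d * m) / X := by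
    rw [N_mul', div_div_eq_mul_div, mul_comm]
  rw [S.chi_pow_six sm.prim, cop_kernel h3 h4 sm.prim, cop_mul_right, hw, e0, cop, cop]
  simp only [pg_mul_eq_iff sd.prim sm.prim sr.prim, isRelPrime_comm (x := r')]
  by_cases c1 : IsRelPrime m r'
  · rw [if_pos c1, if_pos c1, hf]
    by_cases c2 : IsRelPrime d m
    · rw [if_pos c2]
      by_cases c3 : d * m ∈ SO O (b * X)
      · simp only [if_pos c3]
        rw [mob_mul' sd.ne_zero sm.ne_zero]; ring
      · simp only [if_neg c3]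
        rw [← hw, wt_eq_zero hb hX le_rfl (fun h1 => c3 (mem_SO.2 ⟨h1, sd.mul sm c2⟩))]
        simp
    · have c3 : d * m ∉ SO O (b * X) := fun h => c2 (mem_SO.1 h).2.coprime
      simp only [if_neg c3, if_neg c2]
      simp
  · rw [if_neg c1, if_neg c1]; simp

theorem associated_of_pow_eq {a b : O} (ha : a ≠ 0) (h : a ^ 6 = b ^ 6) :
    Associated a b := by
  obtain ⟨x, y, c, hxy, e1, e2⟩ := UniqueFactorizationMonoid.exists_reduced_factors a ha b
  have hc : c ≠ 0 := by rintro rfl; exact ha (by rw [← e1, zero_mul])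
  have h1 : x ^ 6 = y ^ 6 := by
    rw [← e1, ← e2, mul_pow, mul_pow] at h
    exact mul_left_cancel₀ (pow_ne_zero 6 hc) h
  have h2 : IsRelPrime (x ^ 6) (y ^ 6) := IsRelPrime.pow hxy
  have hx : IsUnit x := isUnit_of_dvd_unit (dvd_pow_self x (by norm_num))
    (h2 dvd_rfl (h1 ▸ dvd_rfl))
  have hy : IsUnit y := isUnit_of_dvd_unit (dvd_pow_self y (by norm_num))
    (h2 (h1 ▸ dvd_rfl) dvd_rfl)
  rw [← e1, ← e2]
  exact (associated_mul_unit_left c x hx).trans (associated_mul_unit_right c y hy)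

/-- the sixth power map has bounded fibres -/
theorem sum_pow_six_le {f : O → ℝ} (hf : ∀ x, 0 ≤ f x) (P : ℝ) :
    ∑ m ∈ Hn O P, f (m ^ 6) ≤ (Hn O 1).card * ∑ u ∈ Hn O (P ^ 6), f u := by
  classical
  have hmap : ∀ m ∈ Hn O P, m ^ 6 ∈ Hn O (P ^ 6) := by
    intro m hm
    rw [mem_Hn] at hm ⊢
    refine ⟨?_, pow_ne_zero _ hm.2⟩
    rw [N_pow]
    push_cast
    exact pow_le_pow_left₀ (by positivity) hm.1 6
  rw [← sum_fiberwise_of_maps_to hmap, mul_sum]
  refine sum_le_sum fun u _ => ?_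
  rw [sum_congr rfl (g := fun _ => f u) fun m hm => by rw [(mem_filter.1 hm).2], sum_const,
    nsmul_eq_mul]
  refine mul_le_mul_of_nonneg_right ?_ (hf u)
  rcases ((Hn O P).filter fun m => m ^ 6 = u).eq_empty_or_nonempty with h | ⟨m0, hm0⟩
  · rw [h]; simp
  · have h0 := (mem_Hn.1 (mem_filter.1 hm0).1).2
    have : ((Hn O P).filter fun m => m ^ 6 = u) ⊆ (Hn O 1).image (fun v => m0 * v) := by
      intro m hm
      have h1 := (mem_Hn.1 (mem_filter.1 hm).1).2
      obtain ⟨v, hv⟩ := associated_of_pow_eq h0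
        ((mem_filter.1 hm0).2.trans (mem_filter.1 hm).2.symm)
      refine mem_image.2 ⟨v, mem_Hn.2 ⟨?_, right_ne_zero_of_mul (hv ▸ h1)⟩, hv⟩
      rw [isUnit_iff_N.1 v.isUnit, Nat.cast_one]
    exact_mod_cast (card_le_card this).trans card_image_le

/-- **amplification over sixth powers** -/
theorem muB_of_MB (S : Sext O) (hS : MB S) : MuB O (11 / 12) := by
  classical
  intro W hW σ hσ
  obtain ⟨a, b, M, -, -, hb1, -, hs, -⟩ := hW.bounds
  have hb : ∀ x, W x ≠ 0 → x ≤ b := fun x hx => (hs x hx).2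
  obtain ⟨η, hη0, hη1, hη2⟩ : ∃ η : ℝ, 0 < η ∧ η ≤ 1 ∧ 4 * η ≤ 2 * σ - 11 / 6 :=
    ⟨min 1 ((2 * σ - 11 / 6) / 4), lt_min one_pos (by linarith), min_le_left _ _,
      by have := min_le_right 1 ((2 * σ - 11 / 6) / 4); linarith⟩
  obtain ⟨C, K, h1⟩ := hS η hη0 W hW η hη0
  obtain ⟨c, hc, h2⟩ := card_Hn_ge S hη0
  obtain ⟨C4, hC4, h4⟩ := card_D_le O hη0
  obtain ⟨C5, hC5, h5⟩ := sum_inv_N_le O hη0
  set B : ℝ := max C 0 * sz (0 : Tw O) ^ K with hB
  have hB0 : 0 ≤ B := mul_nonneg (le_max_right _ _) (sz_pow_nonneg _ _)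
  refine ⟨Real.sqrt (C4 * (Hn O 1).card * B * C5 / c), fun X hX => ?_⟩
  have hX0 : 0 < X := by linarith
  set P := X ^ ((1 + η) / 6) with hP
  have hP1 : 1 ≤ P := Real.one_le_rpow hX (by positivity)
  have hP0 : 0 < P := by linarith
  have hP6 : P ^ 6 = X ^ (1 + η) := by
    rw [hP, ← Real.rpow_natCast, ← Real.rpow_mul hX0.le]
    congr 1; push_cast; ring
  have hcls : Cls (fun _ : O => (1 : ℂ)) := ⟨fun _ _ _ => rfl, fun _ => by simp⟩
  have e1 : ∀ m ∈ Hn O P, ‖Msum O W X‖ ^ 2 ≤ C4 * P ^ η *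
      ∑ d ∈ SO O P, ‖Asum S (fun _ => 1) W (X / N d) 0 (m ^ 6)‖ ^ 2 := by
    intro m hm
    rw [mem_Hn] at hm
    obtain ⟨r, r1, r2, r3, r4⟩ := exists_kernel hm.2
    have hrP : (N r : ℝ) ≤ P := (N_le_of_dvd hm.2 r3).trans hm.1
    rw [Msum_eq S hb (by linarith) hX0 ⟨r1, r2⟩ r3 r4]
    calc _ ≤ (∑ d ∈ D r, ‖Asum S (fun _ => 1) W (X / N d) 0 (m ^ 6)‖) ^ 2 := by
          gcongr
          refine (norm_sum_le _ _).trans (le_of_eq (sum_congr rfl fun d _ => ?_))
          rw [norm_mul, norm_mob, one_mul]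
      _ ≤ (D r).card * ∑ d ∈ D r, ‖Asum S (fun _ => 1) W (X / N d) 0 (m ^ 6)‖ ^ 2 :=
          sq_sum_le_card_mul_sum_sq
      _ ≤ _ := by
          refine mul_le_mul ((h4 r r1 r2).trans (by gcongr)) (sum_le_sum_of_subset_of_nonneg
            (D_subset_SO (mem_SO.2 ⟨hrP, r1, r2⟩)) fun _ _ _ => by positivity)
            (sum_nonneg fun _ _ => by positivity) (by positivity)
  have e2 : ∀ d ∈ SO O P, ∑ m ∈ Hn O P, ‖Asum S (fun _ => 1) W (X / N d) 0 (m ^ 6)‖ ^ 2 ≤
      (Hn O 1).card * B * X * (P ^ 6) ^ (1 + η) * (N d : ℝ)⁻¹ := by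
    intro d hd
    have pd := one_le_N (mem_SO.1 hd).2.ne_zero
    refine (sum_pow_six_le (f := fun u => ‖Asum S (fun _ => 1) W (X / N d) 0 u‖ ^ 2)
      (fun _ => by positivity) P).trans ?_
    have h6 := h1 _ hcls 0 (X / N d) (P ^ 6) (by positivity) (one_le_pow₀ hP1)
      (div_rpow_le_H hX0 hη0.le hP6.ge pd)
    have h7 : C * sz (0 : Tw O) ^ K ≤ B :=
      mul_le_mul_of_nonneg_right (le_max_left _ _) (sz_pow_nonneg _ _)
    calc _ ≤ (Hn O 1).card * (B * (X / N d) * (P ^ 6) ^ (1 + η)) :=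
          mul_le_mul_of_nonneg_left (h6.trans (by gcongr)) (by positivity)
      _ = _ := by ring
  have e3 : ∑ d ∈ SO O P, (N d : ℝ)⁻¹ ≤ C5 * P ^ η :=
    (sum_le_sum_of_subset_of_nonneg (SO_subset_Hn P) fun _ _ _ => by positivity).trans
      (h5 P hP0.le)
  have e4 : c * P ^ (1 - η) * ‖Msum O W X‖ ^ 2 ≤
      C4 * P ^ η * ((Hn O 1).card * B * X * (P ^ 6) ^ (1 + η) * (C5 * P ^ η)) := by
    calc _ ≤ ∑ _m ∈ Hn O P, ‖Msum O W X‖ ^ 2 := by
          rw [sum_const, nsmul_eq_mul]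
          exact mul_le_mul_of_nonneg_right (h2 P hP1) (by positivity)
      _ ≤ _ := sum_le_sum e1
      _ ≤ _ := by
          rw [← mul_sum, sum_comm]
          refine mul_le_mul_of_nonneg_left ((sum_le_sum e2).trans ?_) (by positivity)
          rw [← mul_sum]
          exact mul_le_mul_of_nonneg_left e3 (by positivity)
  have e5 : P ^ η * (X * (P ^ 6) ^ (1 + η) * P ^ η) ≤ P ^ (1 - η) * (X ^ σ) ^ 2 := by
    rw [← Real.rpow_natCast P, ← Real.rpow_mul hP0.le, ← Real.rpow_natCast (X ^ σ),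
      ← Real.rpow_mul hX0.le, hP]
    simp only [← Real.rpow_mul hX0.le]
    nth_rewrite 2 [← Real.rpow_one X]
    simp only [← Real.rpow_add hX0]
    refine Real.rpow_le_rpow_of_exponent_le hX ?_
    push_cast
    nlinarith
  refine le_of_sq_le_sq ?_ (by positivity)
  rw [mul_pow, Real.sq_sqrt (by positivity), div_mul_eq_mul_div, le_div_iff₀ hc]
  refine le_of_mul_le_mul_right ?_ (show 0 < P ^ (1 - η) by positivity)
  calc _ = c * P ^ (1 - η) * ‖Msum O W X‖ ^ 2 := by ring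
    _ ≤ _ := e4
    _ = C4 * (Hn O 1).card * B * C5 * (P ^ η * (X * (P ^ 6) ^ (1 + η) * P ^ η)) := by ring
    _ ≤ C4 * (Hn O 1).card * B * C5 * (P ^ (1 - η) * (X ^ σ) ^ 2) :=
        mul_le_mul_of_nonneg_left e5 (by positivity)
    _ = _ := by ring

/-- the theta mean square gives cancellation in the Moebius sums -/
theorem muB_of_TB (S : Sext O) (hT : TB S) : MuB O (11 / 12) := muB_of_MB S (MB_of_TB S hT)

end Vale.Agent.P016Z.Ab
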