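import Vale.Agent.P016Z.Ab.Pair

/-!
P016, abstract Poisson block: the intermediate sums and the statements of the steps of the recursion.
-/

namespace Vale.Agent.P016Z.Ab

open Finset
open scoped ComplexConjugate

set_option linter.unusedSectionVars false

variable {O : Type} [CommMonoidWithZero O] [UniqueFactorizationMonoid O] [Ar O] [Sc O]

namespace Sext

variable (S : Sext O)

open Classical in
/-- a smoothed character sum over squarefree admissible `n` with coefficients `c` -/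
noncomputable def Sm (c : O → ℂ) (W : ℝ → ℂ) (X : ℝ) (t : Tw O) (v : O) : ℂ :=
  ∑' n : O, if Sq n then c n * S.chi n v * wt W t X n else 0

/-- Moebius sums with a coprimality condition -/
noncomputable def Ac (c0 : O) (κ : O → ℂ) (W : ℝ → ℂ) (X : ℝ) (t : Tw O) (v : O) : ℂ :=
  S.Sm (fun n => mob n * (cop n c0 * κ n)) W X t v

/-- sum over the classes of the squares of the Moebius sums -/
noncomputable def Acl (c0 : O) (W : ℝ → ℂ) (X : ℝ) (t : Tw O) (v : O) : ℝ :=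
  ∑ j : J O, ‖S.Ac c0 (ind j) W X t v‖ ^ 2

/-- Gauss sum sums -/
noncomputable def Bs (κ : O → ℂ) (W : ℝ → ℂ) (X : ℝ) (t : Tw O) (v : O) : ℂ :=
  S.Sm (fun n => S.g n * κ n) W X t v

theorem Asum_eq (κ : O → ℂ) (W : ℝ → ℂ) (D : ℝ) (t : Tw O) (u : O) :
    Asum S κ W D t u = S.Sm (fun n => mob n * κ n) W D t u := rfl

theorem Acl_nonneg (c0 : O) (W : ℝ → ℂ) (X : ℝ) (t : Tw O) (v : O) : 0 ≤ S.Acl c0 W X t v :=
  sum_nonneg fun _ _ => by positivity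

end Sext

theorem wt_eq_zero {W : ℝ → ℂ} {b : ℝ} (hb : ∀ x, W x ≠ 0 → x ≤ b) {X L : ℝ} (hX : 0 < X)
    (hL : b * X ≤ L) {n : O} (hn : ¬ (N n : ℝ) ≤ L) (t : Tw O) : wt W t X n = 0 := by
  have : W (N n / X) = 0 := by
    by_contra h
    have h1 := hb _ h
    rw [div_le_iff₀ hX] at h1
    exact hn (h1.trans hL)
  rw [wt, this, zero_mul]

/-- the sums are finite -/
theorem Sext.Sm_eq (S : Sext O) (c : O → ℂ) {W : ℝ → ℂ} {b : ℝ} (hb : ∀ x, W x ≠ 0 → x ≤ b)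
    {X L : ℝ} (hX : 0 < X) (hL : b * X ≤ L) (t : Tw O) (v : O) :
    S.Sm c W X t v = ∑ n ∈ SO O L, c n * S.chi n v * wt W t X n := by
  classical
  rw [Sext.Sm, tsum_eq_sum (s := SO O L)]
  · exact sum_congr rfl fun n hn => if_pos (mem_SO.1 hn).2
  · intro n hn
    split_ifs with h
    · rw [wt_eq_zero hb hX hL (fun h1 => hn (mem_SO.2 ⟨h1, h⟩)), mul_zero]
    · rfl

theorem Sext.Acl_eq (S : Sext O) (c0 : O) {W : ℝ → ℂ} {b : ℝ} (hb : ∀ x, W x ≠ 0 → x ≤ b)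
    {X L : ℝ} (hX : 0 < X) (hL : b * X ≤ L) (t : Tw O) (v : O) :
    S.Acl c0 W X t v =
      cl (SO O L) fun n => mob n * cop n c0 * S.chi n v * wt W t X n := by
  unfold Sext.Acl cl Sext.Ac
  refine sum_congr rfl fun j _ => ?_
  rw [S.Sm_eq _ hb hX hL]
  congr 2
  exact sum_congr rfl fun n _ => by ring

/-- `MBexp` restricted to `D ≥ 1` -/
def MBexp1 (S : Sext O) (θ β : ℝ) : Prop :=
  ∀ W : ℝ → ℂ, IsWt W → ∀ δ : ℝ, 0 < δ → ∃ (C : ℝ) (K : ℕ), ∀ κ : O → ℂ, Cls κ →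
    ∀ (t : Tw O) (D H : ℝ), 1 ≤ D → D ^ (1 + θ) ≤ H →
      ∑ u ∈ Hn O H, ‖Asum S κ W D t u‖ ^ 2 ≤ C * sz t ^ K * D ^ (1 + β) * H ^ (1 + δ)

/-- the mean square with a coprimality condition -/
def COP (S : Sext O) (θ β : ℝ) : Prop :=
  ∀ W : ℝ → ℂ, IsWt W → ∀ δ : ℝ, 0 < δ → ∃ (C : ℝ) (K : ℕ), 0 ≤ C ∧ ∀ c0 : O, Sq c0 →
    ∀ κ : O → ℂ, Cls κ → ∀ (t : Tw O) (X H : ℝ), 0 < X → 1 ≤ H → X ^ (1 + θ) ≤ H →
      ∑ u ∈ Hn O H, ‖S.Ac c0 κ W X t u‖ ^ 2 ≤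
        C * sz t ^ K * ((D c0).card : ℝ) ^ 2 * X ^ (1 + β) * H ^ (1 + δ)

open Classical in
/-- the sparse sum over the frequencies `u k (k/e) r` -/
def SS (S : Sext O) (θ β : ℝ) : Prop :=
  ∀ W : ℝ → ℂ, IsWt W → ∀ δ : ℝ, 0 < δ → ∃ (C : ℝ) (K : ℕ), 0 ≤ C ∧ ∀ c0 r : O, Sq c0 → r ≠ 0 →
    ∀ (t : Tw O) (X H L K0 : ℝ), 0 < X → 1 ≤ H → X ^ (1 + θ) ≤ H → 1 ≤ L → 0 < K0 →
      ∀ F : Finset O, (∀ u ∈ F, u ≠ 0) →
      ∑ k ∈ (SO O L).filter (fun k => K0 ≤ N k), ∑ e ∈ D k, ∑ u ∈ F,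
        (((D k).card : ℝ) * N k) *
          (om4 (N (vv k e u * r) / H) * S.Acl c0 W (X / N k) t (vv k e u * r)) ≤
        C * sz t ^ K * ((D c0).card : ℝ) ^ 2 * L ^ δ * (X * (X / K0) ^ β) * H ^ (1 + δ)

/-- Poisson backwards for the Gauss sum sums -/
def PB (S : Sext O) (θ β : ℝ) : Prop :=
  ∀ W : ℝ → ℂ, IsWt W → ∀ δ : ℝ, 0 < δ → ∃ (C : ℝ) (K : ℕ), 0 ≤ C ∧ ∀ κ : O → ℂ, Cls κ →
    ∀ (t : Tw O) (X Y : ℝ), 0 < X → 1 ≤ Y → (max 1 X) ^ (1 - θ) ≤ Y →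
      ∑ h ∈ Hn O Y, ‖S.Bs κ W X t h‖ ^ 2 ≤
        C * sz t ^ K * Y * (max 1 X) ^ (1 + θ + β + δ)

/-- the Gauss sum sums through the completed theta sums -/
def BB (S : Sext O) (θ β : ℝ) : Prop :=
  ∀ W : ℝ → ℂ, IsWt W → ∀ δ : ℝ, 0 < δ → ∃ (C : ℝ) (K : ℕ), 0 ≤ C ∧ ∀ κ : O → ℂ, Cls κ →
    ∀ (t : Tw O) (X Y Z Dm : ℝ), 1 ≤ Z → Z ^ 3 ≤ X → X ≤ Dm → 1 ≤ Y → Dm ^ (1 - θ) ≤ Y →
      ∑ h ∈ Hn O Y, ‖S.Bs κ W X t h‖ ^ 2 ≤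
        C * sz t ^ K * (Dm * Y) ^ δ *
          (X * Y + Z ^ 3 * Y ^ 2 + Y * X * (Dm / Z ^ 3) ^ (θ + β))

end Vale.Agent.P016Z.Ab
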