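import Vale.Agent.P016Z.Ab.StepA

/-!
P016, abstract Poisson block: the three bounds used in the recursion step.
-/

namespace Vale.Agent.P016Z.Ab

open Finset

set_option linter.unusedSectionVars false

variable {O : Type} [CommMonoidWithZero O] [UniqueFactorizationMonoid O] [Ar O] [Sc O]

/-- the bound for the terms with a long common factor -/
def LargeB (S : Sext O) (θ β : ℝ) : Prop :=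
  ∀ W : ℝ → ℂ, IsWt W → ∀ b M : ℝ, 1 ≤ b → (∀ x, W x ≠ 0 → x ≤ b) → (∀ x, ‖W x‖ ≤ M) →
    ∀ δ : ℝ, 0 < δ → ∃ (C : ℝ) (K : ℕ), 0 ≤ C ∧ ∀ κ : O → ℂ, Cls κ →
      ∀ (t : Tw O) (D0 H Z : ℝ) (A : Gr O), nG A = H → 1 ≤ D0 → D0 ^ (1 + θ) ≤ H → 1 ≤ Z →
      Z ≤ D0 →
      ‖∑ k ∈ SO O (b * D0), lam1 Z k * (S.LargeT (b * D0) A (aco κ W D0 t) k : ℂ)‖ ≤
        C * sz t ^ K * (D0 * (D0 / Z) ^ β) * H ^ (1 + δ)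

/-- the bound for the long terms -/
def LongB (S : Sext O) (θ β : ℝ) : Prop :=
  ∀ W : ℝ → ℂ, IsWt W → ∀ b M : ℝ, 1 ≤ b → (∀ x, W x ≠ 0 → x ≤ b) → (∀ x, ‖W x‖ ≤ M) →
    ∀ δ : ℝ, 0 < δ → ∃ (C : ℝ) (K : ℕ), 0 ≤ C ∧ ∀ κ : O → ℂ, Cls κ →
      ∀ (t : Tw O) (D0 H Z : ℝ) (A : Gr O), nG A = H → 1 ≤ D0 → D0 ^ (1 + θ) ≤ H → 1 ≤ Z →
      ∀ g ∈ SO O (b * D0), ∀ e ∈ D g,
      ‖∑ k ∈ SO O (b * D0), psi2 Z k *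
        S.LongT (b * D0) (A / sc e) (fun m => aco κ W D0 t (g * m) * S.chi m e) k‖ ≤
        C * sz t ^ K *
          (D0 ^ 2 * H ^ δ + (N g : ℝ)⁻¹ * (D0 * (D0 / Z) ^ β) * H ^ (1 + δ))

/-- the bound for the short terms -/
def ShortB (S : Sext O) (θ β : ℝ) : Prop :=
  ∀ W : ℝ → ℂ, IsWt W → ∀ b M : ℝ, 1 ≤ b → (∀ x, W x ≠ 0 → x ≤ b) → (∀ x, ‖W x‖ ≤ M) →
    ∀ δ : ℝ, 0 < δ → ∃ (C : ℝ) (K : ℕ), 0 ≤ C ∧ ∀ κ : O → ℂ, Cls κ →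
      ∀ (t : Tw O) (D0 H Z Z3 : ℝ) (A : Gr O), nG A = H → 1 ≤ D0 → D0 ^ (1 + θ) ≤ H →
      1 ≤ Z → 1 ≤ Z3 → Z3 ^ 3 * Z ^ 2 ≤ D0 →
      ∀ g ∈ SO O (b * D0), (N g : ℝ) ≤ Z → ∀ e ∈ D g, ∀ d ∈ SO O (b * D0), (N d : ℝ) ≤ Z →
      ‖S.ShortT (b * D0) (A / sc e) (fun m => aco κ W D0 t (g * m) * S.chi m e) d‖ ≤
        C * sz t ^ K * H ^ (1 + δ) *
          (Z ^ 15 * D0 ^ (1 - θ) + Z ^ 31 * Z3 ^ 3 * (D0 ^ (1 - θ)) ^ 2 / D0 +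
            Z ^ 15 * D0 ^ (1 - θ) * (D0 / Z3 ^ 3) ^ (θ + β))

end Vale.Agent.P016Z.Ab
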