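import Vale.Agent.P016Z.Ab.Scale

/-!
P016, abstract Poisson block: Poisson summation backwards for the Gauss sum sums.
-/

namespace Vale.Agent.P016Z.Ab

open Finset
open scoped ComplexConjugate

set_option linter.unusedSectionVars false

variable {O : Type} [CommMonoidWithZero O] [UniqueFactorizationMonoid O] [Ar O] [Sc O]

open Classical in
/-- the weight cut to the range -/
noncomputable def pbw (W : ℝ → ℂ) (L X : ℝ) (t : Tw O) (n : O) : ℂ :=
  if n ∈ SO O L then wt W t X n else 0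

theorem pbw_of_mem {W : ℝ → ℂ} {L X : ℝ} {t : Tw O} {n : O} (h : n ∈ SO O L) :
    pbw W L X t n = wt W t X n := by rw [pbw, if_pos h]

theorem pbw_of_notMem {W : ℝ → ℂ} {L X : ℝ} {t : Tw O} {n : O} (h : n ∉ SO O L) : pbw W L X t n = 0 := by
  rw [pbw, if_neg h]

theorem norm_pbw_le {W : ℝ → ℂ} {M : ℝ} (hM0 : 0 ≤ M) (hM : ∀ x, ‖W x‖ ≤ M) {L X : ℝ}
    (t : Tw O) (n : O) : ‖pbw W L X t n‖ ≤ M := by
  by_cases h : n ∈ SO O L
  · rw [pbw_of_mem h, norm_wt]
    exact hM _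
  · rw [pbw_of_notMem h, norm_zero]; exact hM0

theorem mem_SO_of_mul {L : ℝ} {k m : O} (hk : Prim k) (h : k * m ∈ SO O L) : m ∈ SO O L :=
  mem_SO_of_dvd h (hk.of_mul_left (mem_SO.1 h).2.prim) (dvd_mul_left _ _)

theorem pb_hasSum_of_eq {f g : O → ℂ} {a b : ℂ} (h : HasSum f a) (hf : g = f) (ha : b = a) :
    HasSum g b := by rw [hf, ha]; exact h

namespace Sext

variable (S : Sext O)

/-- the summand of the dual sum -/
noncomputable def pbH (A : Gr O) (k e m1 m2 u : O) : ℂ :=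
  (conj (S.chi m2 (vv k e u)) * S.chi m1 (vv k e u)) *
    (gw (Sc.dl * (sc (k * m2) * sc (k * m1)) / A) (vv k e u) : ℂ)

theorem summable_pbH (A : Gr O) {k e m1 m2 : O} (hk : k ≠ 0) (he : e ∈ D k)
    (h1 : Prim m1) (h2 : Prim m2) : Summable (S.pbH A k e m1 m2) :=
  summable_gw_vv _ hk ((mem_D hk).1 he).2 (fun _ => S.norm_pair_le h2 h1 _)

/-- the pair term after Poisson summation backwards -/
noncomputable def pbG (κ : O → ℂ) (W : ℝ → ℂ) (L X : ℝ) (t : Tw O) (A : Gr O) (k m1 m2 : O) : ℂ :=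
  (conj (κ (k * m1)) * κ (k * m2) * (conj (pbw W L X t (k * m1)) * pbw W L X t (k * m2))) *
    (S.Eb k m1 m2 * (mob m2 * mob m1) * ∑ e ∈ D k, mob e *
      (((nG A / N e / (Real.sqrt (N m2) * Real.sqrt (N m1)) : ℝ) : ℂ) *
        ∑' u : O, S.pbH A k e m1 m2 u))

/-- the coefficients of the bilinear forms -/
noncomputable def pbz (W : ℝ → ℂ) (L X : ℝ) (t : Tw O) (d k v n : O) : ℂ :=
  pbw W L X t (k * (d * n)) * mob (d * n) * conj (S.chi (d * n) v) *
    (((Real.sqrt (N (d * n)))⁻¹ : ℝ) : ℂ)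

/-- the class part of the bilinear forms -/
noncomputable def pbE (κ : O → ℂ) (d k n1 n2 : O) : ℂ :=
  conj (κ (k * d * n1)) * κ (k * d * n2) * S.Eb k (d * n1) (d * n2)

/-- the bilinear forms -/
noncomputable def pbT (κ : O → ℂ) (W : ℝ → ℂ) (L X : ℝ) (t : Tw O) (A : Gr O) (d k v : O) : ℂ :=
  ∑ n1 ∈ SO O L, ∑ n2 ∈ SO O L, S.pbE κ d k n1 n2 *
    (conj (S.pbz W L X t d k v n1) * S.pbz W L X t d k v n2) *
      (gw (Sc.dl * (sc (k * (d * n2)) * sc (k * (d * n1))) / A) v : ℂ)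

/-- the contribution of one frequency -/
noncomputable def pbU (κ : O → ℂ) (W : ℝ → ℂ) (L X : ℝ) (t : Tw O) (A : Gr O) (d u : O) : ℂ :=
  ∑ k ∈ SO O L, ∑ e ∈ D k, mob e * (((nG A / N e : ℝ) : ℂ) * S.pbT κ W L X t A d k (vv k e u))

theorem bi_pbE {κ : O → ℂ} (hκ : Cls κ) (d k : O) : Bi (S.pbE κ d k) :=
  (hκ.comp_mul (k * d)).bi.mul ((S.bi_Eb k).comp_mul d d)

theorem hasSum_pbU (κ : O → ℂ) (W : ℝ → ℂ) {L X : ℝ} (t : Tw O) (A : Gr O) {d : O}
    (hd : d ∈ SO O L) : HasSum (S.pbU κ W L X t A d)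
      (∑ k ∈ SO O L, ∑ n1 ∈ SO O L, ∑ n2 ∈ SO O L, S.pbG κ W L X t A k (d * n1) (d * n2)) := by
  unfold pbU
  refine hasSum_sum fun k hk => ?_
  have sk := (mem_SO.1 hk).2
  have sd := (mem_SO.1 hd).2
  have h1 : ∀ n1 ∈ SO O L, ∀ n2 ∈ SO O L, HasSum (fun u => ∑ e ∈ D k, mob e * (((nG A / N e : ℝ) : ℂ) *
      (S.pbE κ d k n1 n2 * (conj (S.pbz W L X t d k (vv k e u) n1) *
        S.pbz W L X t d k (vv k e u) n2) *
        (gw (Sc.dl * (sc (k * (d * n2)) * sc (k * (d * n1))) / A) (vv k e u) : ℂ))))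
      (S.pbG κ W L X t A k (d * n1) (d * n2)) := by
    intro n1 h1 n2 h2
    have a1 : Prim (d * n1) := sd.1.mul (mem_SO.1 h1).2.1
    have a2 : Prim (d * n2) := sd.1.mul (mem_SO.1 h2).2.1
    rw [pbG, mul_sum, mul_sum]
    refine hasSum_sum fun e he => ?_
    have hs := (S.summable_pbH A sk.ne_zero he a1 a2).hasSum.mul_left
      ((conj (κ (k * (d * n1))) * κ (k * (d * n2)) *
        (conj (pbw W L X t (k * (d * n1))) * pbw W L X t (k * (d * n2)))) *
        (S.Eb k (d * n1) (d * n2) * (mob (d * n2) * mob (d * n1)) * (mob e *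
          ((nG A / N e / (Real.sqrt (N (d * n2)) * Real.sqrt (N (d * n1))) : ℝ) : ℂ))))
    refine pb_hasSum_of_eq hs ?_ ?_
    · funext u
      rw [pbE, pbz, pbz, pbH, mul_assoc k d n1, mul_assoc k d n2]
      simp only [map_mul, Complex.conj_conj, conj_mob, Complex.conj_ofReal]
      push_cast
      ring
    · ring
  have h2 := hasSum_sum fun n1 hn1 => hasSum_sum fun n2 hn2 => h1 n1 hn1 n2 hn2
  refine pb_hasSum_of_eq h2 ?_ rfl
  funext u
  simp only [pbT, mul_sum]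
  rw [sum_comm]
  refine sum_congr rfl fun n1 _ => ?_
  rw [sum_comm]

/-- the expansion of the Gaussian-weighted mean square -/
theorem pb_expand (κ : O → ℂ) {W : ℝ → ℂ} {b L X : ℝ} (hb : ∀ x, W x ≠ 0 → x ≤ b) (t : Tw O)
    (hX : 0 < X) (A : Gr O) (hL : b * X ≤ L) :
    ((∑' h : O, ‖S.Bs κ W X t h‖ ^ 2 * gw A h : ℝ) : ℂ) =
      ∑ d ∈ SO O L, mob d * ∑' u : O, S.pbU κ W L X t A d u := by
  classical
  set c : O → ℂ := fun n => S.g n * κ n * pbw W L X t n with hc
  have h1 : ∀ h : O, S.Bs κ W X t h = ∑ n ∈ SO O L, c n * S.chi n h := by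
    intro h
    rw [Bs, S.Sm_eq _ hb hX hL]
    refine sum_congr rfl fun n hn => ?_
    simp only [hc]
    rw [pbw_of_mem hn]; ring
  simp only [h1]
  rw [S.tsum_sq_eq A (fun n hn => (mem_SO.1 hn).2.1) c]
  have hF : Supp2 L fun n1 n2 => conj (c n1) * c n2 * S.psum A n1 n2 := by
    rintro n1 n2 (h | h) <;> simp [hc, pbw_of_notMem h]
  have h2 := sum_gcd hF (fun _ => 1)
  simp only [one_mul] at h2
  rw [h2]
  have h3 : ∀ k ∈ SO O L, ∑ m1 ∈ SO O L, ∑ m2 ∈ SO O L,
      cop m1 m2 * (conj (c (k * m1)) * c (k * m2) * S.psum A (k * m1) (k * m2)) =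
      ∑ d ∈ SO O L, mob d * ∑ n1 ∈ SO O L, ∑ n2 ∈ SO O L, S.pbG κ W L X t A k (d * n1) (d * n2) := by
    intro k hk
    have pk := (mem_SO.1 hk).2.prim
    have hG : Supp2 L (S.pbG κ W L X t A k) := by
      rintro m1 m2 (h | h)
      · have : k * m1 ∉ SO O L := fun h' => h (mem_SO_of_mul pk h')
        simp [pbG, pbw_of_notMem this]
      · have : k * m2 ∉ SO O L := fun h' => h (mem_SO_of_mul pk h')
        simp [pbG, pbw_of_notMem this]
    rw [← sum_cop hG]
    refine sum_congr rfl fun m1 _ => sum_congr rfl fun m2 _ => ?_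
    by_cases hc2 : IsRelPrime m2 m1
    · by_cases k1 : k * m1 ∈ SO O L
      · by_cases k2 : k * m2 ∈ SO O L
        · have hb := S.back pk (mem_SO.1 k2).2 (mem_SO.1 k1).2 hc2 A
          congr 1
          rw [pbG]
          simp only [pbH]
          rw [← hb]
          simp only [hc, map_mul]
          ring
        · simp [hc, pbG, pbw_of_notMem k2]
      · simp [hc, pbG, pbw_of_notMem k1]
    · simp [cop, hc2]
  rw [sum_congr rfl h3, sum_comm]
  refine sum_congr rfl fun d hd => ?_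
  rw [← mul_sum, (S.hasSum_pbU κ W t A hd).tsum_eq]

theorem norm_Bs_le (κ : O → ℂ) (hκ : Cls κ) {W : ℝ → ℂ} {b M X : ℝ}
    (hb : ∀ x, W x ≠ 0 → x ≤ b) (hM : ∀ x, ‖W x‖ ≤ M) (t : Tw O) (hX : 0 < X) (h : O) :
    ‖S.Bs κ W X t h‖ ≤ ∑ _n ∈ SO O (b * X), M := by
  rw [Bs, S.Sm_eq _ hb hX le_rfl]
  refine (norm_sum_le _ _).trans (sum_le_sum fun n hn => ?_)
  have sn := (mem_SO.1 hn).2
  rw [norm_mul, norm_mul, norm_mul, S.norm_g n sn, one_mul, norm_wt]
  have a1 := hκ.2 n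
  have a2 := S.norm_chi_le sn.1 h
  calc ‖κ n‖ * ‖S.chi n h‖ * ‖W (N n / X)‖ ≤ 1 * 1 * ‖W (N n / X)‖ := by gcongr
    _ ≤ M := by rw [one_mul, one_mul]; exact hM _

open Classical in
/-- the frequency zero -/
theorem norm_pbU_zero (κ : O → ℂ) (hκ : Cls κ) {W : ℝ → ℂ} {M L X : ℝ} (hM0 : 0 ≤ M)
    (hM : ∀ x, ‖W x‖ ≤ M) (t : Tw O) (A : Gr O) {d : O} (hd : d ∈ SO O L) :
    ‖S.pbU κ W L X t A d 0‖ ≤
      if d = 1 then M ^ 2 * nG A * ∑ k ∈ SO O L, ((D k).card : ℝ) ^ 1 else 0 := by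
  have hY := nG_pos A
  have sd := (mem_SO.1 hd).2
  have hz : ∀ k : O, ∑ n ∈ SO O L, ‖S.pbz W L X t d k 0 n‖ ≤ if d = 1 then M else 0 := by
    intro k
    have h1 : ∀ n ∈ SO O L, ‖S.pbz W L X t d k 0 n‖ ≤
        if n = 1 then (if d = 1 then M else 0) else 0 := by
      intro n hn
      have sn := (mem_SO.1 hn).2
      by_cases h : d * n = 1
      · have hd1 : d = 1 := sd.prim.eq_one_of_isUnit (IsUnit.of_mul_eq_one n h)
        have hn1 : n = 1 := by rwa [hd1, one_mul] at h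
        rw [if_pos hn1, if_pos hd1, pbz, h, S.chi_one_left, mob_one]
        simpa using norm_pbw_le hM0 hM t _
      · rw [pbz, S.chi_zero (sd.1.mul sn.1) h]
        simp only [map_zero, mul_zero, zero_mul, norm_zero]
        split_ifs <;> simp [hM0]
    refine (sum_le_sum h1).trans ?_
    rw [sum_ite_eq']
    split_ifs <;> simp [hM0]
  have hT : ∀ k : O, ‖S.pbT κ W L X t A d k 0‖ ≤ (if d = 1 then M else 0) ^ 2 := by
    intro k
    calc ‖S.pbT κ W L X t A d k 0‖ ≤ ∑ n1 ∈ SO O L, ∑ n2 ∈ SO O L,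
          ‖S.pbz W L X t d k 0 n1‖ * ‖S.pbz W L X t d k 0 n2‖ := by
          refine (norm_sum_le _ _).trans (sum_le_sum fun n1 _ => ?_)
          refine (norm_sum_le _ _).trans (sum_le_sum fun n2 _ => ?_)
          rw [norm_mul, norm_mul, norm_mul, Complex.norm_conj]
          have a1 := (S.bi_pbE hκ d k).2.2 n1 n2
          simp only [gw_zero, Complex.ofReal_one, norm_one, mul_one]
          exact mul_le_of_le_one_left (by positivity) a1
      _ = (∑ n ∈ SO O L, ‖S.pbz W L X t d k 0 n‖) ^ 2 := by rw [sq, sum_mul_sum]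
      _ ≤ _ := pow_le_pow_left₀ (sum_nonneg fun _ _ => norm_nonneg _) (hz k) 2
  calc ‖S.pbU κ W L X t A d 0‖ ≤
        ∑ k ∈ SO O L, ∑ _e ∈ D k, nG A * (if d = 1 then M else 0) ^ 2 := by
        refine (norm_sum_le _ _).trans (sum_le_sum fun k hk => ?_)
        refine (norm_sum_le _ _).trans (sum_le_sum fun e he => ?_)
        have he' := (mem_D (mem_SO.1 hk).2.ne_zero).1 he
        have pe := one_le_N he'.1.ne_zero
        rw [norm_mul, norm_mob, one_mul, norm_mul, vv_zero, Complex.norm_real,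
          Real.norm_of_nonneg (by positivity)]
        exact mul_le_mul (div_le_self hY.le pe) (hT k) (norm_nonneg _) hY.le
    _ = _ := by
        simp only [sum_const, nsmul_eq_mul, ← sum_mul, pow_one]
        split_ifs
        · ring
        · simp

/-- the class sums of the coefficients are Moebius sums -/
theorem cl_pbz_le {W : ℝ → ℂ} {b L X : ℝ} (hb : ∀ x, W x ≠ 0 → x ≤ b) (hb0 : 0 ≤ b) (t : Tw O)
    (hX : 0 < X) (hL : b * X ≤ L) {d k v : O} (hd : Sq d) (hk : Sq k) (hv : k ∣ v) (σ : ℝ)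
    (τ : Tw O) :
    cl (SO O L) (fun n => S.pbz W L X t d k v n * tw σ τ (X / N d / N k) n) ≤
      N k / X * S.Acl d (fun y => conj (W y) * ((y ^ (σ - 1 / 2) : ℝ) : ℂ))
        (X / N d / N k) (-t + -τ) v := by
  classical
  have pd := N_pos' hd.ne_zero
  have pk := N_pos' hk.ne_zero
  have hX' : 0 < X / N d / N k := by positivity
  have hL' : b * (X / N d / N k) ≤ L := by
    refine le_trans (mul_le_mul_of_nonneg_left ?_ hb0) hL
    exact (div_le_self (by positivity) (one_le_N hk.ne_zero)).trans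
      (div_le_self hX.le (one_le_N hd.ne_zero))
  have hb' : ∀ x, conj (W x) * ((x ^ (σ - 1 / 2) : ℝ) : ℂ) ≠ 0 → x ≤ b := by
    intro x hx
    apply hb
    intro h
    apply hx
    simp [h]
  rw [S.Acl_eq d hb' hX' hL', ← cl_conj]
  set a : ℂ := (if IsRelPrime k d then 1 else 0) * mob d * S.chi d v *
    conj (ps t d * ps t k) with ha
  have ha1 : ‖a‖ ≤ 1 := by
    rw [ha, norm_mul, norm_mul, norm_mul, norm_mob, mul_one, Complex.norm_conj, norm_mul, norm_ps,
      norm_ps, mul_one, mul_one]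
    refine mul_le_one₀ ?_ (norm_nonneg _) (S.norm_chi_le hd.1 v)
    split_ifs <;> simp
  have key : ∀ n ∈ SO O L, conj (S.pbz W L X t d k v n * tw σ τ (X / N d / N k) n) =
      ((Real.sqrt (N k / X) : ℝ) : ℂ) * (a * (mob n * cop n d * S.chi n v *
        wt (fun y => conj (W y) * ((y ^ (σ - 1 / 2) : ℝ) : ℂ)) (-t + -τ) (X / N d / N k) n)) := by
    intro n hn
    have sn := (mem_SO.1 hn).2
    have pn := N_pos' sn.ne_zero
    set x : ℝ := N n / (X / N d / N k) with hx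
    have px : 0 < x := by positivity
    have hw0 : wt W t X (k * (d * n)) = ps t d * ps t k * (W x * ps t n) := by
      rw [mul_left_comm k d n, wt_mul W t X hd.ne_zero (mul_ne_zero hk.ne_zero sn.ne_zero),
        wt_mul W t _ hk.ne_zero sn.ne_zero, wt, mul_assoc]
    have hw : pbw W L X t (k * (d * n)) =
        (if Sq (k * (d * n)) then 1 else 0) * wt W t X (k * (d * n)) := by
      by_cases h : k * (d * n) ∈ SO O L
      · rw [pbw_of_mem h, if_pos (mem_SO.1 h).2, one_mul]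
      · rw [pbw_of_notMem h]
        split_ifs with h2
        · rw [one_mul, wt_eq_zero hb hX hL (fun h3 => h (mem_SO.2 ⟨h3, h2⟩))]
        · rw [zero_mul]
    have hsq : (if Sq (k * (d * n)) then (1 : ℂ) else 0) =
        (if IsRelPrime k d then 1 else 0) * cop n d * cop n k := by
      by_cases h1 : IsRelPrime d n
      · rw [cop, cop, if_pos h1, mul_one]
        have s2 := hd.mul sn h1
        simp only [sq_mul_iff hk s2, IsRelPrime.mul_right_iff]
        by_cases h2 : IsRelPrime k d <;> by_cases h3 : IsRelPrime k n <;> simp [h2, h3]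
      · rw [cop, if_neg h1, mul_zero, zero_mul, if_neg]
        intro h2
        exact h1 (h2.of_mul_left hk.prim).coprime
    have hr : (((Real.sqrt (N (d * n)))⁻¹ : ℝ) : ℂ) * ((x ^ σ : ℝ) : ℂ) =
        ((Real.sqrt (N k / X) : ℝ) : ℂ) * ((x ^ (σ - 1 / 2) : ℝ) : ℂ) := by
      rw [← Complex.ofReal_mul, ← Complex.ofReal_mul]
      congr 1
      have e1 : x = N k / X * N (d * n) := by rw [hx, N_mul' d]; field_simp
      have pdn : (0 : ℝ) < N (d * n) := by rw [N_mul']; positivity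
      have q1 : 0 < Real.sqrt (N k / X) := Real.sqrt_pos.2 (by positivity)
      have q2 : 0 < Real.sqrt (N (d * n)) := Real.sqrt_pos.2 pdn
      have e2 : x ^ (1 / 2 : ℝ) = Real.sqrt (N k / X) * Real.sqrt (N (d * n)) := by
        rw [← Real.sqrt_eq_rpow, e1, Real.sqrt_mul (by positivity)]
      rw [Real.rpow_sub px, e2]
      field_simp
    rw [← S.cop_mul_chi sn.1 hv, pbz, hw, hsq, hw0, wt, tw, ← hx, ps_add, ps_neg, ps_neg,
      S.chi_mul_left _ _ _ hd.1 sn.1, mob_mul' hd.ne_zero sn.ne_zero, ha]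
    simp only [map_mul, Complex.conj_conj, conj_mob, Complex.conj_ofReal, conj_cop]
    have : conj (if IsRelPrime k d then (1 : ℂ) else 0) = if IsRelPrime k d then 1 else 0 := by
      split_ifs <;> simp
    rw [this]
    linear_combination ((if IsRelPrime k d then (1 : ℂ) else 0) * cop n d * cop n k *
      (conj (ps t d) * conj (ps t k) * (conj (W x) * conj (ps t n))) * (mob d * mob n) *
      (S.chi d v * S.chi n v) * conj (ps τ n)) * hr
  rw [cl_congr key, cl_const_mul, Complex.norm_real, Real.norm_of_nonneg (Real.sqrt_nonneg _),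
    Real.sq_sqrt (by positivity)]
  exact mul_le_mul_of_nonneg_left (cl_const_mul_le _ ha1 _) (by positivity)

/-- the nonzero frequencies, for one value of `d` -/
theorem pb_nonzero {θ β : ℝ} (h0 : 0 ≤ θ) (hb0 : 0 ≤ β) (hS : SS S θ β) {W : ℝ → ℂ} (hW : IsWt W)
    {b : ℝ} (hb : ∀ x, W x ≠ 0 → x ≤ b) (hb1 : 1 ≤ b) {η : ℝ} (hη : 0 < η) :
    ∃ (C : ℝ) (K : ℕ), 0 ≤ C ∧ ∀ κ : O → ℂ, Cls κ → ∀ (t : Tw O) (X L : ℝ) (A : Gr O), 0 < X →
      1 ≤ nG A → (max 1 X) ^ (1 - θ) ≤ nG A → 1 ≤ L → b * X ≤ L → ∀ d ∈ SO O L, ∀ F : Finset O, (∀ u ∈ F, u ≠ 0) →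
      ∑ u ∈ F, ‖S.pbU κ W L X t A d u‖ ≤ C * sz t ^ K * nG A *
        (((max 1 X) ^ 2) ^ η * L ^ η * (max 1 X) ^ β * ((max 1 X) ^ (1 + θ)) ^ (1 + η)) *
          (((D d).card : ℝ) ^ 2 * (N d : ℝ)⁻¹) := by
  classical
  obtain ⟨C1, K1, hC1, h1⟩ := hS _ (hW.conj.mul_rpow (η - 1 / 2)) η hη
  obtain ⟨C2, K2, hC2, h2⟩ := hS _ (hW.conj.mul_rpow (4 - 1 / 2)) η hη
  obtain ⟨Cs, hCs, hs⟩ := sepS2 O hη (K1 + K2)
  refine ⟨Cs * nJ O * (C1 + C2), K1 + K2, by positivity, ?_⟩
  intro κ hκ t X L A hX hY hXY hL hbL d hd F hF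
  have hsz := sz_pos t
  set Y := nG A with hYA
  have sd := (mem_SO.1 hd).2
  have pd := one_le_N sd.ne_zero
  set X1 := max 1 X with hX1
  have x1 : 1 ≤ X1 := le_max_left _ _
  have x2 : X ≤ X1 := le_max_right _ _
  set H := X1 ^ (1 + θ) with hH
  have hH1 : 1 ≤ H := Real.one_le_rpow x1 (by linarith)
  have hXd : 0 < X / N d := by positivity
  have hXd1 : X / N d ≤ X1 := (div_le_self hX.le pd).trans x2
  have hXH : (X / N d) ^ (1 + θ) ≤ H := Real.rpow_le_rpow hXd.le hXd1 (by linarith)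
  have hYH : X ^ 2 ≤ Y * H := by
    calc X ^ 2 ≤ X1 ^ 2 := by gcongr
      _ = X1 ^ (1 - θ) * H := by
        rw [hH, ← Real.rpow_add (by linarith), ← Real.rpow_natCast]
        congr 1; push_cast; ring
      _ ≤ Y * H := by gcongr
  set G : ℝ := (C1 + C2) * sz t ^ (K1 + K2) * Y * (L ^ η * X1 ^ β * H ^ (1 + η)) *
    (((D d).card : ℝ) ^ 2 * (N d : ℝ)⁻¹) with hG
  set I : Finset (Σ _ : O, O × O) := (SO O L).sigma fun k => D k ×ˢ F with hI
  have hmem : ∀ i ∈ I, Sq i.1 ∧ i.2.1 ∈ D i.1 ∧ vv i.1 i.2.1 i.2.2 ≠ 0 := by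
    intro i hi
    rw [hI, mem_sigma, mem_product] at hi
    have sk := (mem_SO.1 hi.1).2
    have he := (mem_D sk.ne_zero).1 hi.2.1
    exact ⟨sk, hi.2.1, vv_ne_zero sk.ne_zero he.2 (hF _ hi.2.2)⟩
  have key := hs I (SO O L) (fun i => Y / N i.2.1)
    (fun i => Y * N (vv i.1 i.2.1 i.2.2) / X ^ 2)
    (fun i => X / N d / N i.1)
    (fun i => sc (vv i.1 i.2.1 i.2.2) * A / (Sc.dl * (sc i.1 * sc d * (sc i.1 * sc d))))
    (fun i => S.pbE κ d i.1) (fun i => S.pbz W L X t d i.1 (vv i.1 i.2.1 i.2.2))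
    G (X1 ^ 2) (one_le_pow₀ x1)
    (fun i _ => by positivity)
    (fun i hi => by
      have h3 := one_le_N (hmem i hi).2.2
      rw [inv_eq_one_div]
      exact div_le_div₀ (by positivity) (one_le_mul_of_one_le_of_one_le hY h3) (by positivity)
        (by gcongr))
    (fun i hi => by
      have p1 := N_pos' (hmem i hi).1.ne_zero
      rw [nG_div, nG_mul, nG_mul, nG_mul, nG_mul, nG_dl, nG_sc (hmem i hi).2.2,
        nG_sc (hmem i hi).1.ne_zero, nG_sc sd.ne_zero, ← hYA]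
      apply le_of_eq
      field_simp)
    (fun i hi => div_pos hXd (N_pos' (hmem i hi).1.ne_zero))
    (fun n hn => (mem_SO.1 hn).2.ne_zero)
    (fun i _ => S.bi_pbE hκ d i.1) ?_
  · calc ∑ u ∈ F, ‖S.pbU κ W L X t A d u‖
        ≤ ∑ u ∈ F, ∑ k ∈ SO O L, ∑ e ∈ D k, Y / N e * ‖S.pbT κ W L X t A d k (vv k e u)‖ := by
          refine sum_le_sum fun u _ => (norm_sum_le _ _).trans (sum_le_sum fun k _ => ?_)
          refine (norm_sum_le _ _).trans (sum_le_sum fun e _ => le_of_eq ?_)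
          rw [norm_mul, norm_mob, one_mul, norm_mul, Complex.norm_real,
            Real.norm_of_nonneg (by positivity)]
      _ = ∑ i ∈ I, Y / N i.2.1 * ‖S.pbT κ W L X t A d i.1 (vv i.1 i.2.1 i.2.2)‖ := by
          rw [hI, sum_sigma, sum_comm]
          refine sum_congr rfl fun k _ => ?_
          rw [sum_product, sum_comm]
      _ ≤ Cs * (nJ O * ((X1 ^ 2) ^ η * G)) := by
          refine le_trans (le_of_eq (sum_congr rfl fun i hi => ?_)) key
          congr 2
          refine sum_congr rfl fun n1 h1 => sum_congr rfl fun n2 h2 => ?_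
          have z1 := (mem_SO.1 h1).2.ne_zero
          have z2 := (mem_SO.1 h2).2.ne_zero
          have zk := (hmem i hi).1.ne_zero
          rw [gw_of_ne _ (hmem i hi).2.2, sc_mul zk (mul_ne_zero sd.ne_zero z1),
            sc_mul zk (mul_ne_zero sd.ne_zero z2), sc_mul sd.ne_zero z1, sc_mul sd.ne_zero z2]
          congr 3
          rw [div_div_eq_mul_div, div_div]
          congr 1
          ac_rfl
      _ = _ := by rw [hG]; ring
  · intro σ hσ τ
    have hszτ := sz_pos τ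
    have hsz2 := sz_pos (-t + -τ)
    have hgen : ∀ (σ C : ℝ) (K : ℕ), C ≤ C1 + C2 → 0 ≤ C → K ≤ K1 + K2 →
        (∑ k ∈ (SO O L).filter (fun k => (1 : ℝ) ≤ N k), ∑ e ∈ D k, ∑ u ∈ F,
          (((D k).card : ℝ) * N k) * (om4 (N (vv k e u * 1) / H) *
            S.Acl d (fun y => conj (W y) * ((y ^ (σ - 1 / 2) : ℝ) : ℂ)) (X / N d / N k) (-t + -τ)
              (vv k e u * 1)) ≤
          C * sz (-t + -τ) ^ K * ((D d).card : ℝ) ^ 2 * L ^ η *
            (X / N d * (X / N d / 1) ^ β) * H ^ (1 + η)) →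
        ∑ i ∈ I, Y / N i.2.1 * (om4 (Y * N (vv i.1 i.2.1 i.2.2) / X ^ 2) *
          cl (SO O L) (fun n => S.pbz W L X t d i.1 (vv i.1 i.2.1 i.2.2) n *
            tw σ τ (X / N d / N i.1) n)) ≤
          G * sz τ ^ (K1 + K2) := by
      intro σ C K hC hC0 hK h
      rw [filter_true_of_mem fun k hk => one_le_N (mem_SO.1 hk).2.ne_zero] at h
      simp only [mul_one, div_one] at h
      calc _ ≤ ∑ i ∈ I, Y / X * ((((D i.1).card : ℝ) * N i.1) *
            (om4 (N (vv i.1 i.2.1 i.2.2) / H) *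
              S.Acl d (fun y => conj (W y) * ((y ^ (σ - 1 / 2) : ℝ) : ℂ)) (X / N d / N i.1)
                (-t + -τ) (vv i.1 i.2.1 i.2.2))) := by
            refine sum_le_sum fun i hi => ?_
            obtain ⟨sk, he, hv⟩ := hmem i hi
            have he' := (mem_D sk.ne_zero).1 he
            have pe := one_le_N he'.1.ne_zero
            have a1 := S.cl_pbz_le hb (by linarith) t hX hbL sd sk (dvd_vv i.1 i.2.1 i.2.2) σ τ
            have a2 : om4 (Y * N (vv i.1 i.2.1 i.2.2) / X ^ 2) ≤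
                om4 (N (vv i.1 i.2.1 i.2.2) / H) := by
              refine om4_anti (by positivity) ?_
              rw [div_le_div_iff₀ (by positivity) (by positivity)]
              have : (0 : ℝ) ≤ N (vv i.1 i.2.1 i.2.2) := by positivity
              nlinarith [mul_le_mul_of_nonneg_left hYH this]
            have a3 : Y / N i.2.1 ≤ Y := div_le_self (by linarith) pe
            have a4 : (1 : ℝ) ≤ (D i.1).card := by exact_mod_cast card_pos.2 ⟨_, he⟩
            have a5 := S.Acl_nonneg d (fun y => conj (W y) * ((y ^ (σ - 1 / 2) : ℝ) : ℂ))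
              (X / N d / N i.1) (-t + -τ) (vv i.1 i.2.1 i.2.2)
            have a6 := om4_nonneg (N (vv i.1 i.2.1 i.2.2) / H)
            have a7 := om4_nonneg (Y * N (vv i.1 i.2.1 i.2.2) / X ^ 2)
            have a8 := cl_nonneg (SO O L) (fun n => S.pbz W L X t d i.1 (vv i.1 i.2.1 i.2.2) n *
              tw σ τ (X / N d / N i.1) n)
            calc _ ≤ Y * (om4 (N (vv i.1 i.2.1 i.2.2) / H) * (N i.1 / X *
                  S.Acl d (fun y => conj (W y) * ((y ^ (σ - 1 / 2) : ℝ) : ℂ)) (X / N d / N i.1)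
                    (-t + -τ) (vv i.1 i.2.1 i.2.2))) := by gcongr
              _ = Y / X * ((1 * N i.1) * (om4 (N (vv i.1 i.2.1 i.2.2) / H) *
                  S.Acl d (fun y => conj (W y) * ((y ^ (σ - 1 / 2) : ℝ) : ℂ)) (X / N d / N i.1)
                    (-t + -τ) (vv i.1 i.2.1 i.2.2))) := by ring
              _ ≤ _ := by gcongr
        _ = Y / X * ∑ k ∈ SO O L, ∑ e ∈ D k, ∑ u ∈ F, (((D k).card : ℝ) * N k) *
            (om4 (N (vv k e u) / H) *
              S.Acl d (fun y => conj (W y) * ((y ^ (σ - 1 / 2) : ℝ) : ℂ)) (X / N d / N k)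
                (-t + -τ) (vv k e u)) := by
            rw [← mul_sum, hI, sum_sigma]
            congr 1
            refine sum_congr rfl fun k _ => ?_
            rw [sum_product]
        _ ≤ Y / X * (C * sz (-t + -τ) ^ K * ((D d).card : ℝ) ^ 2 * L ^ η *
            (X / N d * (X / N d) ^ β) * H ^ (1 + η)) :=
            mul_le_mul_of_nonneg_left h (by positivity)
        _ ≤ Y / X * ((C1 + C2) * (sz t * sz τ) ^ (K1 + K2) * ((D d).card : ℝ) ^ 2 *
            L ^ η * (X / N d * X1 ^ β) * H ^ (1 + η)) := by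
            have a1 : sz (-t + -τ) ^ K ≤ (sz t * sz τ) ^ (K1 + K2) := by
              have b1 : sz (-t + -τ) ≤ sz t * sz τ := by
                have := sz_add (-t) (-τ)
                rwa [sz_neg, sz_neg] at this
              have b2 : 1 ≤ sz t * sz τ := le_trans (one_le_sz _) b1
              exact (pow_le_pow_left₀ (sz_nonneg _) b1 K).trans (pow_le_pow_right₀ b2 hK)
            have a2 : (X / N d) ^ β ≤ X1 ^ β := Real.rpow_le_rpow hXd.le hXd1 hb0
            gcongr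
        _ = _ := by
            rw [hG, mul_pow]
            field_simp
    rcases hσ with rfl | rfl
    · exact hgen σ C1 K1 (by linarith) hC1 (by omega)
        (h1 d 1 sd one_ne_zero' _ _ H L 1 hXd hH1 hXH hL one_pos F hF)
    · exact hgen 4 C2 K2 (by linarith) hC2 (by omega)
        (h2 d 1 sd one_ne_zero' _ _ H L 1 hXd hH1 hXH hL one_pos F hF)

end Sext

/-- **Poisson summation backwards** for the Gauss sum sums. -/
theorem pb_of_ss (S : Sext O) {θ β : ℝ} (h0 : 0 ≤ θ) (h1 : θ ≤ 1) (hb0 : 0 ≤ β) :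
    SS S θ β → PB S θ β := by
  classical
  intro hS W hW δ hδ
  obtain ⟨a, b, M, -, -, hb1, hM0, hsupp, hM⟩ := hW.bounds
  have hb : ∀ x, W x ≠ 0 → x ≤ b := fun x hx => (hsupp x hx).2
  set η := δ / 6 with hη
  have hη0 : 0 < η := by positivity
  obtain ⟨C, K, hC, hmain⟩ := S.pb_nonzero h0 hb0 hS hW hb hb1 hη0
  obtain ⟨C1, hC1, ht1⟩ := sum_tau_le O 1 hη0
  obtain ⟨C2, hC2, ht2⟩ := sum_tau_div_le O 2 hη0
  obtain ⟨c, Cs, hc, hCs, hsc⟩ := exists_scale O
  refine ⟨Cs * ((M ^ 2 * C1 * (b * b ^ η) + C * C2 * (b ^ η * b ^ η)) * c), K,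
    by positivity, ?_⟩
  intro κ hκ t X Y0 hX hY1 hXY1
  have hsz := sz_pos t
  obtain ⟨A, hA, hsA⟩ := hsc Y0 (by linarith)
  have hYY : Y0 ≤ nG A := by rw [hA]; exact le_mul_of_one_le_left (by linarith) hc
  have hY := hY1.trans hYY
  have hXY := hXY1.trans hYY
  set Y := nG A with hYA
  set X1 := max 1 X with hX1
  have x1 : 1 ≤ X1 := le_max_left _ _
  have x2 : X ≤ X1 := le_max_right _ _
  have x0 : 0 < X1 := by linarith
  set L := b * X1 with hL
  have hL1 : 1 ≤ L := one_le_mul_of_one_le_of_one_le hb1 x1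
  have hbL : b * X ≤ L := mul_le_mul_of_nonneg_left x2 (by linarith)
  have hY0 : 0 < Y := by linarith
  have hLη : L ^ η = b ^ η * X1 ^ η := Real.mul_rpow (by linarith) x0.le
  set P : ℝ := X1 ^ (1 + θ + β + δ) with hP
  set R : ℝ := (X1 ^ 2) ^ η * L ^ η * X1 ^ β * (X1 ^ (1 + θ)) ^ (1 + η) with hR
  have hT1 : 1 ≤ sz t ^ K := one_le_sz_pow t _
  have e1 : X1 * X1 ^ η ≤ P := by
    calc X1 * X1 ^ η = X1 ^ (1 + η) := by rw [Real.rpow_add x0, Real.rpow_one]
      _ ≤ P := Real.rpow_le_rpow_of_exponent_le x1 (by linarith)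
  have e2 : R * L ^ η ≤ b ^ η * b ^ η * P := by
    have : R * L ^ η = b ^ η * b ^ η * X1 ^ (2 * η + η + β + (1 + θ) * (1 + η) + η) := by
      rw [hR, hLη, ← Real.rpow_natCast, ← Real.rpow_mul x0.le, ← Real.rpow_mul x0.le,
        Real.rpow_add x0, Real.rpow_add x0, Real.rpow_add x0, Real.rpow_add x0]
      push_cast
      ring
    rw [this]
    refine mul_le_mul_of_nonneg_left (Real.rpow_le_rpow_of_exponent_le x1 ?_) (by positivity)
    nlinarith [mul_le_mul_of_nonneg_left h1 hη0.le]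
  have hQ : (∑' h : O, ‖S.Bs κ W X t h‖ ^ 2 * gw A h : ℝ) ≤
      (M ^ 2 * C1 * (b * b ^ η) + C * C2 * (b ^ η * b ^ η)) * sz t ^ K * Y * P := by
    calc (∑' h : O, ‖S.Bs κ W X t h‖ ^ 2 * gw A h : ℝ)
        ≤ ‖((∑' h : O, ‖S.Bs κ W X t h‖ ^ 2 * gw A h : ℝ) : ℂ)‖ := by
          rw [Complex.norm_real]; exact le_abs_self _
      _ = ‖∑ d ∈ SO O L, mob d * ∑' u : O, S.pbU κ W L X t A d u‖ := by
          rw [S.pb_expand κ hb t hX A hbL]
      _ ≤ ∑ d ∈ SO O L, ((if d = 1 then M ^ 2 * Y * ∑ k ∈ SO O L, ((D k).card : ℝ) ^ 1 else 0) +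
            C * sz t ^ K * Y * R * (((D d).card : ℝ) ^ 2 * (N d : ℝ)⁻¹)) := by
          refine (norm_sum_le _ _).trans (sum_le_sum fun d hd => ?_)
          rw [norm_mul, norm_mob, one_mul]
          refine (norm_tsum_le_split (hmain κ hκ t X L A hX hY hXY hL1 hbL d hd)).trans ?_
          exact add_le_add (S.norm_pbU_zero κ hκ hM0 hM t A hd) le_rfl
      _ ≤ M ^ 2 * Y * (C1 * (L * L ^ η)) + C * sz t ^ K * Y * R * (C2 * L ^ η) := by
          rw [sum_add_distrib, ← mul_sum, sum_ite_eq']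
          refine add_le_add ?_ (mul_le_mul_of_nonneg_left (ht2 L hL1) (by positivity))
          split_ifs
          · exact mul_le_mul_of_nonneg_left (ht1 L hL1) (by positivity)
          · positivity
      _ = M ^ 2 * C1 * (b * b ^ η) * 1 * Y * (X1 * X1 ^ η) +
            C * C2 * sz t ^ K * Y * (R * L ^ η) := by
          rw [hLη, hL]; ring
      _ ≤ M ^ 2 * C1 * (b * b ^ η) * sz t ^ K * Y * P +
            C * C2 * sz t ^ K * Y * (b ^ η * b ^ η * P) := by gcongr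
      _ = _ := by ring
  calc ∑ h ∈ Hn O Y0, ‖S.Bs κ W X t h‖ ^ 2
      ≤ Cs * ∑' h : O, ‖S.Bs κ W X t h‖ ^ 2 * gw A h :=
        hsA _ _ (fun _ => by positivity) fun h =>
          pow_le_pow_left₀ (norm_nonneg _) (S.norm_Bs_le κ hκ hb hM t hX h) 2
    _ ≤ Cs * ((M ^ 2 * C1 * (b * b ^ η) + C * C2 * (b ^ η * b ^ η)) *
          sz t ^ K * Y * P) := mul_le_mul_of_nonneg_left hQ hCs.le
    _ = _ := by rw [hA]; ring

end Vale.Agent.P016Z.Ab
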