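import Vale.Agent.P016Z.Ab.Iface2

/-!
P016, abstract Poisson block: bounds for the terms with a long common factor and for the long terms.
-/

namespace Vale.Agent.P016Z.Ab

open Finset
open scoped ComplexConjugate

set_option linter.unusedSectionVars false

variable {O : Type} [CommMonoidWithZero O] [UniqueFactorizationMonoid O] [Ar O] [Sc O]

theorem rpow_le_cube {H y p : ℝ} (hH : 0 < H) (hy : H ≤ y) (hp : p ≤ 3) :
    y ^ p ≤ H ^ p * (y / H) ^ 3 := by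
  have h1 : 1 ≤ y / H := (one_le_div hH).2 hy
  have h2 : y = H * (y / H) := by field_simp
  calc y ^ p = H ^ p * (y / H) ^ p := by
        conv_lhs => rw [h2]
        rw [Real.mul_rpow hH.le (by linarith)]
    _ ≤ H ^ p * (y / H) ^ (3 : ℝ) := by
        gcongr
    _ = _ := by rw [show (3 : ℝ) = ((3 : ℕ) : ℝ) by norm_num, Real.rpow_natCast]

theorem le_H_of {D H θ : ℝ} (hD : 1 ≤ D) (hθ : 0 ≤ θ) (hH : D ^ (1 + θ) ≤ H) : D ≤ H := by
  refine le_trans ?_ hH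
  calc D = D ^ (1 : ℝ) := (Real.rpow_one D).symm
    _ ≤ D ^ (1 + θ) := Real.rpow_le_rpow_of_exponent_le hD (by linarith)

theorem div_rpow_le_H {D H θ : ℝ} (hD : 0 < D) (hθ : 0 ≤ θ) (hH : D ^ (1 + θ) ≤ H) {x : ℝ}
    (hx : 1 ≤ x) : (D / x) ^ (1 + θ) ≤ H :=
  le_trans (Real.rpow_le_rpow (by positivity) (div_le_self hD.le hx) (by linarith)) hH

theorem Sext.norm_Sm_zero_le (S : Sext O) (c : O → ℂ) {W : ℝ → ℂ} {M : ℝ} (hM : ∀ x, ‖W x‖ ≤ M)
    (X : ℝ) (t : Tw O) : ‖S.Sm c W X t 0‖ ≤ ‖c 1‖ * M := by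
  rw [Sext.Sm, tsum_eq_single 1]
  · rw [if_pos sq_one, S.chi_one_left, mul_one, norm_mul, norm_wt]
    exact mul_le_mul_of_nonneg_left (hM _) (norm_nonneg _)
  · intro n hn
    split_ifs with h
    · rw [S.chi_zero h.1 hn]; simp
    · rfl

/-- the terms with a long common factor -/
theorem large_le (S : Sext O) {θ β : ℝ} (h0 : 0 ≤ θ) (hβ : 0 ≤ β) (hC : COP S θ β) {W : ℝ → ℂ}
    (hW : IsWt W) {b M : ℝ} (hb1 : 1 ≤ b) (hb : ∀ x, W x ≠ 0 → x ≤ b) (hM : ∀ x, ‖W x‖ ≤ M)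
    {δ : ℝ} (hδ : 0 < δ) : ∃ (C : ℝ) (K : ℕ), 0 ≤ C ∧ ∀ κ : O → ℂ, Cls κ →
      ∀ (t : Tw O) (D0 H Z : ℝ) (A : Gr O), nG A = H → 1 ≤ D0 → D0 ^ (1 + θ) ≤ H → 1 ≤ Z →
      Z ≤ D0 →
      ‖∑ k ∈ SO O (b * D0), lam1 Z k * (S.LargeT (b * D0) A (aco κ W D0 t) k : ℂ)‖ ≤
        C * sz t ^ K * (D0 * (D0 / Z) ^ β) * H ^ (1 + δ) := by
  set ε : ℝ := min (δ / 3) 1 with hε
  have hε0 : 0 < ε := lt_min (by linarith) one_pos
  have hε1 : ε ≤ 1 := min_le_right _ _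
  have hε2 : 3 * ε ≤ δ := by have := min_le_left (δ / 3) 1; linarith
  obtain ⟨Cg, hCg, hgw⟩ := tsum_gw_le O hε0
  obtain ⟨C1, K, hC1, h1⟩ := hC W hW ε hε0
  obtain ⟨C2, hC2, h2⟩ := sum_tau_le O 1 hε0
  obtain ⟨C3, hC3, h3⟩ := sum_tau_div_le O 3 hε0
  have hM0 : 0 ≤ M := (norm_nonneg _).trans (hM 0)
  refine ⟨M ^ 2 * C2 * (b * b ^ ε) + Cg * C1 * C3 * b ^ ε, K, by positivity, ?_⟩
  intro κ hκ t D0 H Z A hAH hD hH hZ hZD
  have hsz := sz_pos t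
  have hD0 : 0 < D0 := by linarith
  have hDH : D0 ≤ H := le_H_of hD h0 hH
  have hH1 : 1 ≤ H := hD.trans hDH
  have hH0 : 0 < H := by linarith
  have hL1 : 1 ≤ b * D0 := one_le_mul_of_one_le_of_one_le hb1 hD
  have hT1 : 1 ≤ sz t ^ K := one_le_sz_pow t _
  have hZβ : 1 ≤ (D0 / Z) ^ β := Real.one_le_rpow ((one_le_div (by linarith)).2 hZD) hβ
  set G : ℝ := C1 * sz t ^ K * (D0 * (D0 / Z) ^ β) * H ^ (1 + ε) with hG
  have hG0 : 0 ≤ G := by positivity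
  have hk : ∀ k ∈ SO O (b * D0), ‖lam1 Z k * (S.LargeT (b * D0) A (aco κ W D0 t) k : ℂ)‖ ≤
      M ^ 2 * ((D k).card : ℝ) ^ 1 + Cg * H ^ ε * G * (((D k).card : ℝ) ^ 3 * (N k : ℝ)⁻¹) := by
    intro k hk
    have sk := (mem_SO.1 hk).2
    have pk : (0 : ℝ) < N k := N_pos' sk.ne_zero
    by_cases hkZ : (N k : ℝ) ≤ Z
    · rw [lam1_eq_zero sk.ne_zero hkZ, zero_mul, norm_zero]; positivity
    push Not at hkZ
    have hf : ∀ u, ‖∑ m ∈ SO O (b * D0), aco κ W D0 t (k * m) * S.chi (k * m) u‖ ^ 2 ≤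
        ‖S.Ac k (fun n => κ (k * n)) W (D0 / N k) t u‖ ^ 2 := by
      intro u
      rw [S.sum_aco_mul κ hb (by linarith) hD0 le_rfl t sk, norm_mul, norm_mul, norm_mul, norm_mob,
        norm_ps, one_mul, one_mul]
      gcongr
      exact mul_le_of_le_one_left (norm_nonneg _) (S.norm_chi_le sk.1 u)
    have hle : S.LargeT (b * D0) A (aco κ W D0 t) k ≤
        M ^ 2 + Cg * H ^ ε * (G * (((D k).card : ℝ) ^ 2 * (N k : ℝ)⁻¹)) := by
      refine (hgw _ A (G * (((D k).card : ℝ) ^ 2 * (N k : ℝ)⁻¹)) H (fun u => by positivity) hH1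
        hAH.le fun y hy => ?_).trans ?_
      · rw [hAH] at hy ⊢
        have h4 := h1 k sk _ (hκ.comp_mul k) t (D0 / N k) y (by positivity) (hH1.trans hy)
          ((div_rpow_le_H hD0 h0 hH (one_le_N sk.ne_zero)).trans hy)
        have h5 : (D0 / N k) ^ (1 + β) ≤ D0 * (D0 / Z) ^ β * (N k : ℝ)⁻¹ := by
          rw [Real.rpow_add (by positivity), Real.rpow_one]
          have : (D0 / N k) ^ β ≤ (D0 / Z) ^ β := by gcongr
          calc D0 / N k * (D0 / N k) ^ β ≤ D0 / N k * (D0 / Z) ^ β := by gcongr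
            _ = _ := by ring
        have h6 := rpow_le_cube hH0 hy (p := 1 + ε) (by linarith)
        calc _ ≤ ∑ u ∈ Hn O y, ‖S.Ac k (fun n => κ (k * n)) W (D0 / N k) t u‖ ^ 2 :=
              sum_le_sum fun u _ => hf u
          _ ≤ _ := h4
          _ ≤ C1 * sz t ^ K * ((D k).card : ℝ) ^ 2 * (D0 * (D0 / Z) ^ β * (N k : ℝ)⁻¹) *
              (H ^ (1 + ε) * (y / H) ^ 3) := by
              have : 0 ≤ y := by linarith
              gcongr
          _ = _ := by rw [hG]; ring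
      · refine add_le_add ((hf 0).trans ?_) le_rfl
        have h7 := S.norm_Sm_zero_le (fun n => mob n * (cop n k * κ (k * n))) hM
          (D0 / N k) t
        have h8 : ‖mob (1 : O) * (cop 1 k * κ (k * 1))‖ ≤ 1 := by
          rw [norm_mul, norm_mul, norm_mob, one_mul]
          exact mul_le_one₀ (norm_cop_le _ _) (norm_nonneg _) (hκ.2 _)
        have h9 : ‖S.Ac k (fun n => κ (k * n)) W (D0 / N k) t 0‖ ≤ M :=
          h7.trans (mul_le_of_le_one_left hM0 h8)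
        gcongr
    have hnn : 0 ≤ S.LargeT (b * D0) A (aco κ W D0 t) k :=
      tsum_nonneg fun u => mul_nonneg (by positivity) (gw_nonneg _ _)
    rw [norm_mul, Complex.norm_real, Real.norm_of_nonneg hnn]
    calc _ ≤ ((D k).card : ℝ) * (M ^ 2 + Cg * H ^ ε * (G * (((D k).card : ℝ) ^ 2 * (N k : ℝ)⁻¹))) :=
          mul_le_mul (norm_lam1_le Z k) hle hnn (by positivity)
      _ = _ := by ring
  have hLε : (b * D0) ^ ε ≤ b ^ ε * H ^ ε := by
    rw [← Real.mul_rpow (by linarith) hH0.le]; gcongr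
  have hH2 : H ^ ε * H ^ (1 + ε) * H ^ ε ≤ H ^ (1 + δ) := by
    rw [← Real.rpow_add hH0, ← Real.rpow_add hH0]
    exact Real.rpow_le_rpow_of_exponent_le hH1 (by linarith)
  have hH3 : H ^ ε ≤ H ^ (1 + δ) := Real.rpow_le_rpow_of_exponent_le hH1 (by linarith)
  calc _ ≤ ∑ k ∈ SO O (b * D0),
        (M ^ 2 * ((D k).card : ℝ) ^ 1 + Cg * H ^ ε * G * (((D k).card : ℝ) ^ 3 * (N k : ℝ)⁻¹)) :=
        (norm_sum_le _ _).trans (sum_le_sum hk)
    _ = M ^ 2 * ∑ k ∈ SO O (b * D0), ((D k).card : ℝ) ^ 1 +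
        Cg * H ^ ε * G * ∑ k ∈ SO O (b * D0), ((D k).card : ℝ) ^ 3 * (N k : ℝ)⁻¹ := by
        rw [sum_add_distrib, mul_sum, mul_sum]
    _ ≤ M ^ 2 * (C2 * (b * D0 * (b ^ ε * H ^ ε))) + Cg * H ^ ε * G * (C3 * (b ^ ε * H ^ ε)) := by
        gcongr
        · exact (h2 _ hL1).trans (by gcongr)
        · exact (h3 _ hL1).trans (by gcongr)
    _ = M ^ 2 * C2 * (b * b ^ ε) * (1 * (D0 * 1) * H ^ ε) +
        Cg * C1 * C3 * b ^ ε *
          (sz t ^ K * (D0 * (D0 / Z) ^ β) * (H ^ ε * H ^ (1 + ε) * H ^ ε)) := by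
        rw [hG]; ring
    _ ≤ M ^ 2 * C2 * (b * b ^ ε) * (sz t ^ K * (D0 * (D0 / Z) ^ β) * H ^ (1 + δ)) +
        Cg * C1 * C3 * b ^ ε * (sz t ^ K * (D0 * (D0 / Z) ^ β) * H ^ (1 + δ)) := by
        gcongr
    _ = _ := by ring

/-! ### the long terms -/

namespace Sext

variable (S : Sext O)

/-- the coprime bilinear form of a long term -/
noncomputable def Bk (L : ℝ) (a : O → ℂ) (k v : O) : ℂ :=
  ∑ m1 ∈ SO O L, ∑ m2 ∈ SO O L, cop m1 m2 * (S.Esg (k * m1) (k * m2) * S.Eb k m2 m1 *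
    (conj (a (k * m1) * S.chi m1 v) * (a (k * m2) * S.chi m2 v)))

theorem LongT_eq {L : ℝ} (A : Gr O) {a : O → ℂ} (ha : ∀ n, n ∉ SO O L → a n = 0) {k : O}
    (hk : k ∈ SO O L) : S.LongT L A a k = ∑ e ∈ D k, ∑' u : O,
      mob e * ((N k / N e : ℝ) : ℂ) * (S.Bk L a k (vv k e u) * (gw A (vv k e u) : ℂ)) := by
  have sk := (mem_SO.1 hk).2
  have h1 : ∀ m1 ∈ SO O L, ∀ m2 ∈ SO O L,
      cop m1 m2 * (conj (a (k * m1)) * a (k * m2) * S.Fd A (k * m1) (k * m2)) =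
      ∑ e ∈ D k, ∑' u : O, mob e * ((N k / N e : ℝ) : ℂ) *
        ((cop m1 m2 * (S.Esg (k * m1) (k * m2) * S.Eb k m2 m1 *
          (conj (a (k * m1) * S.chi m1 (vv k e u)) * (a (k * m2) * S.chi m2 (vv k e u))))) *
          (gw A (vv k e u) : ℂ)) := by
    intro m1 _ m2 _
    by_cases c0 : IsRelPrime m2 m1
    · by_cases c1 : k * m1 ∈ SO O L
      · by_cases c2 : k * m2 ∈ SO O L
        · rw [S.Fd_back sk.prim (mem_SO.1 c1).2 (mem_SO.1 c2).2 c0.symm A, mul_sum, mul_sum,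
            mul_sum]
          refine sum_congr rfl fun e _ => ?_
          rw [← tsum_mul_left, ← tsum_mul_left, ← tsum_mul_left, ← tsum_mul_left, ← tsum_mul_left]
          refine tsum_congr fun u => ?_
          rw [map_mul]; ring
        · simp [ha _ c2]
      · simp [ha _ c1]
    · simp [cop, c0]
  unfold LongT
  rw [sum_congr rfl fun m1 hm1 => sum_congr rfl fun m2 hm2 => h1 m1 hm1 m2 hm2]
  rw [sum_congr rfl fun m1 _ => sum_comm, sum_comm]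
  refine sum_congr rfl fun e he => ?_
  have he' := (mem_D sk.ne_zero).1 he
  have hs : ∀ m1 ∈ SO O L, ∀ m2 ∈ SO O L, Summable fun u : O => mob e * ((N k / N e : ℝ) : ℂ) *
        ((cop m1 m2 * (S.Esg (k * m1) (k * m2) * S.Eb k m2 m1 *
          (conj (a (k * m1) * S.chi m1 (vv k e u)) * (a (k * m2) * S.chi m2 (vv k e u))))) *
          (gw A (vv k e u) : ℂ)) := by
    intro m1 hm1 m2 hm2
    refine Summable.mul_left _ (summable_gw_vv A sk.ne_zero he'.2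
      (M := ‖cop m1 m2‖ * (‖S.Esg (k * m1) (k * m2) * S.Eb k m2 m1‖ *
        (‖a (k * m1)‖ * ‖a (k * m2)‖))) fun u => ?_)
    rw [norm_mul, norm_mul, norm_mul (conj _), Complex.norm_conj, norm_mul (a _), norm_mul (a _)]
    gcongr
    · exact mul_le_of_le_one_right (norm_nonneg _) (S.norm_chi_le (mem_SO.1 hm1).2.1 _)
    · exact mul_le_of_le_one_right (norm_nonneg _) (S.norm_chi_le (mem_SO.1 hm2).2.1 _)
  rw [sum_congr rfl fun m1 hm1 => (Summable.tsum_finsetSum (hs m1 hm1)).symm,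
    ← Summable.tsum_finsetSum fun m1 hm1 => summable_sum (hs m1 hm1)]
  refine tsum_congr fun u => ?_
  rw [Bk, sum_mul, mul_sum]
  refine sum_congr rfl fun m1 _ => ?_
  rw [sum_mul, mul_sum]

theorem norm_Bk_le {L : ℝ} {a : O → ℂ} (ha : ∀ n, n ∉ SO O L → a n = 0) {k : O} (hk : Prim k)
    (v : O) : ‖S.Bk L a k v‖ ≤
      ∑ d ∈ SO O L, nJ O * cl (SO O L) (fun n => a (k * (d * n)) * S.chi (d * n) v) := by
  have hG : Supp2 L fun m1 m2 => S.Esg (k * m1) (k * m2) * S.Eb k m2 m1 *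
      (conj (a (k * m1) * S.chi m1 v) * (a (k * m2) * S.chi m2 v)) := by
    rintro n1 n2 (h | h) <;> simp [ha _ (not_mem_SO_mul hk h)]
  rw [Bk, sum_cop hG]
  refine (norm_sum_le _ _).trans (sum_le_sum fun d _ => ?_)
  rw [norm_mul, norm_mob, one_mul]
  have hE : Bi fun n1 n2 => S.Esg (k * (d * n1)) (k * (d * n2)) * S.Eb k (d * n2) (d * n1) :=
    ((S.bi.comp_mul k k).comp_mul d d).mul ((S.bi_Eb k).comp_mul d d).swap
  exact bil_le' hE (SO O L) fun n => a (k * (d * n)) * S.chi (d * n) v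

theorem norm_Bk_zero_le {L : ℝ} {a : O → ℂ} {M : ℝ} (hM : ∀ n, ‖a n‖ ≤ M) (k : O) :
    ‖S.Bk L a k 0‖ ≤ M ^ 2 := by
  have hM0 : 0 ≤ M := (norm_nonneg _).trans (hM 0)
  have h1 : ∀ m ∈ SO O L, m ≠ 1 → S.chi m 0 = 0 := fun m hm h => S.chi_zero (mem_SO.1 hm).2.1 h
  by_cases h : (1 : O) ∈ SO O L
  · rw [Bk, sum_eq_single_of_mem 1 h, sum_eq_single_of_mem 1 h]
    · simp only [S.chi_one_left, mul_one]
      rw [norm_mul, norm_mul, norm_mul, norm_mul, Complex.norm_conj]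
      calc _ ≤ 1 * (1 * 1 * (M * M)) := by
            gcongr
            exacts [norm_cop_le _ _, S.norm_Esg _ _, (S.bi_Eb k).2.2 _ _, hM _, hM _]
        _ = _ := by ring
    · intro m hm hm1
      simp [h1 m hm hm1]
    · intro m hm hm1
      exact sum_eq_zero fun m2 _ => by simp [h1 m hm hm1]
  · rw [Bk, sum_eq_zero]
    · simpa using sq_nonneg M
    · intro m hm
      have : m ≠ 1 := fun h2 => h (h2 ▸ hm)
      exact sum_eq_zero fun m2 _ => by simp [h1 m hm this]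

theorem norm_Bk_bdd {L : ℝ} {a : O → ℂ} {M : ℝ} (hM : ∀ n, ‖a n‖ ≤ M) (k v : O) :
    ‖S.Bk L a k v‖ ≤ ∑ _m1 ∈ SO O L, ∑ _m2 ∈ SO O L, M ^ 2 := by
  have hM0 : 0 ≤ M := (norm_nonneg _).trans (hM 0)
  refine (norm_sum_le _ _).trans (sum_le_sum fun m1 h1 => ?_)
  refine (norm_sum_le _ _).trans (sum_le_sum fun m2 h2 => ?_)
  rw [norm_mul, norm_mul, norm_mul, norm_mul, Complex.norm_conj, norm_mul, norm_mul]
  calc _ ≤ 1 * (1 * 1 * (M * 1 * (M * 1))) := by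
        gcongr
        exacts [norm_cop_le _ _, S.norm_Esg _ _, (S.bi_Eb k).2.2 _ _, hM _,
          S.norm_chi_le (mem_SO.1 h1).2.1 _, hM _, S.norm_chi_le (mem_SO.1 h2).2.1 _]
    _ = _ := by ring

open Classical in
/-- the class sums of a long term are Moebius sums -/
theorem cl_long_le {κ : O → ℂ} (hκ : Cls κ) {W : ℝ → ℂ} {b : ℝ} (hb : ∀ x, W x ≠ 0 → x ≤ b)
    (hb0 : 0 ≤ b) {D0 L : ℝ} (hD : 0 < D0) (hL : b * D0 ≤ L) (t : Tw O) {g k d v : O} (e : O)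
    (hg : Prim g) (hk : Prim k) (hd : Prim d) (hv : k ∣ v) :
    cl (SO O L) (fun n => aco κ W D0 t (g * (k * (d * n))) * S.chi (k * (d * n)) e *
      S.chi (d * n) v) ≤
      if Sq (g * d) then S.Acl (g * d) W (D0 / N (g * d) / N k) t (v * e) else 0 := by
  have hm : Prim (g * d * k) := (hg.mul hd).mul hk
  have h1 : cl (SO O L) (fun n => aco κ W D0 t (g * (k * (d * n))) * S.chi (k * (d * n)) e *
      S.chi (d * n) v) = cl (SO O L) (fun n => (S.chi k e * S.chi d e * S.chi d v) *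
        (aco κ W D0 t (g * d * k * n) * S.chi n (v * e))) := by
    refine cl_congr fun n hn => ?_
    have an := (mem_SO.1 hn).2.1
    rw [S.chi_mul_left _ _ _ hk (hd.mul an), S.chi_mul_left _ _ _ hd an,
      S.chi_mul_left _ _ _ hd an, S.chi_mul _ _ _ an,
      show g * (k * (d * n)) = g * d * k * n by ac_rfl]
    ring
  have h2 : ‖S.chi k e * S.chi d e * S.chi d v‖ ≤ 1 := by
    rw [norm_mul, norm_mul]
    exact mul_le_one₀ (mul_le_one₀ (S.norm_chi_le hk _) (norm_nonneg _) (S.norm_chi_le hd _))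
      (norm_nonneg _) (S.norm_chi_le hd _)
  rw [h1]
  refine (cl_const_mul_le _ h2 _).trans ?_
  by_cases hs : Sq (g * d * k)
  · rw [if_pos (hs.left (hg.mul hd).prim)]
    refine (S.cl_aco_le hκ hb hb0 hD hL t hs _).trans (le_of_eq ?_)
    rw [S.Acl_mul_of_dvd _ (hv.mul_right e), N_mul' (g * d) k, div_div]
  · rw [cl_congr (y := fun _ => 0) fun n _ => by
      rw [aco_mul_of_not κ W D0 t hm.prim hs, zero_mul], cl_zero]
    split_ifs
    · exact S.Acl_nonneg _ _ _ _ _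
    · exact le_rfl

/-- the summand of a long term -/
noncomputable def TT (L : ℝ) (A : Gr O) (Z : ℝ) (a : O → ℂ) (k e' u : O) : ℂ :=
  psi2 Z k * (mob e' * ((N k / N e' : ℝ) : ℂ) *
    (S.Bk L a k (vv k e' u) * (gw A (vv k e' u) : ℂ)))

theorem TT_summable {L M : ℝ} (Z : ℝ) (A : Gr O) {a : O → ℂ} (haM : ∀ n, ‖a n‖ ≤ M) {k : O}
    (hk : k ∈ SO O L) {e' : O} (he' : e' ∈ D k) : Summable (S.TT L A Z a k e') := by
  have sk := (mem_SO.1 hk).2
  have he'' := (mem_D sk.ne_zero).1 he'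
  exact ((summable_gw_vv A sk.ne_zero he''.2
    (fun u => S.norm_Bk_bdd haM k (vv k e' u))).mul_left _).mul_left _

theorem long_eq {L M : ℝ} (Z : ℝ) (A : Gr O) {a : O → ℂ} (ha0 : ∀ n, n ∉ SO O L → a n = 0)
    (haM : ∀ n, ‖a n‖ ≤ M) : ∑ k ∈ SO O L, psi2 Z k * S.LongT L A a k =
      ∑' u : O, ∑ k ∈ SO O L, ∑ e' ∈ D k, S.TT L A Z a k e' u := by
  rw [Summable.tsum_finsetSum fun k hk =>
    summable_sum fun e' he' => S.TT_summable Z A haM hk he']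
  refine sum_congr rfl fun k hk => ?_
  rw [Summable.tsum_finsetSum fun e' he' => S.TT_summable Z A haM hk he', S.LongT_eq A ha0 hk,
    mul_sum]
  refine sum_congr rfl fun e' _ => ?_
  rw [← tsum_mul_left]
  rfl

theorem norm_TT_le {L : ℝ} (A : Gr O) (Z : ℝ) (a : O → ℂ) {k : O} (hk : k ∈ SO O L) {e' : O}
    (he' : e' ∈ D k) (u : O) : ‖S.TT L A Z a k e' u‖ ≤
      ‖psi2 Z k‖ * (N k * (‖S.Bk L a k (vv k e' u)‖ * gw A (vv k e' u))) := by
  have sk := (mem_SO.1 hk).2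
  have se' := sq_of_mem_D sk he'
  have h1 : (N k / N e' : ℝ) ≤ N k := div_le_self (by positivity) (one_le_N se'.ne_zero)
  have h2 := gw_nonneg A (vv k e' u)
  rw [TT, norm_mul, norm_mul, norm_mul, norm_mul, norm_mob, one_mul, Complex.norm_real,
    Complex.norm_real, Real.norm_of_nonneg (by positivity), Real.norm_of_nonneg h2]
  exact mul_le_mul_of_nonneg_left (mul_le_mul_of_nonneg_right h1 (by positivity)) (norm_nonneg _)

theorem norm_TT_zero {L M : ℝ} (A : Gr O) (Z : ℝ) (hL : 0 ≤ L) {a : O → ℂ} (haM : ∀ n, ‖a n‖ ≤ M) :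
    ‖∑ k ∈ SO O L, ∑ e' ∈ D k, S.TT L A Z a k e' 0‖ ≤
      M ^ 2 * L * ∑ k ∈ SO O L, ((D k).card : ℝ) ^ 2 := by
  rw [mul_sum]
  refine (norm_sum_le _ _).trans (sum_le_sum fun k hk => ?_)
  refine (norm_sum_le _ _).trans ?_
  calc ∑ e' ∈ D k, ‖S.TT L A Z a k e' 0‖
      ≤ ∑ _e' ∈ D k, ((D k).card : ℝ) * (L * (M ^ 2 * 1)) := by
        refine sum_le_sum fun e' he' => (S.norm_TT_le A Z a hk he' 0).trans ?_
        rw [vv_zero, gw_zero]
        gcongr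
        exacts [norm_psi2_le Z k, (mem_SO.1 hk).1, S.norm_Bk_zero_le haM k]
    _ = _ := by rw [sum_const, nsmul_eq_mul]; ring

/-- the majorant of a long term -/
noncomputable def PP (W : ℝ → ℂ) (D0 H : ℝ) (t : Tw O) (g e d k e' u : O) : ℝ :=
  (((D k).card : ℝ) * N k) *
    (om4 (N (vv k e' u * e) / H) * S.Acl (g * d) W (D0 / N (g * d) / N k) t (vv k e' u * e))

open Classical in
theorem norm_TT_le_PP {κ : O → ℂ} (hκ : Cls κ) {W : ℝ → ℂ} {b : ℝ}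
    (hb : ∀ x, W x ≠ 0 → x ≤ b) (hb0 : 0 ≤ b) {D0 H c : ℝ} (hD0 : 0 < D0) (t : Tw O)
    (Z : ℝ) (A : Gr O) {g e : O} (hgw : ∀ x : O, x ≠ 0 → gw (A / sc e) x ≤ c * om4 (N (x * e) / H))
    (sg : Sq g) {k : O} (hk : k ∈ SO O (b * D0)) {e' : O} (he' : e' ∈ D k)
    {u : O} (hu : u ≠ 0) :
    ‖S.TT (b * D0) (A / sc e) Z (fun m => aco κ W D0 t (g * m) * S.chi m e) k e' u‖ ≤
      if Z ≤ N k then ∑ d ∈ (SO O (b * D0)).filter (fun d => Sq (g * d)),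
        c * nJ O * S.PP W D0 H t g e d k e' u else 0 := by
  have sk := (mem_SO.1 hk).2
  have ha0 : ∀ n, n ∉ SO O (b * D0) → aco κ W D0 t (g * n) * S.chi n e = 0 := fun n hn => by
    rw [aco_eq_zero κ hb hD0 le_rfl t (not_mem_SO_mul sg.prim hn), zero_mul]
  split_ifs with hZk
  · refine (S.norm_TT_le _ Z _ hk he' u).trans ?_
    have b1 := S.norm_Bk_le (a := fun m => aco κ W D0 t (g * m) * S.chi m e) ha0 sk.prim
      (vv k e' u)
    have b2 : ∑ d ∈ SO O (b * D0), nJ O * cl (SO O (b * D0))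
        (fun n => aco κ W D0 t (g * (k * (d * n))) * S.chi (k * (d * n)) e *
          S.chi (d * n) (vv k e' u)) ≤
        ∑ d ∈ (SO O (b * D0)).filter (fun d => Sq (g * d)),
          nJ O * S.Acl (g * d) W (D0 / N (g * d) / N k) t (vv k e' u * e) := by
      rw [sum_filter]
      refine sum_le_sum fun d hd => ?_
      have := S.cl_long_le hκ hb hb0 hD0 le_rfl t e sg.1 sk.1 (mem_SO.1 hd).2.1
        (dvd_vv k e' u)
      split_ifs at this ⊢ with h5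
      · exact mul_le_mul_of_nonneg_left this (by positivity)
      · exact mul_nonpos_of_nonneg_of_nonpos (by positivity) this
    have b3 := hgw (vv k e' u) (vv_ne_zero sk.ne_zero ((mem_D sk.ne_zero).1 he').2 hu)
    have b4 := norm_psi2_le Z k
    have b5 := gw_nonneg (A / sc e) (vv k e' u)
    have b6 : 0 ≤ ∑ d ∈ (SO O (b * D0)).filter (fun d => Sq (g * d)),
          nJ O * S.Acl (g * d) W (D0 / N (g * d) / N k) t (vv k e' u * e) :=
      sum_nonneg fun d _ => mul_nonneg (by positivity) (S.Acl_nonneg _ _ _ _ _)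
    calc _ ≤ ((D k).card : ℝ) * (N k * ((∑ d ∈ (SO O (b * D0)).filter (fun d => Sq (g * d)),
          nJ O * S.Acl (g * d) W (D0 / N (g * d) / N k) t (vv k e' u * e)) *
          (c * om4 (N (vv k e' u * e) / H)))) :=
          mul_le_mul b4 (mul_le_mul_of_nonneg_left (mul_le_mul (b1.trans b2) b3 b5 b6)
            (by positivity)) (by positivity) (by positivity)
      _ = _ := by
          rw [sum_mul, mul_sum, mul_sum]
          exact sum_congr rfl fun d _ => by rw [PP]; ring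
  · rw [TT, psi2_eq_zero (not_le.1 hZk).le, zero_mul, norm_zero]

open Classical in
theorem sum_norm_TT_le {κ : O → ℂ} (hκ : Cls κ) {W : ℝ → ℂ} {b : ℝ}
    (hb : ∀ x, W x ≠ 0 → x ≤ b) (hb0 : 0 ≤ b) {D0 H c : ℝ} (hD0 : 0 < D0) (t : Tw O)
    (Z : ℝ) (A : Gr O) {g e : O} (hgw : ∀ x : O, x ≠ 0 → gw (A / sc e) x ≤ c * om4 (N (x * e) / H))
    (sg : Sq g) (F : Finset O) (hF : ∀ u ∈ F, u ≠ 0) :
    ∑ u ∈ F, ‖∑ k ∈ SO O (b * D0), ∑ e' ∈ D k,
      S.TT (b * D0) (A / sc e) Z (fun m => aco κ W D0 t (g * m) * S.chi m e) k e' u‖ ≤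
      c * nJ O * ∑ d ∈ (SO O (b * D0)).filter (fun d => Sq (g * d)),
        ∑ k ∈ (SO O (b * D0)).filter (fun k => Z ≤ N k), ∑ e' ∈ D k, ∑ u ∈ F,
          S.PP W D0 H t g e d k e' u := by
  calc _ ≤ ∑ u ∈ F, ∑ k ∈ (SO O (b * D0)).filter (fun k => Z ≤ N k), ∑ e' ∈ D k,
        ∑ d ∈ (SO O (b * D0)).filter (fun d => Sq (g * d)),
          c * nJ O * S.PP W D0 H t g e d k e' u := by
        refine sum_le_sum fun u hu => ?_
        rw [sum_filter]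
        refine (norm_sum_le _ _).trans (sum_le_sum fun k hk => ?_)
        refine (norm_sum_le _ _).trans ((sum_le_sum fun e' he' =>
          S.norm_TT_le_PP hκ hb hb0 hD0 t Z A hgw sg hk he' (hF u hu)).trans ?_)
        split_ifs
        · exact le_rfl
        · simp
    _ = _ := by
        rw [sum_comm]
        simp only [mul_sum]
        rw [sum_comm (s := (SO O (b * D0)).filter (fun d => Sq (g * d)))]
        refine sum_congr rfl fun k _ => ?_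
        rw [sum_comm, sum_comm (s := (SO O (b * D0)).filter (fun d => Sq (g * d)))]
        exact sum_congr rfl fun e' _ => sum_comm

end Sext

theorem long_num1 {C1 T C4 Lε X β Z D0 Hp ng nd c : ℝ} (hC1 : 0 ≤ C1) (hT : 0 ≤ T)
    (hL : 0 ≤ Lε) (hH : 0 ≤ Hp) (hβ : 0 ≤ β) (hD0 : 0 < D0) (hZ : 0 < Z) (hg : 1 ≤ ng)
    (hd : 1 ≤ nd) (hc0 : 0 ≤ c) (hc : c ≤ C4 * Lε ^ 2) (hX : X = D0 / (ng * nd)) :
    C1 * T * c ^ 2 * Lε * (X * (X / Z) ^ β) * Hp ≤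
      C1 * T * (C4 * Lε ^ 2) ^ 2 * Lε * (ng⁻¹ * (D0 * (D0 / Z) ^ β)) * Hp * nd⁻¹ := by
  have h1 : 1 ≤ ng * nd := one_le_mul_of_one_le_of_one_le hg hd
  have hX0 : 0 ≤ X := by rw [hX]; positivity
  have hXD : X ≤ D0 := by rw [hX]; exact div_le_self hD0.le h1
  have h2 : (X / Z) ^ β ≤ (D0 / Z) ^ β := by gcongr
  have h3 : X * (X / Z) ^ β ≤ ng⁻¹ * (D0 * (D0 / Z) ^ β) * nd⁻¹ := by
    calc X * (X / Z) ^ β ≤ X * (D0 / Z) ^ β := by gcongr
      _ = _ := by rw [hX]; field_simp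
  calc _ ≤ C1 * T * (C4 * Lε ^ 2) ^ 2 * Lε * (ng⁻¹ * (D0 * (D0 / Z) ^ β) * nd⁻¹) * Hp := by
        gcongr
    _ = _ := by ring

theorem long_num2 {M C1 C2 C3 C4 q T b D0 H R Lε ε δ : ℝ} (hC1 : 0 ≤ C1) (hC2 : 0 ≤ C2)
    (hC3 : 0 ≤ C3) (hq : 0 ≤ q) (hT : 1 ≤ T) (hb : 1 ≤ b) (hD0 : 0 < D0) (hH : 1 ≤ H)
    (hR : 0 ≤ R) (hL0 : 0 ≤ Lε) (hL : Lε ≤ b ^ ε * H ^ ε) (hε : 0 < ε) (hδ : 8 * ε ≤ δ) :
    M ^ 2 * (b * D0) * (C2 * (b * D0 * Lε)) +
      q * H ^ ε * (C1 * T * (C4 * Lε ^ 2) ^ 2 * Lε * R * H ^ (1 + ε) * (C3 * Lε)) ≤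
      (M ^ 2 * C2 * (b ^ 2 * b ^ ε) + q * C1 * C4 ^ 2 * C3 * (b ^ ε) ^ 6) * T *
        (D0 ^ 2 * H ^ δ + R * H ^ (1 + δ)) := by
  have hH0 : 0 < H := by linarith
  have hb0 : 0 < b := by linarith
  have hH2 : H ^ ε ≤ H ^ δ := Real.rpow_le_rpow_of_exponent_le hH (by linarith)
  have hH3 : (H ^ ε) ^ 7 * H ^ (1 + ε) ≤ H ^ (1 + δ) := by
    rw [← Real.rpow_natCast, ← Real.rpow_mul hH0.le, ← Real.rpow_add hH0]
    exact Real.rpow_le_rpow_of_exponent_le hH (by push_cast; linarith)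
  have c1 : M ^ 2 * (b * D0) * (C2 * (b * D0 * Lε)) ≤
      M ^ 2 * C2 * (b ^ 2 * b ^ ε) * (T * (D0 ^ 2 * H ^ δ)) := by
    calc _ ≤ M ^ 2 * (b * D0) * (C2 * (b * D0 * (b ^ ε * H ^ ε))) := by gcongr
      _ = M ^ 2 * C2 * (b ^ 2 * b ^ ε) * (1 * (D0 ^ 2 * H ^ ε)) := by ring
      _ ≤ _ := by gcongr
  have c2 : q * H ^ ε * (C1 * T * (C4 * Lε ^ 2) ^ 2 * Lε * R * H ^ (1 + ε) * (C3 * Lε)) ≤
      q * C1 * C4 ^ 2 * C3 * (b ^ ε) ^ 6 * (T * (R * H ^ (1 + δ))) := by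
    calc _ = q * C1 * C4 ^ 2 * C3 * (T * (R * (Lε ^ 6 * H ^ ε * H ^ (1 + ε)))) := by ring
      _ ≤ q * C1 * C4 ^ 2 * C3 * (T * (R * ((b ^ ε * H ^ ε) ^ 6 * H ^ ε * H ^ (1 + ε)))) := by
          gcongr
      _ = q * C1 * C4 ^ 2 * C3 * (b ^ ε) ^ 6 * (T * (R * ((H ^ ε) ^ 7 * H ^ (1 + ε)))) := by
          ring
      _ ≤ _ := by gcongr
  have p1 : 0 ≤ T * (D0 ^ 2 * H ^ δ) := by positivity
  have p2 : 0 ≤ T * (R * H ^ (1 + δ)) := by positivity
  have q1 : 0 ≤ M ^ 2 * C2 * (b ^ 2 * b ^ ε) := by positivity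
  have q2 : 0 ≤ q * C1 * C4 ^ 2 * C3 * (b ^ ε) ^ 6 := by positivity
  have r1 := mul_nonneg q1 p2
  have r2 := mul_nonneg q2 p1
  calc _ ≤ _ := add_le_add c1 c2
    _ ≤ M ^ 2 * C2 * (b ^ 2 * b ^ ε) * (T * (D0 ^ 2 * H ^ δ)) +
        q * C1 * C4 ^ 2 * C3 * (b ^ ε) ^ 6 * (T * (R * H ^ (1 + δ))) +
        (M ^ 2 * C2 * (b ^ 2 * b ^ ε) * (T * (R * H ^ (1 + δ))) +
          q * C1 * C4 ^ 2 * C3 * (b ^ ε) ^ 6 * (T * (D0 ^ 2 * H ^ δ))) :=
        le_add_of_nonneg_right (add_nonneg r1 r2)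
    _ = _ := by ring

/-- the long terms -/
theorem longB_of_ss (S : Sext O) {θ β : ℝ} (h0 : 0 ≤ θ) (hβ : 0 ≤ β) (hS : SS S θ β) :
    LongB S θ β := by
  classical
  intro W hW b M hb1 hb hM δ hδ
  have hε0 : 0 < δ / 8 := by positivity
  have hε7 : 8 * (δ / 8) ≤ δ := by linarith
  generalize δ / 8 = ε at hε0 hε7
  obtain ⟨C1, K, hC1, h1⟩ := hS W hW ε hε0
  obtain ⟨C2, hC2, h2⟩ := sum_tau_le O 2 hε0
  obtain ⟨C3, hC3, h3⟩ := sum_tau_div_le O 0 hε0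
  obtain ⟨C4, hC4, h4⟩ := card_D_le O hε0
  have hM0 : 0 ≤ M := (norm_nonneg _).trans (hM 0)
  obtain ⟨Cg, hCg, hgw⟩ := gw_le_om4 O hε0
  refine ⟨M ^ 2 * C2 * (b ^ 2 * b ^ ε) + Cg * nJ O * C1 * C4 ^ 2 * C3 * (b ^ ε) ^ 6, K,
    by positivity, ?_⟩
  intro κ hκ t D0 H Z A hAH hD hH hZ g hg e he
  have hsz := sz_pos t
  have hD0 : 0 < D0 := by linarith
  have hb0 : 0 ≤ b := by linarith
  have hDH : D0 ≤ H := le_H_of hD h0 hH
  have hH1 : 1 ≤ H := hD.trans hDH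
  have hH0 : 0 < H := by linarith
  have hZ0 : 0 < Z := by linarith
  have hL1 : 1 ≤ b * D0 := one_le_mul_of_one_le_of_one_le hb1 hD
  have hT1 : 1 ≤ sz t ^ K := one_le_sz_pow t _
  have sg := (mem_SO.1 hg).2
  have se := sq_of_mem_D sg he
  have pe : (0 : ℝ) < N e := N_pos' se.ne_zero
  have pg' : (0 : ℝ) < N g := N_pos' sg.ne_zero
  have hgw' : ∀ x : O, x ≠ 0 → gw (A / sc e) x ≤ Cg * H ^ ε * om4 (N (x * e) / H) := by
    intro x hx
    have h5 := hgw (A / sc e) x H hx hH1 (by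
      rw [nG_div, nG_sc se.ne_zero, hAH]; exact div_le_self hH0.le (one_le_N se.ne_zero))
    rwa [nG_div, nG_sc se.ne_zero, hAH, div_div_eq_mul_div, ← N_mul'] at h5
  have hLε : (b * D0) ^ ε ≤ b ^ ε * H ^ ε := by
    rw [← Real.mul_rpow hb0 hH0.le]; gcongr
  have hLε0 : 0 ≤ (b * D0) ^ ε := by positivity
  have ha0 : ∀ n, n ∉ SO O (b * D0) → aco κ W D0 t (g * n) * S.chi n e = 0 := fun n hn => by
    rw [aco_eq_zero κ hb hD0 le_rfl t (not_mem_SO_mul sg.prim hn), zero_mul]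
  have haM : ∀ n, ‖aco κ W D0 t (g * n) * S.chi n e‖ ≤ M := by
    intro n
    by_cases hn : n ∈ SO O (b * D0)
    · rw [norm_mul]
      exact (mul_le_mul (norm_aco_le hκ hM0 hM D0 t _) (S.norm_chi_le (mem_SO.1 hn).2.1 _)
        (norm_nonneg _) hM0).trans (mul_one M).le
    · rw [ha0 n hn, norm_zero]; exact hM0
  have s2 : ∀ F : Finset O, (∀ u ∈ F, u ≠ 0) →
      ∀ d ∈ (SO O (b * D0)).filter (fun d => Sq (g * d)),
      ∑ k ∈ (SO O (b * D0)).filter (fun k => Z ≤ N k), ∑ e' ∈ D k, ∑ u ∈ F,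
        S.PP W D0 H t g e d k e' u ≤
      C1 * sz t ^ K * (C4 * ((b * D0) ^ ε) ^ 2) ^ 2 * (b * D0) ^ ε *
        ((N g : ℝ)⁻¹ * (D0 * (D0 / Z) ^ β)) * H ^ (1 + ε) *
        (((D d).card : ℝ) ^ 0 * (N d : ℝ)⁻¹) := by
    intro F hF d hd
    rw [mem_filter] at hd
    have sd := (mem_SO.1 hd.1).2
    have pd : (0 : ℝ) < N d := N_pos' sd.ne_zero
    have pgd : (1 : ℝ) ≤ N (g * d) := one_le_N hd.2.ne_zero
    have b1 := h1 (g * d) e hd.2 se.ne_zero t (D0 / N (g * d)) H (b * D0) Z (by positivity) hH1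
      (div_rpow_le_H hD0 h0 hH pgd) hL1 hZ0 F hF
    have b2 : ((D (g * d)).card : ℝ) ≤ C4 * ((b * D0) ^ ε) ^ 2 := by
      refine (h4 _ hd.2.prim hd.2.2).trans ?_
      rw [N_mul', Real.mul_rpow pg'.le pd.le, sq]
      gcongr
      exacts [(mem_SO.1 hg).1, (mem_SO.1 hd.1).1]
    rw [pow_zero, one_mul]
    exact b1.trans (long_num1 hC1 (by positivity) hLε0 (by positivity) hβ hD0 hZ0
      (one_le_N sg.ne_zero) (one_le_N sd.ne_zero) (Nat.cast_nonneg _) b2 (by rw [N_mul']))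
  have key := norm_tsum_le_split (G := fun u => ∑ k ∈ SO O (b * D0), ∑ e' ∈ D k,
      S.TT (b * D0) (A / sc e) Z (fun m => aco κ W D0 t (g * m) * S.chi m e) k e' u)
    (B := Cg * H ^ ε * nJ O * (C1 * sz t ^ K * (C4 * ((b * D0) ^ ε) ^ 2) ^ 2 * (b * D0) ^ ε *
      ((N g : ℝ)⁻¹ * (D0 * (D0 / Z) ^ β)) * H ^ (1 + ε) * (C3 * (b * D0) ^ ε))) fun F hF => by
    refine (S.sum_norm_TT_le hκ hb hb0 hD0 t Z A hgw' sg F hF).trans
      (mul_le_mul_of_nonneg_left ?_ (by positivity))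
    refine ((sum_le_sum (s2 F hF)).trans
      (sum_le_sum_of_subset_of_nonneg (filter_subset _ _) fun d _ _ => by positivity)).trans ?_
    rw [← mul_sum]
    exact mul_le_mul_of_nonneg_left (h3 _ hL1) (by positivity)
  have hzero := (S.norm_TT_zero (A / sc e) Z (by positivity) haM).trans
    (mul_le_mul_of_nonneg_left (h2 _ hL1) (by positivity))
  rw [S.long_eq Z (A / sc e) ha0 haM]
  rw [mul_right_comm Cg] at key
  exact key.trans ((add_le_add hzero le_rfl).trans (long_num2 hC1 (by positivity) (by positivity)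
    (by positivity) hT1 hb1 hD0 hH1 (by positivity) hLε0 hLε hε0 hε7))

theorem largeB_of_cop (S : Sext O) {θ β : ℝ} (h0 : 0 ≤ θ) (hβ : 0 ≤ β) (hC : COP S θ β) :
    LargeB S θ β := fun _ hW _ _ hb1 hb hM _ hδ => large_le S h0 hβ hC hW hb1 hb hM hδ

end Vale.Agent.P016Z.Ab
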