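import Vale.Agent.P016Z.Ab.Step
import Vale.Agent.P016Z.Ab.Boot
import Vale.Agent.P016Z.Ab.Cop
import Vale.Agent.P016Z.Ab.SS
import Vale.Agent.P016Z.Ab.PB
import Vale.Agent.P016Z.Ab.BB
import Vale.Agent.P016Z.Ab.StepL
import Vale.Agent.P016Z.Ab.StepS

/-!
P016, abstract Poisson block: assembly of the recursion, given the three bounds of the step.
-/

namespace Vale.Agent.P016Z.Ab

variable {O : Type} [CommMonoidWithZero O] [UniqueFactorizationMonoid O] [Ar O] [Sc O]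

theorem MB_of_TB_of (S : Sext O)
    (hL : ∀ θ β : ℝ, 0 ≤ θ → 0 ≤ β → COP S θ β → LargeB S θ β)
    (hG : ∀ θ β : ℝ, 0 ≤ θ → 0 ≤ β → SS S θ β → LongB S θ β)
    (hS : ∀ θ β : ℝ, 0 ≤ θ → θ ≤ 1 → 0 ≤ β → BB S θ β → ShortB S θ β) (hT : TB S) : MB S := by
  refine MB_of_step S fun θ h0 h1 β hb0 hb1 hMB => ?_
  have hC := cop_of_MB S h0.le hb0 hMB
  have hSS := ss_of_cop S h0.le hb0 hb1 hC
  have h2 : θ ≤ 1 := by linarith
  exact step_of S h0 h1 hb0 hb1 (hL θ β h0.le hb0 hC) (hG θ β h0.le hb0 hSS)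
    (hS θ β h0.le h2 hb0 (bb_of_pb S h0.le h2 hb0 hT (pb_of_ss S h0.le h2 hb0 hSS)))

/-- **the Poisson block** -/
theorem MB_of_TB (S : Sext O) (hT : TB S) : MB S :=
  MB_of_TB_of S (fun _ _ h0 hb hC => largeB_of_cop S h0 hb hC)
    (fun _ _ h0 hb hS => longB_of_ss S h0 hb hS) (fun _ _ h0 h1 _ hB => shortB_of_bb S h0 h1 hB) hT

end Vale.Agent.P016Z.Ab
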