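import Vale.Agent.P016Z.Ab.Sep

/-!
P016, abstract Poisson block: the pair identity, removal of a common factor, Poisson summation
backwards.
-/

namespace Vale.Agent.P016Z.Ab

open Finset
open scoped ComplexConjugate

set_option linter.unusedSectionVars false

variable {O : Type} [CommMonoidWithZero O] [UniqueFactorizationMonoid O] [Ar O] [Sc O]

theorem gw_mul (A : Gr O) {d : O} (hd : d ≠ 0) (x : O) : gw A (d * x) = gw (A / sc d) x := by
  refine gw_congr (by simp [hd]) fun _ hx => ?_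
  rw [sc_mul hd hx, div_div_eq_mul_div, mul_comm]

namespace Sext

variable (S : Sext O)

/-- the theta-weighted sum of a pair of characters -/
noncomputable def psum (A : Gr O) (a b : O) : ℂ :=
  ∑' x : O, (conj (S.chi a x) * S.chi b x) * (gw A x : ℂ)

/-- the constant of the pair identity -/
noncomputable def cst (a b : O) : ℂ := S.Esg a b * (mob a * mob b) * (S.g a * conj (S.g b))

/-- the naive dual sum of a pair -/
noncomputable def Fd (A : Gr O) (a b : O) : ℂ :=
  ((nG A / (Real.sqrt (N a) * Real.sqrt (N b)) : ℝ) : ℂ) *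
    (S.cst a b * S.psum (Sc.dl * (sc a * sc b) / A) b a)

theorem norm_pair_le {a b : O} (ha : Prim a) (hb : Prim b) (x : O) :
    ‖conj (S.chi a x) * S.chi b x‖ ≤ 1 := by
  rw [norm_mul, Complex.norm_conj]
  exact mul_le_one₀ (S.norm_chi_le ha x) (norm_nonneg _) (S.norm_chi_le hb x)

theorem summable_psum (A : Gr O) {a b : O} (ha : Prim a) (hb : Prim b) :
    Summable fun x : O => (conj (S.chi a x) * S.chi b x) * (gw A x : ℂ) :=
  summable_gw A (S.norm_pair_le ha hb)

/-- **The pair identity.** -/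
theorem psum_eq_Fd {a b : O} (ha : Sq a) (hb : Sq b) (hab : IsRelPrime a b) (A : Gr O) :
    S.psum A a b = S.Fd A a b := S.pair a b A ha hb hab

open Classical in
theorem tsum_dvd (A : Gr O) {d a b : O} (hd : d ≠ 0) (ha : Prim a) (hb : Prim b) :
    (∑' n : O, (if d ∣ n then mob d else 0) * ((conj (S.chi a n) * S.chi b n) * (gw A n : ℂ))) =
      mob d * (conj (S.chi a d) * S.chi b d) * S.psum (A / sc d) a b := by
  have hinj : Function.Injective fun x : O => d * x := mul_right_injective₀ hd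
  rw [← hinj.tsum_eq (f := fun n => (if d ∣ n then mob d else 0) *
      ((conj (S.chi a n) * S.chi b n) * (gw A n : ℂ)))]
  · rw [psum, ← tsum_mul_left]
    refine tsum_congr fun x => ?_
    rw [if_pos (dvd_mul_right d x), S.chi_mul _ _ _ ha, S.chi_mul _ _ _ hb, map_mul]
    rw [gw_mul A hd]
    ring
  · intro n hn
    rw [Function.mem_support] at hn
    by_contra hne
    apply hn
    rw [if_neg, zero_mul]
    rintro ⟨x, rfl⟩
    exact hne ⟨x, rfl⟩

theorem psum_mul (A : Gr O) {δ a b : O} (hδ : Sq δ) (ha : Prim a) (hb : Prim b) :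
    S.psum A (δ * a) (δ * b) =
      ∑ d ∈ D δ, mob d * (conj (S.chi a d) * S.chi b d) * S.psum (A / sc d) a b := by
  classical
  have h1 : ∀ n : O, (conj (S.chi (δ * a) n) * S.chi (δ * b) n) * (gw A n : ℂ) =
      ∑ d ∈ D δ, (if d ∣ n then mob d else 0) *
        ((conj (S.chi a n) * S.chi b n) * (gw A n : ℂ)) := by
    intro n
    rw [← Finset.sum_mul, ← cop_eq_sum hδ.prim hδ.2, S.chi_mul_left _ _ _ hδ.1 ha,
      S.chi_mul_left _ _ _ hδ.1 hb, map_mul, ← S.conj_mul δ n hδ.1]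
    ring
  rw [psum, tsum_congr h1, Summable.tsum_finsetSum]
  · refine Finset.sum_congr rfl fun d hd => ?_
    rw [mem_D hδ.ne_zero] at hd
    exact S.tsum_dvd A hd.1.ne_zero ha hb
  · intro d _
    have h2 : ∀ n : O, (if d ∣ n then mob d else 0) * ((conj (S.chi a n) * S.chi b n) *
      (gw A n : ℂ)) = ((if d ∣ n then mob d else 0) *
        (conj (S.chi a n) * S.chi b n)) * (gw A n : ℂ) := fun n => by ring
    simp only [h2]
    refine summable_gw A (M := 1) fun n => ?_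
    rw [norm_mul]
    refine mul_le_one₀ ?_ (norm_nonneg _) (S.norm_pair_le ha hb n)
    split_ifs
    · rw [norm_mob]
    · rw [norm_zero]; exact zero_le_one

/-- expansion of the Gaussian-weighted square -/
theorem tsum_sq_eq (A : Gr O) {T : Finset O} (hT : ∀ n ∈ T, Prim n) (c : O → ℂ) :
    ((∑' x : O, ‖∑ n ∈ T, c n * S.chi n x‖ ^ 2 * gw A x : ℝ) : ℂ) =
      ∑ n1 ∈ T, ∑ n2 ∈ T, conj (c n1) * c n2 * S.psum A n1 n2 := by
  rw [Complex.ofReal_tsum]
  have h1 : ∀ x : O, ((‖∑ n ∈ T, c n * S.chi n x‖ ^ 2 * gw A x : ℝ) : ℂ) =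
      ∑ n1 ∈ T, ∑ n2 ∈ T, conj (c n1) * c n2 *
        ((conj (S.chi n1 x) * S.chi n2 x) * (gw A x : ℂ)) := by
    intro x
    rw [Complex.ofReal_mul, Complex.ofReal_pow, ← Complex.conj_mul', map_sum, sum_mul_sum, sum_mul]
    refine sum_congr rfl fun n1 _ => ?_
    rw [sum_mul]
    refine sum_congr rfl fun n2 _ => ?_
    rw [map_mul]; ring
  rw [tsum_congr h1, Summable.tsum_finsetSum]
  · refine sum_congr rfl fun n1 h1 => ?_
    rw [Summable.tsum_finsetSum]
    · refine sum_congr rfl fun n2 h2 => ?_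
      rw [tsum_mul_left, psum]
    · intro n2 h2
      exact (S.summable_psum A (hT n1 h1) (hT n2 h2)).mul_left _
  · intro n1 h1
    exact summable_sum fun n2 h2 => (S.summable_psum A (hT n1 h1) (hT n2 h2)).mul_left _

end Sext

/-- the frequency `u k (k/e)` of the backward Poisson summation -/
noncomputable def vv (k e u : O) : O := u * (k * dv k e)

theorem N_vv {k e : O} (h : e ∣ k) (u : O) :
    (N (vv k e u) : ℝ) * N e = N u * (N k) ^ 2 := by
  have h1 : (N k : ℝ) = N e * N (dv k e) := by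
    conv_lhs => rw [eq_mul_dv h]
    rw [N_mul']
  rw [vv, N_mul', N_mul', sq]
  nth_rewrite 3 [h1]
  ring

theorem dvd_vv (k e u : O) : k ∣ vv k e u := ⟨u * dv k e, by rw [vv, mul_left_comm]⟩

theorem vv_zero (k e : O) : vv k e 0 = 0 := by simp [vv]

theorem dv_ne_zero {k e : O} (hk : k ≠ 0) (h : e ∣ k) : dv k e ≠ 0 := by
  intro h0
  apply hk
  rw [eq_mul_dv h, h0, mul_zero]

theorem vv_ne_zero {k e u : O} (hk : k ≠ 0) (h : e ∣ k) (hu : u ≠ 0) :
    vv k e u ≠ 0 := mul_ne_zero hu (mul_ne_zero hk (dv_ne_zero hk h))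

theorem vv_eq_zero {k e u : O} (hk : k ≠ 0) (h : e ∣ k) : vv k e u = 0 ↔ u = 0 :=
  ⟨fun h1 => by_contra fun h2 => vv_ne_zero hk h h2 h1, fun h1 => by rw [h1, vv_zero]⟩

theorem sc_vv {k e u : O} (hk : k ≠ 0) (h : e ∣ k) (hu : u ≠ 0) :
    sc (vv k e u) = sc u * (sc k * sc k) / sc e := by
  have he : e ≠ 0 := ne_zero_of_dvd_ne_zero hk h
  have h1 : sc k = sc e * sc (dv k e) := by
    conv_lhs => rw [eq_mul_dv h]
    rw [sc_mul he (dv_ne_zero hk h)]
  rw [vv, sc_mul hu (mul_ne_zero hk (dv_ne_zero hk h)), sc_mul hk (dv_ne_zero hk h),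
    eq_div_iff_mul_eq']
  nth_rewrite 3 [h1]
  simp only [mul_comm, mul_left_comm]

namespace Sext

variable (S : Sext O)

theorem chi_back {k e m : O} (hk : Prim k) (hm : Prim m) (hkm : IsRelPrime k m) (he : e ∈ D k) :
    S.chi m (k ^ 4) * S.chi m e = conj (S.chi m (k * dv k e)) := by
  rw [mem_D hk.ne_zero] at he
  have h1 := eq_mul_dv he.2
  set f := dv k e with hf
  have hfm : IsRelPrime f m := hkm.of_dvd_left ⟨e, by rw [mul_comm]; exact h1⟩
  have h2 : S.chi m f ^ 6 = 1 := by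
    rw [← S.chi_pow hm, S.chi_pow_six hm, cop, if_pos hfm]
  rw [S.conj_eq m _ hm, S.chi_pow hm, h1, S.chi_mul _ _ _ hm, S.chi_mul _ _ _ hm,
    S.chi_mul _ _ _ hm]
  linear_combination (-(S.chi m e ^ 5 * S.chi m f ^ 4)) * h2

theorem g_mul_conj {n : O} (hn : Sq n) : S.g n * conj (S.g n) = 1 := by
  rw [Complex.mul_conj, Complex.normSq_eq_norm_sq, S.norm_g n hn]; simp

/-- the class factor of the backward identity -/
noncomputable def Eb (k a b : O) : ℂ := conj (S.E2 k a) * S.E2 k b * S.Esg a b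

theorem cls_E2 (d : O) : Cls (S.E2 d) := ⟨S.E2_per d, S.norm_E2 d⟩

theorem bi_Eb (k : O) : Bi (S.Eb k) := (S.cls_E2 k).bi.mul S.bi

/-- **Poisson summation backwards** for a pair with gcd `k`. -/
theorem back {k m1 m2 : O} (hk : Prim k) (h1 : Sq (k * m1)) (h2 : Sq (k * m2))
    (hc : IsRelPrime m1 m2) (A : Gr O) :
    S.g (k * m1) * conj (S.g (k * m2)) * S.psum A (k * m2) (k * m1) =
      S.Eb k m2 m1 * (mob m1 * mob m2) * ∑ e ∈ D k, mob e *
        (((nG A / N e / (Real.sqrt (N m1) * Real.sqrt (N m2)) : ℝ) : ℂ) *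
          ∑' u : O, (conj (S.chi m1 (vv k e u)) * S.chi m2 (vv k e u)) *
            (gw (Sc.dl * (sc (k * m1) * sc (k * m2)) / A) (vv k e u) : ℂ)) := by
  have sk : Sq k := h1.left hk
  have s1 : Sq m1 := h1.of_mul_left hk
  have s2 : Sq m2 := h2.of_mul_left hk
  rw [S.psum_mul A sk s2.1 s1.1, mul_sum, mul_sum]
  refine sum_congr rfl fun e he => ?_
  have he' := (mem_D hk.ne_zero).1 he
  rw [S.psum_eq_Fd s2 s1 hc.symm, Fd, cst, psum,
    S.g_mul k m1 sk s1 h1.coprime, S.g_mul k m2 sk s2 h2.coprime, nG_div, nG_sc he'.1.ne_zero]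
  have e1 : (∑' u : O, (conj (S.chi m1 (vv k e u)) * S.chi m2 (vv k e u)) *
      (gw (Sc.dl * (sc (k * m1) * sc (k * m2)) / A) (vv k e u) : ℂ)) =
      (conj (S.chi m1 (k * dv k e)) * S.chi m2 (k * dv k e)) *
        ∑' x : O, (conj (S.chi m1 x) * S.chi m2 x) *
          (gw (Sc.dl * (sc m2 * sc m1) / (A / sc e)) x : ℂ) := by
    rw [← tsum_mul_left]
    refine tsum_congr fun u => ?_
    have e2 : gw (Sc.dl * (sc (k * m1) * sc (k * m2)) / A) (vv k e u) =
        gw (Sc.dl * (sc m2 * sc m1) / (A / sc e)) u := by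
      refine gw_congr (vv_eq_zero hk.ne_zero he'.2) fun _ hu => ?_
      rw [sc_vv hk.ne_zero he'.2 hu, sc_mul hk.ne_zero s1.ne_zero, sc_mul hk.ne_zero s2.ne_zero]
      simp only [div_eq_mul_inv, mul_inv, inv_inv]
      simp only [mul_assoc, mul_comm, mul_left_comm, mul_inv_cancel_left]
    rw [e2, vv, S.chi_mul _ u _ s1.1, S.chi_mul _ u _ s2.1, map_mul]
    ring
  rw [e1, ← S.chi_back hk s1.1 h1.coprime he]
  have e5 : S.chi m2 (k * dv k e) = conj (S.chi m2 (k ^ 4)) * conj (S.chi m2 e) := by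
    rw [← map_mul, S.chi_back hk s2.1 h2.coprime he, Complex.conj_conj]
  rw [e5, mul_comm (Real.sqrt (N m2)) (Real.sqrt (N m1))]
  have g0 := S.g_mul_conj sk
  have g1 := S.g_mul_conj s1
  have g2 := S.g_mul_conj s2
  simp only [map_mul]
  set P := ∑' x : O, (conj (S.chi m1 x) * S.chi m2 x) *
    (gw (Sc.dl * (sc m2 * sc m1) / (A / sc e)) x : ℂ)
  set R : ℂ := ((nG A / N e / (Real.sqrt (N m1) * Real.sqrt (N m2)) : ℝ) : ℂ)
  set Q : ℂ := S.Eb k m2 m1 * (mob m1 * mob m2) * (mob e * (R * (S.chi m1 (k ^ 4) * S.chi m1 e *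
    (conj (S.chi m2 (k ^ 4)) * conj (S.chi m2 e)) * P))) with hQ
  calc _ = (S.g k * conj (S.g k)) * (S.g m1 * conj (S.g m1)) * (S.g m2 * conj (S.g m2)) * Q := by
        rw [hQ, Eb]; ring
    _ = Q := by rw [g0, g1, g2]; ring

end Sext

end Vale.Agent.P016Z.Ab
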