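import Vale.Agent.P016Z.Ab.Ctx
import Mathlib.Algebra.Order.Positive.Field
import Mathlib.MeasureTheory.Measure.Lebesgue.Basic
import Mathlib.Analysis.SpecialFunctions.JapaneseBracket
import Mathlib.Analysis.SpecialFunctions.Pow.Continuity

/-!
P016: radial weights. The class `Rad` (a weight depending only on the norm), the instance of the
scale class given by it, and the statements of the quadratic large sieve.
-/

namespace Vale.Agent.P016Z.Ab

open MeasureTheory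
open scoped ComplexConjugate

/-- a radial weight with a Mellin representation on every line `Re = σ > 0` -/
class Rad (M : Type) where
  Th : ℝ → ℝ
  Th_nonneg : ∀ x : ℝ, 0 < x → 0 ≤ Th x
  Th_lower : ∃ c0 c1 : ℝ, 0 < c0 ∧ 0 < c1 ∧ ∀ x : ℝ, 0 < x → x ≤ c0 → c1 ≤ Th x
  mellin : ∀ σ : ℝ, 0 < σ → ∃ ρ : ℝ → ℂ, Continuous ρ ∧
    (∀ K : ℕ, ∃ C : ℝ, ∀ t : ℝ, ‖ρ t‖ * (1 + |t|) ^ K ≤ C) ∧
    ∀ x : ℝ, 0 < x → (Th x : ℂ) = ∫ t : ℝ, ρ t * (x : ℂ) ^ (-((σ : ℂ) + t * Complex.I))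

variable {M : Type} [CommMonoidWithZero M] [Ar M]

/-- positive real numbers -/
abbrev Pos : Type := {x : ℝ // 0 < x}

open Classical in
/-- the norm as a positive real number -/
noncomputable def scR (a : M) : Pos :=
  if h : a = 0 then 1 else ⟨N a, by exact_mod_cast Ar.N_pos a h⟩

theorem scR_val {a : M} (h : a ≠ 0) : (scR a : ℝ) = N a := by rw [scR, dif_neg h]

theorem integrable_of_rapid {ρ : ℝ → ℂ} (hc : Continuous ρ)
    (h : ∀ K : ℕ, ∃ C : ℝ, ∀ t : ℝ, ‖ρ t‖ * (1 + |t|) ^ K ≤ C) (K : ℕ) :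
    Integrable (fun t : ℝ => ‖ρ t‖ * (1 + |t|) ^ K) := by
  obtain ⟨C, hC⟩ := h (K + 2)
  have h1 : Integrable (fun t : ℝ => (1 + ‖t‖) ^ (-(2 : ℝ))) :=
    integrable_one_add_norm (by simp)
  refine (h1.const_mul C).mono' (by fun_prop) (ae_of_all _ fun t => ?_)
  have h0 : 0 < 1 + |t| := by positivity
  rw [Real.norm_of_nonneg (by positivity), Real.norm_eq_abs, Real.rpow_neg h0.le, Real.rpow_two,
    ← div_eq_mul_inv, le_div_iff₀ (by positivity), mul_assoc, ← pow_add]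
  exact hC t

/-- the scale class of a radial weight -/
noncomputable instance Rad.toSc [Rad M] : Sc M where
  G := Pos
  T := ℝ
  grp := inferInstance
  agr := inferInstance
  msp := inferInstance
  mu := volume
  sc := scR
  nG := fun x => x
  Th := fun x => Rad.Th M x
  dl := 1
  ch := fun t x => ((x : ℝ) : ℂ) ^ ((t : ℂ) * Complex.I)
  sz := fun t => 1 + |t|
  em := fun t => t
  sc_mul := fun a b ha hb => Subtype.ext (by
    have hab : a * b ≠ 0 := by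
      intro h
      have h1 := Ar.N_mul a b
      rw [h, Ar.N_zero] at h1
      exact (Nat.mul_pos (Ar.N_pos a ha) (Ar.N_pos b hb)).ne h1
    rw [Positive.val_mul, scR_val ha, scR_val hb, scR_val hab]
    exact_mod_cast Ar.N_mul a b)
  nG_mul := fun _ _ => rfl
  nG_pos := fun x => x.2
  nG_sc := fun _ h => scR_val h
  nG_surj := fun x hx => ⟨⟨x, hx⟩, rfl⟩
  nG_dl := rfl
  Th_nonneg := fun x => Rad.Th_nonneg _ x.2
  Th_lower := by
    obtain ⟨c0, c1, h0, h1, h⟩ := Rad.Th_lower (M := M)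
    exact ⟨c0, c1, h0, h1, fun x hx => h x x.2 hx⟩
  ch_mul := fun t x y => by
    rw [Positive.val_mul, Complex.ofReal_mul, Complex.mul_cpow_ofReal_nonneg x.2.le y.2.le]
  ch_add := fun t t' x => by
    rw [← Complex.cpow_add _ _ (by exact_mod_cast x.2.ne')]
    congr 1; push_cast; ring
  norm_ch := fun t x => by
    rw [Complex.norm_cpow_eq_rpow_re_of_pos x.2]; simp
  ch_meas := fun x => (Continuous.const_cpow (by fun_prop)
    (Or.inl (by exact_mod_cast x.2.ne'))).measurable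
  ch_em := fun _ _ => rfl
  one_le_sz := fun t => by linarith [abs_nonneg t]
  sz_add := fun t t' => by
    nlinarith [abs_add_le t t', abs_nonneg t, abs_nonneg t', mul_nonneg (abs_nonneg t) (abs_nonneg t')]
  sz_neg := fun t => by rw [abs_neg]
  sz_em := fun _ => le_rfl
  mellin := fun σ hσ => by
    obtain ⟨ρ, hc, hb, h⟩ := Rad.mellin (M := M) σ hσ
    refine ⟨ρ, hc.aestronglyMeasurable, integrable_of_rapid hc hb, fun x => ?_⟩
    rw [h x x.2]
    refine integral_congr_ae (ae_of_all _ fun t => ?_)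
    have hx : ((x : ℝ) : ℂ) ≠ 0 := by exact_mod_cast x.2.ne'
    have h1 : conj (((x : ℝ) : ℂ) ^ ((t : ℂ) * Complex.I)) =
        ((x : ℝ) : ℂ) ^ (-((t : ℂ) * Complex.I)) := by
      have h2 := Complex.conj_cpow ((x : ℝ) : ℂ) (conj ((t : ℂ) * Complex.I))
        (by rw [Complex.arg_ofReal_of_nonneg x.2.le]; exact Real.pi_pos.ne)
      rw [Complex.conj_conj, Complex.conj_ofReal] at h2
      rw [← h2]; congr 1; simp
    simp only
    rw [h1, Complex.ofReal_cpow x.2.le, ← Complex.cpow_add _ _ hx]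
    congr 2; push_cast; ring

variable [Rad M]

open Classical in
/-- the radial weight of a frequency at scale `A` -/
noncomputable def gr (A : ℝ) (x : M) : ℝ := if x = 0 then 1 else Rad.Th M (N x / A)

theorem gw_eq_gr (A : Gr M) (x : M) : gw A x = gr (nG A) x := by
  unfold gw gr
  split_ifs with h
  · rfl
  · change Rad.Th M ((scR x / (show Pos from A) : Pos) : ℝ) = _
    rw [div_eq_mul_inv, Positive.val_mul, Positive.coe_inv, scR_val h, ← div_eq_mul_inv]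
    rfl

theorem ps_rad (t : Tw M) {n : M} (hn : n ≠ 0) :
    ps t n = (N n : ℂ) ^ (((show ℝ from t) : ℂ) * Complex.I) := by
  change (((scR n : Pos) : ℝ) : ℂ) ^ (((show ℝ from t) : ℂ) * Complex.I) = _
  rw [scR_val hn]; simp

theorem sz_rad (t : Tw M) : sz t = 1 + |(show ℝ from t)| := rfl

/-- The properties of the quadratic symbol `ρ n x = (x/n)_2` used for the large sieve. -/
structure QSym (ρ : M → M → ℂ) : Prop where
  mul_right : ∀ n x y : M, Sq n → ρ n (x * y) = ρ n x * ρ n y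
  mul_left : ∀ a b x : M, Sq a → Sq b → IsRelPrime a b → ρ (a * b) x = ρ a x * ρ b x
  sq : ∀ n x : M, Sq n → ρ n x * ρ n x = cop n x
  pois : ∀ (a b : M) (A : ℝ), Sq a → Sq b → IsRelPrime a b → cm a = cm b → 0 < A →
    ∑' x : M, ρ (a * b) x * (gr A x : ℂ) =
      ((A / Real.sqrt (N (a * b)) : ℝ) : ℂ) * ∑' x : M, ρ (a * b) x * (gr (N (a * b) / A) x : ℂ)
  recip : ∃ ε : M → M → ℂ, (∀ a b, ‖ε a b‖ ≤ 1) ∧ (∀ a, Per (ε a)) ∧ (∀ b, Per fun a => ε a b) ∧
    ∀ a b, Sq a → Sq b → ρ a b = ε a b * ρ b a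
  cm_cancel : ∀ d a b : M, d ≠ 0 → a ≠ 0 → b ≠ 0 → cm (d * a) = cm (d * b) → cm a = cm b

/-- The quadratic large sieve, outer sum over the moduli (the form used after Voronoi). -/
def QLSmod (ρ : M → M → ℂ) : Prop :=
  ∀ ε : ℝ, 0 < ε → ∃ C : ℝ, 0 < C ∧ ∀ (X Y : ℝ) (T S : Finset M) (c : M → ℂ), 1 ≤ X → 1 ≤ Y →
    (∀ n ∈ T, Sq n ∧ (N n : ℝ) ≤ Y) → (∀ v ∈ S, Squarefree v ∧ (N v : ℝ) ≤ X) →
    ∑ n ∈ T, ‖∑ v ∈ S, c v * ρ n v‖ ^ 2 ≤ C * (X * Y) ^ ε * (X + Y) * ∑ v ∈ S, ‖c v‖ ^ 2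

variable (M)

open Classical in
/-- `∑_{u ≠ 0} Th (s N(u)²)` -/
noncomputable def thq (s : ℝ) : ℝ :=
  ∑' u : M, if u = 0 then 0 else Rad.Th M (s * (N u : ℝ) ^ 2)

/-- `F(x) = ∫ ρ(t) x^(-σ + 2π i t) dt` with `ρ` continuous and `≪ 1/(1+t²)` -/
def MelRep (F : ℝ → ℝ) (σ : ℝ) : Prop :=
  ∃ (ρ : ℝ → ℂ) (C : ℝ), 0 < C ∧ Continuous ρ ∧ (∀ t, ‖ρ t‖ ≤ C * (1 + t ^ 2)⁻¹) ∧
    ∀ x : ℝ, 0 < x → (F x : ℂ) =
      ∫ t : ℝ, ρ t * (x : ℂ) ^ (-(σ : ℂ) + 2 * Real.pi * t * Complex.I)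

/-- The two Mellin representations of `thq` (to the right and to the left of the pole). -/
def ThMellin : Prop :=
  (∀ σ : ℝ, 1 / 2 < σ → MelRep (thq M) σ) ∧
    ∃ c₀ : ℝ, ∀ σ : ℝ, 0 < σ → σ < 1 / 2 → MelRep (fun s => thq M s - c₀ / Real.sqrt s) σ

/-- Poisson summation for the constant function -/
def Pois1 : Prop := ∀ A : ℝ, 0 < A → ∑' x : M, gr A x = A * ∑' x : M, gr A⁻¹ x

end Vale.Agent.P016Z.Ab
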