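import Vale.Agent.P016Z.Ab.Iface

/-!
P016, abstract Poisson block: comparison of sharp sums and theta-weighted sums.
-/

namespace Vale.Agent.P016Z.Ab

open Finset
open scoped ComplexConjugate

set_option linter.unusedSectionVars false

variable {O : Type} [CommMonoidWithZero O] [UniqueFactorizationMonoid O] [Ar O] [Sc O]

variable (O) in
/-- a sharp sum is bounded by a theta-weighted sum at a comparable scale -/
theorem exists_scale : ∃ c C : ℝ, 1 ≤ c ∧ 0 < C ∧ ∀ Y : ℝ, 0 < Y → ∃ A : Gr O, nG A = c * Y ∧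
    ∀ (f : O → ℝ) (M : ℝ), (∀ h, 0 ≤ f h) → (∀ h, f h ≤ M) →
      ∑ u ∈ Hn O Y, f u ≤ C * ∑' u : O, f u * gw A u := by
  obtain ⟨c0, c1, h0, h1, h⟩ := Sc.Th_lower (M := O)
  refine ⟨max 1 c0⁻¹, c1⁻¹, le_max_left _ _, by positivity, fun Y hY => ?_⟩
  obtain ⟨A, hA⟩ := Sc.nG_surj (M := O) (max 1 c0⁻¹ * Y) (by positivity)
  refine ⟨A, hA, fun f M hf hM => ?_⟩
  have hs : Summable fun u : O => f u * gw A u :=
    summable_gw_real A (M := M) fun x => by rw [abs_of_nonneg (hf x)]; exact hM x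
  calc ∑ u ∈ Hn O Y, f u ≤ ∑ u ∈ Hn O Y, c1⁻¹ * (f u * gw A u) := by
        refine sum_le_sum fun u hu => ?_
        rw [mem_Hn] at hu
        have h2 : c1 ≤ gw A u := by
          rw [gw_of_ne A hu.2]
          refine h _ ?_
          change nG (sc u / A) ≤ c0
          rw [nG_div, nG_sc hu.2, div_le_iff₀ (nG_pos A)]
          change (N u : ℝ) ≤ c0 * Sc.nG A
          rw [hA]
          have h3 : c0 * (c0⁻¹ * Y) ≤ c0 * (max 1 c0⁻¹ * Y) := by
            gcongr
            exact le_max_right _ _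
          rw [← mul_assoc, mul_inv_cancel₀ h0.ne', one_mul] at h3
          exact hu.1.trans h3
        have h4 : 1 ≤ c1⁻¹ * gw A u := by
          rw [← div_eq_inv_mul, one_le_div h1]; exact h2
        rw [mul_left_comm]
        exact le_mul_of_one_le_right (hf u) h4
    _ = c1⁻¹ * ∑ u ∈ Hn O Y, f u * gw A u := by rw [mul_sum]
    _ ≤ _ := by
        gcongr
        exact hs.sum_le_tsum _ fun u _ => mul_nonneg (hf u) (gw_nonneg _ _)

variable (O) in
/-- a theta-weighted sum from bounds on balls -/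
theorem tsum_gw_le {ε : ℝ} (hε : 0 < ε) : ∃ C : ℝ, 0 ≤ C ∧ ∀ (f : O → ℝ) (A : Gr O) (G Yb : ℝ),
    (∀ h, 0 ≤ f h) → 1 ≤ Yb → nG A ≤ Yb →
    (∀ y, nG A ≤ y → ∑ h ∈ Hn O y, f h ≤ G * (y / nG A) ^ 3) →
    ∑' u : O, f u * gw A u ≤ f 0 + C * Yb ^ ε * G := by
  obtain ⟨C, hC, h⟩ := gw_le_om4 O hε
  refine ⟨17 * C, by positivity, fun f A G Yb hf hYb hA hG => ?_⟩
  have h1 := norm_tsum_le_split (G := fun u => ((f u * gw A u : ℝ) : ℂ))
    (B := 17 * C * Yb ^ ε * G) fun F hF => by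
      have h2 := om4_sum_le hf (nG_pos A) hG F hF
      calc ∑ u ∈ F, ‖((f u * gw A u : ℝ) : ℂ)‖
          ≤ ∑ u ∈ F, C * Yb ^ ε * (om4 (N u / nG A) * f u) := by
            refine sum_le_sum fun u hu => ?_
            rw [Complex.norm_real, Real.norm_of_nonneg (mul_nonneg (hf u) (gw_nonneg _ _))]
            calc f u * gw A u ≤ f u * (C * Yb ^ ε * om4 (N u / nG A)) :=
                  mul_le_mul_of_nonneg_left (h A u Yb (hF u hu) hYb hA) (hf u)
              _ = _ := by ring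
        _ ≤ C * Yb ^ ε * (17 * G) := by
            rw [← mul_sum]
            exact mul_le_mul_of_nonneg_left h2 (by positivity)
        _ = _ := by ring
  rw [← Complex.ofReal_tsum, Complex.norm_real, Complex.norm_real, gw_zero, mul_one,
    Real.norm_of_nonneg (hf 0)] at h1
  exact (le_abs_self _).trans h1

theorem gw_vv (B : Gr O) {k e : O} (hk : k ≠ 0) (h : e ∣ k) (u : O) :
    gw B (vv k e u) = gw (B / sc (k * dv k e)) u := by
  rw [vv, mul_comm, gw_mul B (mul_ne_zero hk (dv_ne_zero hk h))]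

theorem summable_gw_vv (B : Gr O) {k e : O} (hk : k ≠ 0) (h : e ∣ k) {ψ : O → ℂ} {M : ℝ}
    (hψ : ∀ x, ‖ψ x‖ ≤ M) : Summable fun u : O => ψ u * (gw B (vv k e u) : ℂ) := by
  simp only [gw_vv B hk h]
  exact summable_gw _ hψ

end Vale.Agent.P016Z.Ab
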