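import Vale.Agent.P016Z.Ab.Wt
import Mathlib.Algebra.QuadraticDiscriminant

/-!
P016, abstract context: splitting into classes, separation of variables, uniformisation of
lengths, dyadic tails.
-/

namespace Vale.Agent.P016Z.Ab

open Finset MeasureTheory Complex
open scoped ComplexConjugate

set_option linter.unusedSectionVars false

variable {O : Type} [CommMonoidWithZero O] [Ar O]

/-! ### classes -/

theorem Per.mul {h h' : O → ℂ} (hh : Per h) (hh' : Per h') : Per (fun x => h x * h' x) :=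
  fun x y hxy => by simp only [hh x y hxy, hh' x y hxy]

theorem Per.comp_mul {h : O → ℂ} (hh : Per h) (u : O) : Per (fun x => h (u * x)) :=
  fun x y hxy => hh _ _ (Ar.cm_mul u x y hxy)

theorem Per.conj {h : O → ℂ} (hh : Per h) : Per (fun x => conj (h x)) :=
  fun x y hxy => by simp only [hh x y hxy]

/-- a representative of a class -/
noncomputable def rep (j : J O) : O := @Function.invFun O (J O) ⟨0⟩ cm j

theorem cm_rep (x : O) : cm (rep (cm x) : O) = cm x :=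
  @Function.invFun_eq O (J O) ⟨0⟩ cm _ ⟨x, rfl⟩

theorem Per.out {h : O → ℂ} (hh : Per h) (x : O) : h (rep (cm x)) = h x := hh _ _ (cm_rep x)

variable (O) in
/-- the number of classes -/
noncomputable abbrev nJ : ℝ := Fintype.card (J O)

theorem nJ_nonneg : 0 ≤ nJ O := Nat.cast_nonneg _

open Classical in
/-- indicator of a class -/
noncomputable def ind (j : J O) (n : O) : ℂ := if cm n = j then 1 else 0

theorem cls_ind (j : J O) : Cls (ind j) := by
  refine ⟨fun x y h => ?_, fun x => ?_⟩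
  · rw [ind, ind, h]
  · rw [ind]; split_ifs <;> simp

theorem Cls.const_mul {κ : O → ℂ} (h : Cls κ) {c : ℂ} (hc : ‖c‖ ≤ 1) : Cls fun n => c * κ n :=
  ⟨fun x y hxy => by simp only [h.1 x y hxy], fun x => by
    rw [norm_mul]; exact mul_le_one₀ hc (norm_nonneg _) (h.2 x)⟩

theorem Cls.mul {κ κ' : O → ℂ} (h : Cls κ) (h' : Cls κ') : Cls fun n => κ n * κ' n :=
  ⟨h.1.mul h'.1, fun x => by rw [norm_mul]; exact mul_le_one₀ (h.2 x) (norm_nonneg _) (h'.2 x)⟩

theorem Cls.conj' {κ : O → ℂ} (h : Cls κ) : Cls fun n => conj (κ n) :=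
  ⟨h.1.conj, fun x => by rw [Complex.norm_conj]; exact h.2 x⟩

theorem conj_ind (j : J O) (n : O) : conj (ind j n) = ind j n := by
  rw [ind]; split_ifs <;> simp

theorem Cls.comp_mul {κ : O → ℂ} (h : Cls κ) (c : O) : Cls fun n => κ (c * n) :=
  ⟨h.1.comp_mul c, fun _ => h.2 _⟩

/-- the sum of the squares of the class sums -/
noncomputable def cl (T : Finset O) (x : O → ℂ) : ℝ :=
  ∑ j : J O, ‖∑ n ∈ T, ind j n * x n‖ ^ 2

theorem cl_nonneg (T : Finset O) (x : O → ℂ) : 0 ≤ cl T x :=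
  sum_nonneg fun _ _ => by positivity

theorem cl_congr {T : Finset O} {x y : O → ℂ} (h : ∀ n ∈ T, x n = y n) :
    cl T x = cl T y := by
  unfold cl
  refine sum_congr rfl fun j _ => ?_
  rw [sum_congr rfl fun n hn => by rw [h n hn]]

theorem cl_const_mul (T : Finset O) (c : ℂ) (x : O → ℂ) :
    cl T (fun n => c * x n) = ‖c‖ ^ 2 * cl T x := by
  unfold cl
  rw [mul_sum]
  refine sum_congr rfl fun j _ => ?_
  rw [← mul_pow, ← norm_mul, mul_sum]
  congr 2
  exact sum_congr rfl fun n _ => by ring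

theorem cl_const_mul_le (T : Finset O) {c : ℂ} (hc : ‖c‖ ≤ 1) (x : O → ℂ) :
    cl T (fun n => c * x n) ≤ cl T x := by
  rw [cl_const_mul]
  exact mul_le_of_le_one_left (cl_nonneg _ _) (pow_le_one₀ (norm_nonneg _) hc)

theorem cl_conj (T : Finset O) (x : O → ℂ) :
    cl T (fun n => conj (x n)) = cl T x := by
  unfold cl
  refine sum_congr rfl fun j _ => ?_
  rw [← Complex.norm_conj (∑ n ∈ T, ind j n * x n), map_sum]
  congr 2
  exact sum_congr rfl fun n _ => by rw [map_mul, conj_ind]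

/-- periodic in both variables and bounded by `1` -/
def Bi (E : O → O → ℂ) : Prop :=
  (∀ b, Per fun a => E a b) ∧ (∀ a, Per (E a)) ∧ ∀ a b, ‖E a b‖ ≤ 1

theorem Bi.mul {E F : O → O → ℂ} (hE : Bi E) (hF : Bi F) :
    Bi fun a b => E a b * F a b :=
  ⟨fun b => (hE.1 b).mul (hF.1 b), fun a => (hE.2.1 a).mul (hF.2.1 a), fun a b => by
    rw [norm_mul]; exact mul_le_one₀ (hE.2.2 a b) (norm_nonneg _) (hF.2.2 a b)⟩

theorem Bi.comp_mul {E : O → O → ℂ} (hE : Bi E) (c d : O) :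
    Bi fun a b => E (c * a) (d * b) :=
  ⟨fun b => (hE.1 (d * b)).comp_mul c, fun a => (hE.2.1 (c * a)).comp_mul d, fun _ _ => hE.2.2 _ _⟩

theorem Bi.swap {E : O → O → ℂ} (hE : Bi E) : Bi fun a b => E b a :=
  ⟨fun b => hE.2.1 b, fun a => hE.1 a, fun _ _ => hE.2.2 _ _⟩

theorem Cls.bi {κ : O → ℂ} (h : Cls κ) : Bi fun a b => conj (κ a) * κ b :=
  ⟨fun b => h.1.conj.mul (fun _ _ _ => rfl), fun a => Per.mul (fun _ _ _ => rfl) h.1,
    fun a b => by
      rw [norm_mul, Complex.norm_conj]; exact mul_le_one₀ (h.2 a) (norm_nonneg _) (h.2 b)⟩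

theorem Cls.bi' {κ : O → ℂ} (h : Cls κ) : Bi fun a b => κ a * conj (κ b) := by
  have := h.bi.swap
  simpa only [mul_comm] using this

theorem Sext.bi [UniqueFactorizationMonoid O] [Sc O] (S : Sext O) : Bi S.Esg :=
  ⟨S.Esg_per_left, S.Esg_per_right, S.norm_Esg⟩

theorem bil_le {E : O → O → ℂ} (hE : Bi E) (T : Finset O) (x y : O → ℂ) :
    ‖∑ n1 ∈ T, ∑ n2 ∈ T, E n1 n2 * (conj (x n1) * y n2)‖ ≤
      nJ O * ((cl T x + cl T y) / 2) := by
  classical
  set X : J O → ℂ := fun i => ∑ n ∈ T, ind i n * x n with hX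
  set Y : J O → ℂ := fun i => ∑ n ∈ T, ind i n * y n with hY
  have h1 : ∀ n1 n2, E n1 n2 = ∑ i : J O, ∑ j : J O,
      E (rep i) (rep j) * (ind i n1 * ind j n2) := by
    intro n1 n2
    rw [sum_eq_single (cm n1), sum_eq_single (cm n2)]
    · simp only [ind, if_true, mul_one]
      rw [(hE.2.1 _).out n2]
      exact ((hE.1 n2).out n1).symm
    · intro j _ hj
      simp [ind, hj.symm]
    · simp
    · intro i _ hi
      exact sum_eq_zero fun j _ => by simp [ind, hi.symm]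
    · simp
  have h2 : ∑ n1 ∈ T, ∑ n2 ∈ T, E n1 n2 * (conj (x n1) * y n2) =
      ∑ i : J O, ∑ j : J O, E (rep i) (rep j) * (conj (X i) * Y j) := by
    have h3 : ∀ i j : J O, E (rep i) (rep j) * (conj (X i) * Y j) =
        ∑ n1 ∈ T, ∑ n2 ∈ T, E (rep i) (rep j) * (ind i n1 * ind j n2) *
          (conj (x n1) * y n2) := by
      intro i j
      simp only [hX, hY]
      rw [map_sum, sum_mul_sum, mul_sum]
      refine sum_congr rfl fun n1 _ => ?_
      rw [mul_sum]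
      refine sum_congr rfl fun n2 _ => ?_
      rw [map_mul, conj_ind]; ring
    simp only [h3]
    calc ∑ n1 ∈ T, ∑ n2 ∈ T, E n1 n2 * (conj (x n1) * y n2)
        = ∑ n1 ∈ T, ∑ n2 ∈ T, ∑ i : J O, ∑ j : J O,
          E (rep i) (rep j) * (ind i n1 * ind j n2) *
            (conj (x n1) * y n2) := by
          refine sum_congr rfl fun n1 _ => sum_congr rfl fun n2 _ => ?_
          rw [h1 n1 n2, sum_mul]
          exact sum_congr rfl fun i _ => by rw [sum_mul]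
      _ = ∑ n1 ∈ T, ∑ i : J O, ∑ n2 ∈ T, ∑ j : J O,
          E (rep i) (rep j) * (ind i n1 * ind j n2) *
            (conj (x n1) * y n2) := sum_congr rfl fun n1 _ => sum_comm
      _ = ∑ i : J O, ∑ n1 ∈ T, ∑ n2 ∈ T, ∑ j : J O,
          E (rep i) (rep j) * (ind i n1 * ind j n2) *
            (conj (x n1) * y n2) := sum_comm
      _ = ∑ i : J O, ∑ n1 ∈ T, ∑ j : J O, ∑ n2 ∈ T,
          E (rep i) (rep j) * (ind i n1 * ind j n2) *
            (conj (x n1) * y n2) :=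
          sum_congr rfl fun i _ => sum_congr rfl fun n1 _ => sum_comm
      _ = _ := sum_congr rfl fun i _ => sum_comm
  rw [h2]
  calc ‖∑ i : J O, ∑ j : J O, E (rep i) (rep j) * (conj (X i) * Y j)‖
      ≤ ∑ i : J O, ∑ j : J O, (‖X i‖ ^ 2 + ‖Y j‖ ^ 2) / 2 := by
        refine (norm_sum_le _ _).trans (sum_le_sum fun i _ => ?_)
        refine (norm_sum_le _ _).trans (sum_le_sum fun j _ => ?_)
        rw [norm_mul, norm_mul, Complex.norm_conj]
        have := hE.2.2 (rep i) (rep j)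
        have h4 : 0 ≤ ‖X i‖ * ‖Y j‖ := by positivity
        nlinarith [sq_nonneg (‖X i‖ - ‖Y j‖)]
    _ = nJ O * ((cl T x + cl T y) / 2) := by
        simp only [add_div, sum_add_distrib, sum_const, card_univ, nJ, nsmul_eq_mul,
          ← mul_sum, ← sum_div, cl, hX, hY]
        ring

theorem bil_le' {E : O → O → ℂ} (hE : Bi E) (T : Finset O) (x : O → ℂ) :
    ‖∑ n1 ∈ T, ∑ n2 ∈ T, E n1 n2 * (conj (x n1) * x n2)‖ ≤ nJ O * cl T x := by
  have := bil_le hE T x x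
  linarith

theorem lin_le {κ : O → ℂ} (h : Cls κ) (T : Finset O) (x : O → ℂ) :
    ‖∑ n ∈ T, κ n * x n‖ ^ 2 ≤ nJ O * cl T x := by
  refine le_trans (le_of_eq ?_) (bil_le' h.bi T x)
  have : ∑ n1 ∈ T, ∑ n2 ∈ T, conj (κ n1) * κ n2 * (conj (x n1) * x n2) =
      conj (∑ n ∈ T, κ n * x n) * ∑ n ∈ T, κ n * x n := by
    rw [map_sum, sum_mul_sum]
    exact sum_congr rfl fun n1 _ => sum_congr rfl fun n2 _ => by rw [map_mul]; ring
  rw [this, norm_mul, Complex.norm_conj, sq]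

/-! ### dyadic tails -/

/-- the polynomial weight -/
noncomputable def om4 (x : ℝ) : ℝ := ((1 + x) ^ 4)⁻¹

theorem om4_nonneg (x : ℝ) : 0 ≤ om4 x := by unfold om4; positivity

theorem om4_anti {x y : ℝ} (hx : 0 ≤ x) (h : x ≤ y) : om4 y ≤ om4 x := by
  unfold om4; gcongr

theorem om4_le_one {x : ℝ} (hx : 0 ≤ x) : om4 x ≤ 1 := by
  unfold om4
  exact inv_le_one_of_one_le₀ (one_le_pow₀ (by linarith))

theorem one_le_om4 {x : ℝ} (hx : 0 ≤ x) (h : x ≤ 1) : 1 ≤ 16 * om4 x := by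
  unfold om4
  rw [← div_eq_mul_inv, one_le_div (by positivity)]
  calc (1 + x) ^ 4 ≤ 2 ^ 4 := by gcongr; linarith
    _ = 16 := by norm_num

theorem inv_le_om4 {x : ℝ} (h : 1 ≤ x) : (x ^ 4)⁻¹ ≤ 16 * om4 x := by
  unfold om4
  rw [← div_eq_mul_inv, inv_eq_one_div, div_le_div_iff₀ (by positivity) (by positivity)]
  calc 1 * (1 + x) ^ 4 ≤ 1 * (2 * x) ^ 4 := by gcongr; linarith
    _ = 16 * x ^ 4 := by ring

theorem om4_sum_le {f : O → ℝ} (hf : ∀ h, 0 ≤ f h) {Y G : ℝ} (hY : 0 < Y)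
    (hG : ∀ y, Y ≤ y → ∑ h ∈ Hn O y, f h ≤ G * (y / Y) ^ 3) (F : Finset O) (hF : ∀ h ∈ F, h ≠ 0) :
    ∑ h ∈ F, om4 (N h / Y) * f h ≤ 17 * G := by
  classical
  have hG0 : 0 ≤ G := by
    have h1 := hG Y le_rfl
    rw [div_self hY.ne', one_pow, mul_one] at h1
    exact (sum_nonneg fun h _ => hf h).trans h1
  have key : ∀ J : ℕ, ∑ h ∈ Hn O (2 ^ J * Y), om4 (N h / Y) * f h ≤ (17 - 16 / 2 ^ J) * G := by
    intro J
    induction J with
    | zero =>
      have h1 := hG Y le_rfl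
      rw [div_self hY.ne', one_pow, mul_one] at h1
      rw [pow_zero, one_mul]
      calc ∑ h ∈ Hn O Y, om4 (N h / Y) * f h ≤ ∑ h ∈ Hn O Y, f h :=
            sum_le_sum fun h _ => mul_le_of_le_one_left (hf h) (om4_le_one (by positivity))
        _ ≤ _ := by linarith
    | succ J ih =>
      have hJY : (0 : ℝ) < 2 ^ J * Y := by positivity
      have hsub : Hn O (2 ^ J * Y) ⊆ Hn O (2 ^ (J + 1) * Y) := Hn_mono (by rw [pow_succ]; linarith)
      rw [← sum_sdiff hsub]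
      have h2 : ∑ h ∈ Hn O (2 ^ (J + 1) * Y) \ Hn O (2 ^ J * Y), om4 (N h / Y) * f h ≤
          8 / 2 ^ J * G := by
        have h3 := hG (2 ^ (J + 1) * Y) (le_mul_of_one_le_left hY.le (one_le_pow₀ (by norm_num)))
        rw [mul_div_assoc, div_self hY.ne', mul_one] at h3
        calc ∑ h ∈ Hn O (2 ^ (J + 1) * Y) \ Hn O (2 ^ J * Y), om4 (N h / Y) * f h
            ≤ ∑ h ∈ Hn O (2 ^ (J + 1) * Y) \ Hn O (2 ^ J * Y), (((2 : ℝ) ^ J) ^ 4)⁻¹ * f h := by
              refine sum_le_sum fun h hh => ?_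
              rw [mem_sdiff, mem_Hn, mem_Hn] at hh
              have h4 : 2 ^ J * Y < N h := by
                by_contra h5
                exact hh.2 ⟨not_lt.1 h5, hh.1.2⟩
              have h5 : (2 : ℝ) ^ J ≤ N h / Y := by rw [le_div_iff₀ hY]; exact h4.le
              refine mul_le_mul_of_nonneg_right ?_ (hf h)
              unfold om4
              gcongr
              linarith
          _ ≤ ∑ h ∈ Hn O (2 ^ (J + 1) * Y), (((2 : ℝ) ^ J) ^ 4)⁻¹ * f h :=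
              sum_le_sum_of_subset_of_nonneg sdiff_subset fun h _ _ => by
                have := hf h; positivity
          _ = (((2 : ℝ) ^ J) ^ 4)⁻¹ * ∑ h ∈ Hn O (2 ^ (J + 1) * Y), f h := by rw [mul_sum]
          _ ≤ (((2 : ℝ) ^ J) ^ 4)⁻¹ * (G * (2 ^ (J + 1)) ^ 3) := by gcongr
          _ = 8 / 2 ^ J * G := by rw [pow_succ (2 : ℝ) J]; field_simp; ring
      have h6 : (17 - 16 / 2 ^ (J + 1) : ℝ) = 8 / 2 ^ J + (17 - 16 / 2 ^ J) := by
        rw [pow_succ]; field_simp; ring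
      rw [h6, add_mul]
      exact add_le_add h2 ih
  obtain ⟨J, hJ⟩ : ∃ J : ℕ, F ⊆ Hn O (2 ^ J * Y) := by
    obtain ⟨J, hJ⟩ := pow_unbounded_of_one_lt ((∑ h ∈ F, (N h : ℝ)) / Y) (by norm_num : (1 : ℝ) < 2)
    refine ⟨J, fun h hh => ?_⟩
    rw [mem_Hn]
    refine ⟨?_, hF h hh⟩
    rw [div_lt_iff₀ hY] at hJ
    exact (single_le_sum (f := fun h => (N h : ℝ)) (fun _ _ => by positivity) hh).trans hJ.le
  calc ∑ h ∈ F, om4 (N h / Y) * f h ≤ ∑ h ∈ Hn O (2 ^ J * Y), om4 (N h / Y) * f h :=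
        sum_le_sum_of_subset_of_nonneg hJ fun h _ _ => mul_nonneg (om4_nonneg _) (hf h)
    _ ≤ (17 - 16 / 2 ^ J) * G := key J
    _ ≤ 17 * G := by
        have : (0 : ℝ) ≤ 16 / 2 ^ J := by positivity
        nlinarith

/-- a bound for all finite sums of norms bounds the norm of the sum -/
theorem norm_tsum_le_of_sum_le {G : O → ℂ} {B : ℝ} (h : ∀ F : Finset O, ∑ u ∈ F, ‖G u‖ ≤ B) :
    ‖∑' u, G u‖ ≤ B := by
  have hs : Summable fun u => ‖G u‖ := summable_of_sum_le (fun _ => norm_nonneg _) h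
  exact (norm_tsum_le_tsum_norm hs).trans (hs.tsum_le_of_sum_le h)

open Classical in
theorem norm_tsum_le_split {G : O → ℂ} {B : ℝ}
    (h : ∀ F : Finset O, (∀ u ∈ F, u ≠ 0) → ∑ u ∈ F, ‖G u‖ ≤ B) :
    ‖∑' u, G u‖ ≤ ‖G 0‖ + B := by
  refine norm_tsum_le_of_sum_le fun F => ?_
  have h1 := h (F.erase 0) fun u hu => (mem_erase.1 hu).1
  by_cases h0 : (0 : O) ∈ F
  · rw [← add_sum_erase F _ h0]; linarith
  · rw [erase_eq_of_notMem h0] at h1
    linarith [norm_nonneg (G 0)]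

/-! ### separation of variables -/

theorem sum_norm_integral_le {ι α : Type*} [MeasurableSpace α] {μ : Measure α} (I : Finset ι)
    (c : ι → ℝ) (hc : ∀ i ∈ I, 0 ≤ c i)
    (F : ι → α → ℂ) (hF : ∀ i ∈ I, Integrable (F i) μ) {B : α → ℝ} (hB : Integrable B μ)
    (h : ∀ τ, ∑ i ∈ I, c i * ‖F i τ‖ ≤ B τ) :
    ∑ i ∈ I, c i * ‖∫ τ, F i τ ∂μ‖ ≤ ∫ τ, B τ ∂μ := by
  calc ∑ i ∈ I, c i * ‖∫ τ, F i τ ∂μ‖ ≤ ∑ i ∈ I, ∫ τ, c i * ‖F i τ‖ ∂μ := by
        refine sum_le_sum fun i hi => ?_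
        rw [integral_const_mul]
        exact mul_le_mul_of_nonneg_left (norm_integral_le_integral_norm _) (hc i hi)
    _ = ∫ τ, ∑ i ∈ I, c i * ‖F i τ‖ ∂μ :=
        (integral_finsetSum _ fun i hi => (hF i hi).norm.const_mul _).symm
    _ ≤ ∫ τ, B τ ∂μ :=
        integral_mono (integrable_finsetSum _ fun i hi => (hF i hi).norm.const_mul _) hB h

theorem continuous_cpow_line {x : ℝ} (hx : 0 < x) {w : ℝ → ℂ} (hw : Continuous w) :
    Continuous fun τ => (x : ℂ) ^ (w τ) :=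
  hw.const_cpow (Or.inl (by exact_mod_cast hx.ne'))

variable [Sc O]

variable (O) in
theorem sepS {σ : ℝ} (hσ : 0 < σ) (K : ℕ) : ∃ C : ℝ, 0 ≤ C ∧
    ∀ {ι : Type} (I : Finset ι) (T : Finset O) (c X : ι → ℝ) (γ : ι → Gr O)
      (E : ι → O → O → ℂ) (z : ι → O → ℂ) (G : ℝ),
      (∀ i ∈ I, 0 ≤ c i) → (∀ i ∈ I, 0 < X i) → (∀ n ∈ T, n ≠ 0) → (∀ i ∈ I, Bi (E i)) →
      (∀ τ : Tw O, ∑ i ∈ I, c i * ((nG (γ i) / X i ^ 2) ^ (-σ) *
        cl T (fun n => z i n * tw σ τ (X i) n)) ≤ G * sz τ ^ K) →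
      ∑ i ∈ I, c i * ‖∑ n1 ∈ T, ∑ n2 ∈ T, E i n1 n2 * (conj (z i n1) * z i n2) *
        ((Sc.Th (γ i / (sc n1 * sc n2)) : ℝ) : ℂ)‖ ≤ C * (nJ O * G) := by
  obtain ⟨ρ, hρm, hρ, hrep⟩ := Sc.mellin (M := O) σ hσ
  refine ⟨∫ τ, ‖ρ τ‖ * sz τ ^ K ∂Sc.mu,
    integral_nonneg fun τ => mul_nonneg (norm_nonneg _) (sz_pow_nonneg _ _), ?_⟩
  intro ι I T c X γ E z G hc hX hT hE hG
  set Z : ι → Tw O → O → ℂ := fun i τ n => z i n * tw σ τ (X i) n with hZ
  set F : ι → Tw O → ℂ := fun i τ => ρ τ * ((((nG (γ i) / X i ^ 2) ^ (-σ) : ℝ) : ℂ) *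
    conj (Sc.ch τ (γ i)) * ∑ n1 ∈ T, ∑ n2 ∈ T, E i n1 n2 * (conj (Z i (-τ) n1) * Z i τ n2))
    with hF
  have hterm : ∀ i ∈ I, ∀ τ, F i τ = ∑ n1 ∈ T, ∑ n2 ∈ T, E i n1 n2 * (conj (z i n1) * z i n2) *
      (ρ τ * (((nG (γ i / (sc n1 * sc n2)) ^ (-σ) : ℝ) : ℂ) *
        conj (Sc.ch τ (γ i / (sc n1 * sc n2))))) := by
    intro i hi τ
    simp only [hF, hZ]
    rw [mul_sum, mul_sum]
    refine sum_congr rfl fun n1 h1 => ?_
    rw [mul_sum, mul_sum]
    refine sum_congr rfl fun n2 h2 => ?_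
    have p1 := N_pos' (hT n1 h1)
    have p2 := N_pos' (hT n2 h2)
    have pX := hX i hi
    have py := nG_pos (γ i)
    have e3 : nG (γ i / (sc n1 * sc n2)) ^ (-σ) =
        (nG (γ i) / X i ^ 2) ^ (-σ) * ((N n1 / X i) ^ σ * (N n2 / X i) ^ σ) := by
      rw [nG_div, nG_mul, nG_sc (hT n1 h1), nG_sc (hT n2 h2),
        ← Real.mul_rpow (by positivity) (by positivity), Real.rpow_neg (by positivity),
        Real.rpow_neg (by positivity), ← Real.inv_rpow (by positivity),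
        ← Real.inv_rpow (by positivity), ← Real.mul_rpow (by positivity) (by positivity)]
      congr 1
      field_simp
    rw [map_mul, conj_tw, neg_neg, e3, ch_div, ch_mul, tw, tw]
    simp only [map_mul, Complex.conj_conj, ofReal_mul]
    ring
  have hint : ∀ v : Gr O, Integrable (fun τ : Tw O =>
      ρ τ * (((nG v ^ (-σ) : ℝ) : ℂ) * conj (Sc.ch τ v))) Sc.mu := by
    intro v
    have h0 := hρ 0
    simp only [pow_zero, mul_one] at h0
    refine (h0.mul_const (nG v ^ (-σ))).mono' (hρm.mul (AEStronglyMeasurable.const_mul ?_ _))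
      (Filter.Eventually.of_forall fun τ => ?_)
    · exact (Complex.continuous_conj.measurable.comp (Sc.ch_meas v)).aestronglyMeasurable
    · have := nG_pos v
      rw [norm_mul, norm_mul, Complex.norm_conj, norm_ch, mul_one, Complex.norm_real,
        Real.norm_of_nonneg (by positivity)]
  have hFi : ∀ i ∈ I, Integrable (F i) Sc.mu := by
    intro i hi
    rw [funext (hterm i hi)]
    exact integrable_finsetSum _ fun n1 _ => integrable_finsetSum _ fun n2 _ =>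
      (hint _).const_mul _
  have hFint : ∀ i ∈ I, ∫ τ, F i τ ∂Sc.mu = ∑ n1 ∈ T, ∑ n2 ∈ T,
      E i n1 n2 * (conj (z i n1) * z i n2) * ((Sc.Th (γ i / (sc n1 * sc n2)) : ℝ) : ℂ) := by
    intro i hi
    rw [integral_congr_ae (Filter.Eventually.of_forall (hterm i hi)), integral_finsetSum]
    · refine sum_congr rfl fun n1 _ => ?_
      rw [integral_finsetSum]
      · refine sum_congr rfl fun n2 _ => ?_
        rw [integral_const_mul, hrep]
      · exact fun n2 _ => (hint _).const_mul _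
    · exact fun n1 _ => integrable_finsetSum _ fun n2 _ => (hint _).const_mul _
  have hB : Integrable (fun τ : Tw O => ‖ρ τ‖ * sz τ ^ K * (nJ O * G)) Sc.mu :=
    (hρ K).mul_const _
  have key := sum_norm_integral_le I c hc F hFi hB fun τ => ?_
  · rw [integral_mul_const] at key
    refine le_trans (le_of_eq ?_) key
    exact sum_congr rfl fun i hi => by rw [hFint i hi]
  · have h1 := hG τ
    have h2 := hG (-τ)
    rw [sz_neg] at h2
    have hJ := nJ_nonneg (O := O)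
    calc ∑ i ∈ I, c i * ‖F i τ‖ ≤ ∑ i ∈ I, c i * (‖ρ τ‖ * ((nG (γ i) / X i ^ 2) ^ (-σ) *
          (nJ O * ((cl T (Z i (-τ)) + cl T (Z i τ)) / 2)))) := by
          refine sum_le_sum fun i hi => mul_le_mul_of_nonneg_left ?_ (hc i hi)
          have := nG_pos (γ i)
          have := hX i hi
          simp only [hF]
          rw [norm_mul, norm_mul, norm_mul, Complex.norm_conj, norm_ch, mul_one,
            Complex.norm_real, Real.norm_of_nonneg (by positivity)]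
          gcongr
          exact bil_le (hE i hi) T _ _
      _ = ‖ρ τ‖ * nJ O * ((∑ i ∈ I, c i * ((nG (γ i) / X i ^ 2) ^ (-σ) * cl T (Z i (-τ))) +
            ∑ i ∈ I, c i * ((nG (γ i) / X i ^ 2) ^ (-σ) * cl T (Z i τ))) / 2) := by
          rw [← sum_add_distrib, sum_div, mul_sum]
          exact sum_congr rfl fun i _ => by ring
      _ ≤ ‖ρ τ‖ * nJ O * ((G * sz τ ^ K + G * sz τ ^ K) / 2) := by gcongr
      _ = _ := by ring

theorem rpow_neg_le_om4 {s y Yb ε : ℝ} (hε : 0 < ε) (hYb : 1 ≤ Yb) (hs : Yb⁻¹ ≤ s) (hy : s ≤ y)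
    (h1 : s ≤ 1) : y ^ (-ε) ≤ 16 * Yb ^ ε * om4 s := by
  have hs0 : 0 < s := lt_of_lt_of_le (by positivity) hs
  have b1 : y ^ (-ε) ≤ Yb ^ ε := by
    calc y ^ (-ε) ≤ (Yb⁻¹) ^ (-ε) :=
          Real.rpow_le_rpow_of_nonpos (by positivity) (hs.trans hy) (by linarith)
      _ = Yb ^ ε := by rw [Real.inv_rpow (by linarith), Real.rpow_neg (by linarith), inv_inv]
  have b2 := one_le_om4 hs0.le h1
  calc y ^ (-ε) ≤ Yb ^ ε * (16 * om4 s) := b1.trans (le_mul_of_one_le_right (by positivity) b2)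
    _ = _ := by ring

theorem rpow_four_le_om4 {s y : ℝ} (hy : s ≤ y) (h1 : 1 ≤ s) : y ^ (-(4 : ℝ)) ≤ 16 * om4 s := by
  refine le_trans ?_ (inv_le_om4 h1)
  rw [Real.rpow_neg (by linarith), show (4 : ℝ) = ((4 : ℕ) : ℝ) by norm_num, Real.rpow_natCast]
  gcongr

variable (O) in
/-- separation of variables with the polynomial weight -/
theorem sepS2 {ε : ℝ} (hε : 0 < ε) (K : ℕ) : ∃ C : ℝ, 0 ≤ C ∧
    ∀ {ι : Type} (I : Finset ι) (T : Finset O) (c s X : ι → ℝ) (γ : ι → Gr O)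
      (E : ι → O → O → ℂ) (z : ι → O → ℂ) (G Yb : ℝ),
      1 ≤ Yb → (∀ i ∈ I, 0 ≤ c i) → (∀ i ∈ I, Yb⁻¹ ≤ s i) →
      (∀ i ∈ I, s i ≤ nG (γ i) / X i ^ 2) →
      (∀ i ∈ I, 0 < X i) → (∀ n ∈ T, n ≠ 0) → (∀ i ∈ I, Bi (E i)) →
      (∀ σ : ℝ, (σ = ε ∨ σ = 4) → ∀ τ : Tw O, ∑ i ∈ I, c i * (om4 (s i) *
        cl T (fun n => z i n * tw σ τ (X i) n)) ≤ G * sz τ ^ K) →
      ∑ i ∈ I, c i * ‖∑ n1 ∈ T, ∑ n2 ∈ T, E i n1 n2 * (conj (z i n1) * z i n2) *
        ((Sc.Th (γ i / (sc n1 * sc n2)) : ℝ) : ℂ)‖ ≤ C * (nJ O * (Yb ^ ε * G)) := by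
  obtain ⟨C1, hC1, h1⟩ := sepS O hε K
  obtain ⟨C2, hC2, h2⟩ := sepS O (σ := 4) (by norm_num) K
  refine ⟨16 * (C1 + C2), by positivity, ?_⟩
  intro ι I T c s X γ E z G Yb hYb hc hs hy hX hT hE hG
  classical
  have hG0 : 0 ≤ G := by
    have := (sum_nonneg fun i hi => mul_nonneg (hc i hi)
      (mul_nonneg (om4_nonneg _) (cl_nonneg _ _))).trans (hG 4 (Or.inr rfl) 0)
    exact nonneg_of_mul_nonneg_left this (pow_pos (sz_pos _) K)
  have hY1 : 1 ≤ Yb ^ ε := Real.one_le_rpow hYb hε.le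
  have gen : ∀ (σ B : ℝ) (I' : Finset ι), (σ = ε ∨ σ = 4) → 0 ≤ B → I' ⊆ I →
      (∀ i ∈ I', (nG (γ i) / X i ^ 2) ^ (-σ) ≤ B * om4 (s i)) → ∀ τ : Tw O,
      ∑ i ∈ I', c i * ((nG (γ i) / X i ^ 2) ^ (-σ) *
        cl T (fun n => z i n * tw σ τ (X i) n)) ≤ B * G * sz τ ^ K := by
    intro σ B I' hσ hB hI hb τ
    calc _ ≤ ∑ i ∈ I', B * (c i * (om4 (s i) * cl T (fun n => z i n * tw σ τ (X i) n))) := by
          refine sum_le_sum fun i hi => ?_
          have b3 := cl_nonneg T (fun n => z i n * tw σ τ (X i) n)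
          have b4 := hc i (hI hi)
          calc _ ≤ c i * (B * om4 (s i) * cl T (fun n => z i n * tw σ τ (X i) n)) := by
                gcongr; exact hb i hi
            _ = _ := by ring
      _ ≤ ∑ i ∈ I, B * (c i * (om4 (s i) * cl T (fun n => z i n * tw σ τ (X i) n))) :=
          sum_le_sum_of_subset_of_nonneg hI fun i hi _ => mul_nonneg hB (mul_nonneg (hc i hi)
            (mul_nonneg (om4_nonneg _) (cl_nonneg _ _)))
      _ ≤ B * (G * sz τ ^ K) := by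
          rw [← mul_sum]
          exact mul_le_mul_of_nonneg_left (hG σ hσ τ) hB
      _ = _ := by ring
  rw [← sum_filter_add_sum_filter_not I (fun i => s i ≤ 1)]
  have a1 := h1 (I.filter fun i => s i ≤ 1) T c X γ E z (16 * Yb ^ ε * G)
    (fun i hi => hc i (mem_filter.1 hi).1) (fun i hi => hX i (mem_filter.1 hi).1) hT
    (fun i hi => hE i (mem_filter.1 hi).1)
    (gen ε _ _ (Or.inl rfl) (by positivity) (filter_subset _ _) fun i hi =>
      rpow_neg_le_om4 hε hYb (hs i (mem_filter.1 hi).1) (hy i (mem_filter.1 hi).1)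
        (mem_filter.1 hi).2)
  have a2 := h2 (I.filter fun i => ¬ s i ≤ 1) T c X γ E z (16 * G)
    (fun i hi => hc i (mem_filter.1 hi).1) (fun i hi => hX i (mem_filter.1 hi).1) hT
    (fun i hi => hE i (mem_filter.1 hi).1)
    (gen 4 _ _ (Or.inr rfl) (by positivity) (filter_subset _ _) fun i hi =>
      rpow_four_le_om4 (hy i (mem_filter.1 hi).1) (not_le.1 (mem_filter.1 hi).2).le)
  have hq : (0 : ℝ) ≤ nJ O := nJ_nonneg
  have a3 : C2 * (nJ O * (16 * G)) ≤ C2 * (nJ O * (16 * (Yb ^ ε * G))) := by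
    gcongr
    exact le_mul_of_one_le_left hG0 hY1
  calc _ ≤ C1 * (nJ O * (16 * Yb ^ ε * G)) + C2 * (nJ O * (16 * (Yb ^ ε * G))) :=
        add_le_add a1 (a2.trans a3)
    _ = _ := by ring

variable (O) in
/-- the theta weight is bounded by the polynomial weight, up to a small power -/
theorem gw_le_om4 {ε : ℝ} (hε : 0 < ε) : ∃ C : ℝ, 0 ≤ C ∧ ∀ (A : Gr O) (x : O) (Yb : ℝ),
    x ≠ 0 → 1 ≤ Yb → nG A ≤ Yb → gw A x ≤ C * Yb ^ ε * om4 (N x / nG A) := by
  obtain ⟨C1, hC1, h1⟩ := Th_le O hε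
  obtain ⟨C2, hC2, h2⟩ := Th_le O (σ := 4) (by norm_num)
  refine ⟨16 * (C1 + C2), by positivity, fun A x Yb hx hYb hA => ?_⟩
  have pA := nG_pos A
  have px := one_le_N hx
  have hY1 : 1 ≤ Yb ^ ε := Real.one_le_rpow hYb hε.le
  have ho := om4_nonneg (N x / nG A)
  have e : nG (sc x / A) = N x / nG A := by rw [nG_div, nG_sc hx]
  rw [gw_of_ne A hx]
  rcases le_total (N x / nG A) 1 with h | h
  · have hs : Yb⁻¹ ≤ N x / nG A := by
      rw [inv_eq_one_div]; gcongr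
    have := rpow_neg_le_om4 hε hYb hs le_rfl h
    calc _ ≤ C1 * (N x / nG A) ^ (-ε) := by rw [← e]; exact h1 _
      _ ≤ (C1 + C2) * (16 * Yb ^ ε * om4 (N x / nG A)) := by
          gcongr; linarith
      _ = _ := by ring
  · have := rpow_four_le_om4 le_rfl h
    calc _ ≤ C2 * (N x / nG A) ^ (-(4 : ℝ)) := by rw [← e]; exact h2 _
      _ ≤ (C1 + C2) * (16 * 1 * om4 (N x / nG A)) := by
          rw [mul_one]; gcongr; linarith
      _ ≤ (C1 + C2) * (16 * Yb ^ ε * om4 (N x / nG A)) := by gcongr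
      _ = _ := by ring

/-! ### uniformisation of lengths -/

theorem sq_integral_le {w f : ℝ → ℝ} (hw : ∀ τ, 0 ≤ w τ) (h0 : Integrable w)
    (h1 : Integrable fun τ => w τ * f τ) (h2 : Integrable fun τ => w τ * f τ ^ 2) :
    (∫ τ, w τ * f τ) ^ 2 ≤ (∫ τ, w τ) * ∫ τ, w τ * f τ ^ 2 := by
  have h : ∀ l : ℝ, 0 ≤ (∫ τ, w τ) * (l * l) + (-2 * ∫ τ, w τ * f τ) * l + ∫ τ, w τ * f τ ^ 2 := by
    intro l
    have h3 : 0 ≤ ∫ τ, w τ * (f τ - l) ^ 2 := integral_nonneg fun τ => by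
      have := hw τ; positivity
    have h4 : ∫ τ, w τ * (f τ - l) ^ 2 =
        ∫ τ, ((w τ * (l * l) + (-2 * l) * (w τ * f τ)) + w τ * f τ ^ 2) :=
      integral_congr_ae (Filter.Eventually.of_forall fun τ => by simp only; ring)
    have i1 : Integrable fun τ => w τ * (l * l) := h0.mul_const _
    have i2 : Integrable fun τ => (-2 * l) * (w τ * f τ) := h1.const_mul _
    have i3 : Integrable fun τ => w τ * (l * l) + (-2 * l) * (w τ * f τ) := i1.add i2
    rw [h4, integral_add i3 h2, integral_add i1 i2, integral_mul_const, integral_const_mul] at h3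
    linarith
  have := discrim_le_zero h
  rw [discrim] at this
  nlinarith

variable (O) in
theorem unifU {W : ℝ → ℂ} (hW : IsWt W) : ∃ V : ℝ → ℂ, IsWt V ∧ ∀ K : ℕ, ∃ C : ℝ, 0 ≤ C ∧
    ∀ {ι : Type} (I : Finset ι) (T : Finset O) (c y : ι → ℝ) (z : ι → O → ℂ) (X : ℝ)
      (t : Tw O) (G : ℝ),
      0 < X → (∀ n ∈ T, n ≠ 0) → (∀ i ∈ I, 0 ≤ c i) → (∀ i ∈ I, 1 ≤ y i ∧ y i ≤ 2) →
      (∀ τ : Tw O, ∑ i ∈ I, c i * ‖∑ n ∈ T, z i n * wt V τ X n‖ ^ 2 ≤ G * sz τ ^ K) →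
      ∑ i ∈ I, c i * ‖∑ n ∈ T, z i n * wt W t (X / y i) n‖ ^ 2 ≤
        C * (G * sz t ^ K) := by
  obtain ⟨V, ρ, hV, hρ, hrep⟩ := exists_unif (O := O) hW
  obtain ⟨-, -, M, -, -, -, hM0, -, hM⟩ := hV.bounds
  refine ⟨V, hV, fun K => ⟨(∫ τ, ‖ρ τ‖) * ∫ τ : ℝ, ‖ρ τ‖ * (1 + |τ|) ^ K,
    mul_nonneg (integral_nonneg fun _ => norm_nonneg _) (integral_nonneg fun τ => by positivity),
    ?_⟩⟩
  intro ι I T c y z X t G hX hT hc hy hG
  have hG0 : 0 ≤ G := by
    have := (sum_nonneg fun i hi => mul_nonneg (hc i hi) (by positivity)).trans (hG 0)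
    exact nonneg_of_mul_nonneg_left this (pow_pos (sz_pos _) K)
  set φ : ι → ℝ → ℂ := fun i τ => ∑ n ∈ T, z i n * wt V (t + Sc.em τ) X n with hφ
  have hwc : ∀ n ∈ T, Continuous fun τ : ℝ => wt V (t + Sc.em τ) X n := by
    intro n hn
    simp only [wt, ps_add, ps_em _ (hT n hn)]
    exact continuous_const.mul (continuous_const.mul
      (continuous_cpow_line (N_pos' (hT n hn)) (by fun_prop)))
  have hφc : ∀ i, Continuous (φ i) := fun i =>
    continuous_finsetSum _ fun n hn => continuous_const.mul (hwc n hn)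
  have hφb : ∀ i τ, ‖φ i τ‖ ≤ ∑ n ∈ T, ‖z i n‖ * M := by
    intro i τ
    refine (norm_sum_le _ _).trans (sum_le_sum fun n hn => ?_)
    rw [norm_mul, norm_wt]
    exact mul_le_mul_of_nonneg_left (hM _) (norm_nonneg _)
  have hrep2 : ∀ i ∈ I, ∑ n ∈ T, z i n * wt W t (X / y i) n =
      ∫ τ : ℝ, ρ τ * (((y i / X : ℝ) : ℂ) ^ ((τ : ℂ) * Complex.I) * φ i τ) := by
    intro i hi
    have hy0 : 0 < y i / X := div_pos (by linarith [(hy i hi).1]) hX
    have h1 : ∀ n ∈ T, z i n * wt W t (X / y i) n = ∫ τ : ℝ, z i n *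
        (ρ τ * (((y i / X : ℝ) : ℂ) ^ ((τ : ℂ) * Complex.I) * wt V (t + Sc.em τ) X n)) := by
      intro n hn
      rw [hrep t _ _ n hX (hT n hn) (hy i hi).1 (hy i hi).2, integral_const_mul]
    rw [sum_congr rfl h1, ← integral_finsetSum]
    · refine integral_congr_ae (Filter.Eventually.of_forall fun τ => ?_)
      simp only [hφ]
      rw [mul_sum, mul_sum]
      exact sum_congr rfl fun n _ => by ring
    · intro n hn
      refine Integrable.const_mul ?_ _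
      refine hρ.integrable_mul_bdd ((continuous_cpow_line hy0 (by fun_prop)).mul (hwc n hn))
        (M := M) fun τ => ?_
      rw [norm_mul, norm_cpow_I hy0, one_mul, norm_wt]
      exact hM _
  have hi1 : ∀ i, Integrable fun τ => ‖ρ τ‖ * ‖φ i τ‖ := by
    intro i
    have := (hρ.integrable_mul_bdd (hφc i) (hφb i)).norm
    simpa only [norm_mul] using this
  have hi2 : ∀ i, Integrable fun τ => ‖ρ τ‖ * ‖φ i τ‖ ^ 2 := by
    intro i
    have := (hρ.integrable_mul_bdd (φ := fun τ => φ i τ * φ i τ) ((hφc i).mul (hφc i))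
      (M := (∑ n ∈ T, ‖z i n‖ * M) * ∑ n ∈ T, ‖z i n‖ * M) fun τ => by
        rw [norm_mul]
        exact mul_le_mul (hφb i τ) (hφb i τ) (norm_nonneg _)
          ((norm_nonneg _).trans (hφb i τ))).norm
    simpa only [norm_mul, sq] using this
  have hR0 : 0 ≤ ∫ τ, ‖ρ τ‖ := integral_nonneg fun _ => norm_nonneg _
  calc ∑ i ∈ I, c i * ‖∑ n ∈ T, z i n * wt W t (X / y i) n‖ ^ 2
      ≤ ∑ i ∈ I, c i * ((∫ τ, ‖ρ τ‖) * ∫ τ, ‖ρ τ‖ * ‖φ i τ‖ ^ 2) := by
        refine sum_le_sum fun i hi => mul_le_mul_of_nonneg_left ?_ (hc i hi)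
        have hy0 : 0 < y i / X := div_pos (by linarith [(hy i hi).1]) hX
        rw [hrep2 i hi]
        refine le_trans ?_ (sq_integral_le (fun τ => norm_nonneg (ρ τ)) hρ.integrable.norm
          (hi1 i) (hi2 i))
        gcongr
        refine (norm_integral_le_integral_norm _).trans (le_of_eq ?_)
        refine integral_congr_ae (Filter.Eventually.of_forall fun τ => ?_)
        simp only
        rw [norm_mul, norm_mul, norm_cpow_I hy0, one_mul]
    _ = (∫ τ, ‖ρ τ‖) * ∫ τ, ∑ i ∈ I, c i * (‖ρ τ‖ * ‖φ i τ‖ ^ 2) := by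
        rw [integral_finsetSum _ fun i _ => (hi2 i).const_mul _, mul_sum]
        exact sum_congr rfl fun i _ => by rw [integral_const_mul]; ring
    _ ≤ (∫ τ, ‖ρ τ‖) * ∫ τ : ℝ, ‖ρ τ‖ * (1 + |τ|) ^ K * (G * sz t ^ K) := by
        refine mul_le_mul_of_nonneg_left ?_ hR0
        refine integral_mono (integrable_finsetSum _ fun i _ => (hi2 i).const_mul _)
          ((hρ.integrable_mul K).mul_const _) fun τ => ?_
        have h1 := hG (t + Sc.em τ)
        have h2 : sz (t + Sc.em τ) ^ K ≤ ((1 + |τ|) * sz t) ^ K := by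
          refine pow_le_pow_left₀ (sz_nonneg _) ((sz_add _ _).trans ?_) K
          rw [mul_comm]
          exact mul_le_mul_of_nonneg_right (Sc.sz_em τ) (sz_nonneg t)
        calc ∑ i ∈ I, c i * (‖ρ τ‖ * ‖φ i τ‖ ^ 2)
            = ‖ρ τ‖ * ∑ i ∈ I, c i * ‖φ i τ‖ ^ 2 := by
              rw [mul_sum]; exact sum_congr rfl fun i _ => by ring
          _ ≤ ‖ρ τ‖ * (G * ((1 + |τ|) * sz t) ^ K) := by
              gcongr
              exact h1.trans (by gcongr)
          _ = _ := by rw [mul_pow]; ring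
    _ = _ := by rw [integral_mul_const]; ring

end Vale.Agent.P016Z.Ab
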