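import Vale.Agent.P016Z.Ab.Iface2

/-!
P016, abstract Poisson block: the recursion step from the three bounds.
-/

namespace Vale.Agent.P016Z.Ab

open Finset

set_option linter.unusedSectionVars false

variable {O : Type} [CommMonoidWithZero O] [UniqueFactorizationMonoid O] [Ar O] [Sc O]

theorem num_main {D η β : ℝ} (hD : 1 ≤ D) :
    D * (D / D ^ η) ^ β = D ^ (1 + (1 - η) * β) := by
  have hD0 : 0 < D := by linarith
  have h1 : D / D ^ η = D ^ (1 - η) := by rw [Real.rpow_sub hD0, Real.rpow_one]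
  rw [h1, ← Real.rpow_mul hD0.le, Real.rpow_add hD0, Real.rpow_one]

theorem num_short {D θ β : ℝ} (hD : 1 ≤ D) (h0 : 0 < θ) (h1 : θ ≤ 1 / 2) (hb0 : 0 ≤ β) :
    (D ^ (θ ^ 2 / 40)) ^ 6 * ((D ^ (θ ^ 2 / 40)) ^ 15 * D ^ (1 - θ) +
      (D ^ (θ ^ 2 / 40)) ^ 31 * (D ^ (θ / 3)) ^ 3 * (D ^ (1 - θ)) ^ 2 / D +
      (D ^ (θ ^ 2 / 40)) ^ 15 * D ^ (1 - θ) * (D / (D ^ (θ / 3)) ^ 3) ^ (θ + β)) ≤
      3 * D ^ (1 + (1 - θ ^ 2 / 40) * β) := by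
  have hD0 : 0 < D := by linarith
  have hp : ∀ (x : ℝ) (n : ℕ), (D ^ x) ^ n = D ^ (x * n) := fun x n => by
    rw [← Real.rpow_natCast, ← Real.rpow_mul hD0.le]
  have hm : ∀ x y : ℝ, D ^ x * D ^ y = D ^ (x + y) := fun x y => (Real.rpow_add hD0 x y).symm
  have hd : ∀ x : ℝ, D ^ x / D = D ^ (x - 1) := fun x => by rw [Real.rpow_sub hD0, Real.rpow_one]
  have hd' : ∀ x : ℝ, D / D ^ x = D ^ (1 - x) := fun x => by rw [Real.rpow_sub hD0, Real.rpow_one]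
  have hle : ∀ x : ℝ, x ≤ 1 + (1 - θ ^ 2 / 40) * β → D ^ x ≤ D ^ (1 + (1 - θ ^ 2 / 40) * β) :=
    fun x hx => Real.rpow_le_rpow_of_exponent_le hD hx
  have e1 : θ ^ 2 ≤ θ / 2 := by nlinarith
  have e2 : 0 ≤ (1 - θ ^ 2 / 40) * β := mul_nonneg (by linarith) hb0
  have e3 : (1 - θ) * β ≤ (1 - θ ^ 2 / 40) * β := mul_le_mul_of_nonneg_right (by linarith) hb0
  simp only [hp, hm, hd, hd', ← Real.rpow_mul hD0.le, mul_add (D ^ (θ ^ 2 / 40 * ((6 : ℕ) : ℝ)))]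
  have a1 := hle (θ ^ 2 / 40 * ((6 : ℕ) : ℝ) + (θ ^ 2 / 40 * ((15 : ℕ) : ℝ) + (1 - θ)))
    (by push_cast; linarith)
  have a2 := hle (θ ^ 2 / 40 * ((6 : ℕ) : ℝ) + (θ ^ 2 / 40 * ((31 : ℕ) : ℝ) +
    θ / 3 * ((3 : ℕ) : ℝ) + (1 - θ) * ((2 : ℕ) : ℝ) - 1)) (by push_cast; linarith)
  have a3 := hle (θ ^ 2 / 40 * ((6 : ℕ) : ℝ) + (θ ^ 2 / 40 * ((15 : ℕ) : ℝ) + (1 - θ) +
    (1 - θ / 3 * ((3 : ℕ) : ℝ)) * (θ + β))) (by push_cast; nlinarith)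
  linarith

theorem num_long {D H θ β δ : ℝ} (hD : 1 ≤ D) (h0 : 0 < θ) (h1 : θ ≤ 1 / 2) (hb0 : 0 ≤ β)
    (hH : D ^ (1 + θ) ≤ H) :
    (D ^ (θ ^ 2 / 40)) ^ 4 * (D ^ 2 * H ^ δ) ≤ D ^ (1 + (1 - θ ^ 2 / 40) * β) * H ^ (1 + δ) := by
  have hD0 : 0 < D := by linarith
  have hH0 : 0 < H := lt_of_lt_of_le (by positivity) hH
  have e1 : θ ^ 2 ≤ θ / 2 := by nlinarith
  have e2 : 0 ≤ (1 - θ ^ 2 / 40) * β := mul_nonneg (by linarith) hb0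
  have a1 : (D ^ (θ ^ 2 / 40)) ^ 4 * D ≤ H := by
    refine le_trans ?_ hH
    rw [← Real.rpow_natCast, ← Real.rpow_mul hD0.le, ← Real.rpow_add_one hD0.ne']
    exact Real.rpow_le_rpow_of_exponent_le hD (by push_cast; linarith)
  have a2 : D ≤ D ^ (1 + (1 - θ ^ 2 / 40) * β) := by
    have := Real.rpow_le_rpow_of_exponent_le hD (show 1 ≤ 1 + (1 - θ ^ 2 / 40) * β by linarith)
    rwa [Real.rpow_one] at this
  rw [Real.rpow_add hH0, Real.rpow_one]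
  calc (D ^ (θ ^ 2 / 40)) ^ 4 * (D ^ 2 * H ^ δ) = D * (((D ^ (θ ^ 2 / 40)) ^ 4 * D) * H ^ δ) := by
        ring
    _ ≤ _ := by gcongr

theorem num_range {D θ : ℝ} (hD : 1 ≤ D) (h0 : 0 < θ) (h1 : θ ≤ 1 / 2) :
    (D ^ (θ / 3)) ^ 3 * (D ^ (θ ^ 2 / 40)) ^ 2 ≤ D := by
  have hD0 : 0 < D := by linarith
  have e1 : θ ^ 2 ≤ θ / 2 := by nlinarith
  rw [← Real.rpow_natCast, ← Real.rpow_mul hD0.le, ← Real.rpow_natCast, ← Real.rpow_mul hD0.le,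
    ← Real.rpow_add hD0]
  have := Real.rpow_le_rpow_of_exponent_le hD
    (show θ / 3 * ((3 : ℕ) : ℝ) + θ ^ 2 / 40 * ((2 : ℕ) : ℝ) ≤ 1 by push_cast; linarith)
  rwa [Real.rpow_one] at this

open Classical in
/-- the norm of the decomposition -/
theorem norm_total_le (S : Sext O) {L Z c B1 B2 B3 B4 : ℝ} (H : Gr O) (hZ : 1 ≤ Z)
    {a : O → ℂ}
    (ha : ∀ n, n ∉ SO O L → a n = 0) (hc : ((Hn O Z).card : ℝ) ≤ c) (hB2 : 0 ≤ B2) (hB3 : 0 ≤ B3)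
    (hB4 : 0 ≤ B4) (h1 : ‖∑ k ∈ SO O L, lam1 Z k * (S.LargeT L H a k : ℂ)‖ ≤ B1)
    (h2 : ∀ g ∈ SO O L, (N g : ℝ) ≤ Z → ∀ e ∈ D g, ∀ d ∈ SO O L, (N d : ℝ) ≤ Z →
      ‖S.ShortT L (H / sc e) (fun m => a (g * m) * S.chi m e) d‖ ≤ B2)
    (h3 : ∀ g ∈ SO O L, ∀ e ∈ D g,
      ‖∑ k ∈ SO O L, psi2 Z k * S.LongT L (H / sc e) (fun m => a (g * m) * S.chi m e) k‖ ≤
        B3 + (N g : ℝ)⁻¹ * B4) :
    ∑' u : O, ‖∑ n ∈ SO O L, a n * S.chi n u‖ ^ 2 * gw H u ≤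
      B1 + (c ^ 3 * B2 + c ^ 2 * B3 + (∑ g ∈ SO O L, ((D g).card : ℝ) ^ 1 * (N g : ℝ)⁻¹) * B4) := by
  have hc0 : 0 ≤ c := le_trans (by positivity) hc
  have hcard : ((((SO O L).filter (fun g => (N g : ℝ) ≤ Z)).card : ℕ) : ℝ) ≤ c := by
    refine le_trans ?_ hc
    have : (SO O L).filter (fun g => (N g : ℝ) ≤ Z) ⊆ Hn O Z := fun g hg =>
      mem_Hn.2 ⟨(mem_filter.1 hg).2, (mem_SO.1 (mem_filter.1 hg).1).2.ne_zero⟩
    exact_mod_cast card_le_card this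
  have hD : ∀ g ∈ SO O L, (N g : ℝ) ≤ Z → ((D g).card : ℝ) ≤ c := by
    intro g hg hgZ
    refine le_trans ?_ hc
    have hg0 := (mem_SO.1 hg).2.ne_zero
    have : D g ⊆ Hn O Z := fun e he =>
      mem_Hn.2 ⟨(N_le_of_dvd hg0 ((mem_D hg0).1 he).2).trans hgZ, ((mem_D hg0).1 he).1.ne_zero⟩
    exact_mod_cast card_le_card this
  have hshort : ∀ g ∈ SO O L, (N g : ℝ) ≤ Z → ∀ e ∈ D g,
      ‖∑ d ∈ SO O L, phi2 Z d * S.ShortT L (H / sc e) (fun m => a (g * m) * S.chi m e) d‖ ≤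
        c * B2 := by
    intro g hg hgZ e he
    calc _ ≤ ∑ d ∈ SO O L, (if (N d : ℝ) ≤ Z then B2 else 0) := by
          refine (norm_sum_le _ _).trans (sum_le_sum fun d hd => ?_)
          rw [norm_mul]
          split_ifs with hdZ
          · calc _ ≤ 1 * B2 := mul_le_mul (norm_phi2_le Z d) (h2 g hg hgZ e he d hd hdZ)
                  (norm_nonneg _) zero_le_one
              _ = B2 := one_mul _
          · rw [phi2, if_neg hdZ, norm_zero, zero_mul]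
      _ = (((SO O L).filter (fun g => (N g : ℝ) ≤ Z)).card : ℕ) * B2 := by
          rw [← sum_filter, sum_const, nsmul_eq_mul]
      _ ≤ _ := by gcongr
  have ht := congrArg norm (S.total H hZ ha)
  rw [Complex.norm_real, Real.norm_eq_abs] at ht
  refine (le_abs_self _).trans (ht.le.trans ((norm_add_le _ _).trans (add_le_add h1 ?_)))
  calc _ ≤ ∑ g ∈ (SO O L).filter (fun g => (N g : ℝ) ≤ Z),
        (c * (c * B2 + B3) + ((D g).card : ℝ) ^ 1 * (N g : ℝ)⁻¹ * B4) := by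
        refine (norm_sum_le _ _).trans (sum_le_sum fun g hg => ?_)
        rw [mem_filter] at hg
        calc _ ≤ ∑ e ∈ D g, (c * B2 + (B3 + (N g : ℝ)⁻¹ * B4)) := by
              refine (norm_sum_le _ _).trans (sum_le_sum fun e he => ?_)
              rw [norm_mul, norm_mob, one_mul]
              exact (norm_sub_le _ _).trans
                (add_le_add (hshort g hg.1 hg.2 e he) (h3 g hg.1 e he))
          _ = ((D g).card : ℝ) * (c * B2 + B3) + ((D g).card : ℝ) ^ 1 * (N g : ℝ)⁻¹ * B4 := by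
              rw [sum_const, nsmul_eq_mul]; ring
          _ ≤ _ := by
              have := hD g hg.1 hg.2
              gcongr
    _ = (((SO O L).filter (fun g => (N g : ℝ) ≤ Z)).card : ℕ) * (c * (c * B2 + B3)) +
        (∑ g ∈ (SO O L).filter (fun g => (N g : ℝ) ≤ Z), ((D g).card : ℝ) ^ 1 * (N g : ℝ)⁻¹) * B4 := by
        rw [sum_add_distrib, sum_const, nsmul_eq_mul, sum_mul]
    _ ≤ c * (c * (c * B2 + B3)) + (∑ g ∈ SO O L, ((D g).card : ℝ) ^ 1 * (N g : ℝ)⁻¹) * B4 := by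
        gcongr
        exact filter_subset _ _
    _ = _ := by ring

theorem norm_sum_aco_le (S : Sext O) {κ : O → ℂ} (hκ : Cls κ) {W : ℝ → ℂ} {M : ℝ} (hM0 : 0 ≤ M)
    (hM : ∀ x, ‖W x‖ ≤ M) (D L : ℝ) (t : Tw O) (u : O) :
    ‖∑ n ∈ SO O L, aco κ W D t n * S.chi n u‖ ^ 2 ≤ (((SO O L).card : ℝ) * M) ^ 2 := by
  refine pow_le_pow_left₀ (norm_nonneg _) ((norm_sum_le _ _).trans ?_) 2
  rw [← nsmul_eq_mul]
  refine sum_le_card_nsmul _ _ _ fun n hn => ?_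
  rw [norm_mul]
  calc _ ≤ M * 1 := mul_le_mul (norm_aco_le hκ hM0 hM D t n)
        (S.norm_chi_le (mem_SO.1 hn).2.1 u) (norm_nonneg _) hM0
    _ = M := mul_one _

/-- **the recursion step** -/
theorem step_of (S : Sext O) {θ β : ℝ} (h0 : 0 < θ) (h1 : θ ≤ 1 / 2) (hb0 : 0 ≤ β) (_hb1 : β ≤ 1)
    (hL : LargeB S θ β) (hG : LongB S θ β) (hS : ShortB S θ β) :
    MBexp1 S θ ((1 - θ ^ 2 / 40) * β) := by
  intro W hW δ hδ
  obtain ⟨a0, b, M, -, -, hb, hM0, hs, hM⟩ := hW.bounds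
  have hs' : ∀ x, W x ≠ 0 → x ≤ b := fun x hx => (hs x hx).2
  obtain ⟨C1, K1, hC1, p1⟩ := hL W hW b M hb hs' hM δ hδ
  obtain ⟨C2, K2, hC2, p2⟩ := hS W hW b M hb hs' hM δ hδ
  obtain ⟨C3, K3, hC3, p3⟩ := hG W hW b M hb hs' hM (δ / 2) (by positivity)
  obtain ⟨C4, hC4, p4⟩ := card_Hn_le O (ε := 1) one_pos
  obtain ⟨C5, hC5, p5⟩ := sum_tau_div_le O 1 (ε := δ / 2) (by positivity)
  obtain ⟨c, Cs, hc1, hCs, hsc⟩ := exists_scale O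
  refine ⟨Cs * (C1 + (C4 ^ 3 * (3 * C2) + C4 ^ 2 * C3 + C5 * b ^ (δ / 2) * C3)) * c ^ (1 + δ),
    K1 + K2 + K3, fun κ hκ t D0 H0 hD hH' => ?_⟩
  have hsz := sz_pos t
  have hH00 : 0 < H0 := lt_of_lt_of_le (by positivity) hH'
  obtain ⟨A, hA, hsA⟩ := hsc H0 hH00
  have hcH : (c * H0) ^ (1 + δ) = c ^ (1 + δ) * H0 ^ (1 + δ) :=
    Real.mul_rpow (by linarith) hH00.le
  have hH : D0 ^ (1 + θ) ≤ c * H0 := hH'.trans (le_mul_of_one_le_left hH00.le hc1)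
  generalize c * H0 = H at hA hcH hH
  have hD0 : 0 < D0 := by linarith
  have hDH : D0 ≤ H := by
    have := Real.rpow_le_rpow_of_exponent_le hD (show 1 ≤ 1 + θ by linarith)
    rw [Real.rpow_one] at this
    exact this.trans hH
  have hH1 : 1 ≤ H := hD.trans hDH
  have hH0 : 0 < H := by linarith
  have e1 : θ ^ 2 ≤ θ / 2 := by nlinarith
  have hZ : 1 ≤ D0 ^ (θ ^ 2 / 40) := Real.one_le_rpow hD (by positivity)
  have hZ3 : 1 ≤ D0 ^ (θ / 3) := Real.one_le_rpow hD (by positivity)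
  have hZD : D0 ^ (θ ^ 2 / 40) ≤ D0 := by
    have := Real.rpow_le_rpow_of_exponent_le hD (show θ ^ 2 / 40 ≤ 1 by linarith)
    rwa [Real.rpow_one] at this
  have hc : ((Hn O (D0 ^ (θ ^ 2 / 40))).card : ℝ) ≤ C4 * (D0 ^ (θ ^ 2 / 40)) ^ 2 := by
    have := p4 (D0 ^ (θ ^ 2 / 40)) (by positivity)
    rwa [one_add_one_eq_two, Real.rpow_two] at this
  have q1 := p1 κ hκ t D0 H _ A hA hD hH hZ hZD
  have q2 := p2 κ hκ t D0 H _ _ A hA hD hH hZ hZ3 (num_range hD h0 h1)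
  have q3 := p3 κ hκ t D0 H _ A hA hD hH hZ
  rw [num_main hD] at q1
  simp only [num_main hD] at q3
  have n2 := num_short hD h0 h1 hb0
  have n3 := num_long (δ := δ / 2) hD h0 h1 hb0 hH
  have n5 := p5 (b * D0) (one_le_mul_of_one_le_of_one_le hb hD)
  have hE : 0 ≤ D0 ^ (1 + (1 - θ ^ 2 / 40) * β) := by positivity
  have key := norm_total_le S A hZ (a := aco κ W D0 t)
    (fun n hn => aco_eq_zero κ hs' hD0 le_rfl t hn) hc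
    (B3 := C3 * sz t ^ K3 * (D0 ^ 2 * H ^ (δ / 2)))
    (B4 := C3 * sz t ^ K3 * (D0 ^ (1 + (1 - θ ^ 2 / 40) * β) * H ^ (1 + δ / 2)))
    (by positivity) (by positivity) (by positivity) q1 q2
    (fun g hg e he => (q3 g hg e he).trans (le_of_eq (by ring)))
  have key2 := hsA
    (fun u => ‖∑ n ∈ SO O (b * D0), aco κ W D0 t n * S.chi n u‖ ^ 2) _ (fun _ => by positivity)
    (norm_sum_aco_le S hκ hM0 hM D0 (b * D0) t)
  simp only [S.Asum_eq_sum κ hs' hD0 le_rfl]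
  refine key2.trans ((mul_le_mul_of_nonneg_left key hCs.le).trans ?_)
  have hT := one_le_sz t
  have t1 : sz t ^ K1 ≤ sz t ^ (K1 + K2 + K3) := pow_le_pow_right₀ hT (by omega)
  have t2 : sz t ^ K2 ≤ sz t ^ (K1 + K2 + K3) := pow_le_pow_right₀ hT (by omega)
  have t3 : sz t ^ K3 ≤ sz t ^ (K1 + K2 + K3) := pow_le_pow_right₀ hT (by omega)
  have u1 : H ^ (1 + δ / 2) ≤ H ^ (1 + δ) := Real.rpow_le_rpow_of_exponent_le hH1 (by linarith)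
  have u2 : (b * D0) ^ (δ / 2) * H ^ (1 + δ / 2) ≤ b ^ (δ / 2) * H ^ (1 + δ) := by
    have u3 : H ^ (1 + δ) = H ^ (δ / 2) * H ^ (1 + δ / 2) := by
      rw [← Real.rpow_add hH0]; congr 1; ring
    rw [u3, Real.mul_rpow (by linarith) hD0.le, mul_assoc]
    gcongr
  clear hsA hsc hA key key2 q1 q2 q3 p1 p2 p3 p4 p5 hc
  generalize D0 ^ (1 + (1 - θ ^ 2 / 40) * β) = E at *
  generalize (D0 ^ (θ ^ 2 / 40)) ^ 15 * D0 ^ (1 - θ) +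
      (D0 ^ (θ ^ 2 / 40)) ^ 31 * (D0 ^ (θ / 3)) ^ 3 * (D0 ^ (1 - θ)) ^ 2 / D0 +
      (D0 ^ (θ ^ 2 / 40)) ^ 15 * D0 ^ (1 - θ) * (D0 / (D0 ^ (θ / 3)) ^ 3) ^ (θ + β) = R at *
  generalize D0 ^ (θ ^ 2 / 40) = Z at *
  generalize ∑ g ∈ SO O (b * D0), ((D g).card : ℝ) ^ 1 * (N g : ℝ)⁻¹ = A' at *
  have v1 : C1 * sz t ^ K1 * E * H ^ (1 + δ) ≤
      C1 * sz t ^ (K1 + K2 + K3) * E * H ^ (1 + δ) := by gcongr
  have v2 : (C4 * Z ^ 2) ^ 3 * (C2 * sz t ^ K2 * H ^ (1 + δ) * R) ≤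
      C4 ^ 3 * (3 * C2) * sz t ^ (K1 + K2 + K3) * E * H ^ (1 + δ) := by
    calc _ = C4 ^ 3 * C2 * H ^ (1 + δ) * (sz t ^ K2 * (Z ^ 6 * R)) := by ring
      _ ≤ C4 ^ 3 * C2 * H ^ (1 + δ) * (sz t ^ K2 * (3 * E)) := by gcongr
      _ ≤ C4 ^ 3 * C2 * H ^ (1 + δ) * (sz t ^ (K1 + K2 + K3) * (3 * E)) := by gcongr
      _ = _ := by ring
  have v3 : (C4 * Z ^ 2) ^ 2 * (C3 * sz t ^ K3 * (D0 ^ 2 * H ^ (δ / 2))) ≤
      C4 ^ 2 * C3 * sz t ^ (K1 + K2 + K3) * E * H ^ (1 + δ) := by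
    calc _ = C4 ^ 2 * C3 * (sz t ^ K3 * (Z ^ 4 * (D0 ^ 2 * H ^ (δ / 2)))) := by ring
      _ ≤ C4 ^ 2 * C3 * (sz t ^ K3 * (E * H ^ (1 + δ / 2))) := by gcongr
      _ ≤ C4 ^ 2 * C3 * (sz t ^ (K1 + K2 + K3) * (E * H ^ (1 + δ))) := by gcongr
      _ = _ := by ring
  have v4 : A' * (C3 * sz t ^ K3 * (E * H ^ (1 + δ / 2))) ≤
      C5 * b ^ (δ / 2) * C3 * sz t ^ (K1 + K2 + K3) * E * H ^ (1 + δ) := by
    calc _ ≤ (C5 * (b * D0) ^ (δ / 2)) * (C3 * sz t ^ K3 * (E * H ^ (1 + δ / 2))) := by gcongr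
      _ = C5 * C3 * E * (sz t ^ K3 * ((b * D0) ^ (δ / 2) * H ^ (1 + δ / 2))) := by ring
      _ ≤ C5 * C3 * E * (sz t ^ (K1 + K2 + K3) * (b ^ (δ / 2) * H ^ (1 + δ))) := by gcongr
      _ = _ := by ring
  calc _ ≤ Cs * (C1 * sz t ^ (K1 + K2 + K3) * E * H ^ (1 + δ) +
        (C4 ^ 3 * (3 * C2) * sz t ^ (K1 + K2 + K3) * E * H ^ (1 + δ) +
          C4 ^ 2 * C3 * sz t ^ (K1 + K2 + K3) * E * H ^ (1 + δ) +
          C5 * b ^ (δ / 2) * C3 * sz t ^ (K1 + K2 + K3) * E * H ^ (1 + δ))) :=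
        mul_le_mul_of_nonneg_left (add_le_add v1 (add_le_add (add_le_add v2 v3) v4))
          hCs.le
    _ = _ := by rw [hcH]; ring

end Vale.Agent.P016Z.Ab
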