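import Vale.Agent.P016Z.Ab.Scale

/-!
P016, abstract Poisson block: the algebraic decomposition of the Gaussian mean square of the Moebius sums.
-/

namespace Vale.Agent.P016Z.Ab

open Finset
open scoped ComplexConjugate

set_option linter.unusedSectionVars false

variable {O : Type} [CommMonoidWithZero O] [UniqueFactorizationMonoid O] [Ar O] [Sc O]

theorem cl_cls_mul_le {κ : O → ℂ} (h : Cls κ) (T : Finset O) (x : O → ℂ) :
    cl T (fun n => κ n * x n) ≤ cl T x := by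
  unfold cl
  refine sum_le_sum fun j _ => ?_
  have : ∑ n ∈ T, ind j n * (κ n * x n) = κ (rep j) * ∑ n ∈ T, ind j n * x n := by
    rw [mul_sum]
    refine sum_congr rfl fun n _ => ?_
    unfold ind
    split_ifs with h1
    · rw [← h1, h.1.out]; ring
    · simp
  rw [this, norm_mul, mul_pow]
  exact mul_le_of_le_one_left (by positivity) (pow_le_one₀ (norm_nonneg _) (h.2 _))

theorem cl_zero (T : Finset O) : cl T (fun _ => 0) = 0 := by
  simp [cl]

/-! ### the coefficients -/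

open Classical in
/-- the coefficient of the Moebius sum -/
noncomputable def aco (κ : O → ℂ) (W : ℝ → ℂ) (D : ℝ) (t : Tw O) (n : O) : ℂ :=
  if Sq n then mob n * κ n * wt W t D n else 0

theorem aco_eq_zero (κ : O → ℂ) {W : ℝ → ℂ} {b : ℝ} (hb : ∀ x, W x ≠ 0 → x ≤ b) {D L : ℝ}
    (hD : 0 < D) (hL : b * D ≤ L) (t : Tw O) {n : O} (hn : n ∉ SO O L) : aco κ W D t n = 0 := by
  unfold aco
  split_ifs with h
  · rw [wt_eq_zero hb hD hL (fun h1 => hn (mem_SO.2 ⟨h1, h⟩)), mul_zero]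
  · rfl

theorem aco_of_not_sq (κ : O → ℂ) (W : ℝ → ℂ) (D : ℝ) (t : Tw O) {n : O} (h : ¬ Sq n) :
    aco κ W D t n = 0 := if_neg h

theorem norm_aco_le {κ : O → ℂ} (hκ : Cls κ) {W : ℝ → ℂ} {M : ℝ} (hM0 : 0 ≤ M)
    (hM : ∀ x, ‖W x‖ ≤ M) (D : ℝ) (t : Tw O) (n : O) : ‖aco κ W D t n‖ ≤ M := by
  unfold aco
  split_ifs with h
  · rw [norm_mul, norm_mul, norm_mob, one_mul, norm_wt]
    calc ‖κ n‖ * ‖W (N n / D)‖ ≤ 1 * M := by gcongr; exacts [hκ.2 n, hM _]
      _ = M := one_mul M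
  · simpa using hM0

theorem aco_mul (κ : O → ℂ) (W : ℝ → ℂ) {D : ℝ} (t : Tw O) {m n : O} (hm : Sq m) (hn : Sq n) :
    aco κ W D t (m * n) =
      mob m * ps t m * κ (m * n) * (mob n * cop n m * wt W t (D / N m) n) := by
  unfold aco
  rw [cop]
  by_cases h : IsRelPrime m n
  · rw [if_pos (hm.mul hn h), if_pos h, mob_mul' hm.ne_zero hn.ne_zero,
      wt_mul W t D hm.ne_zero hn.ne_zero]
    ring
  · rw [if_neg (fun h1 => h h1.coprime), if_neg h]; ring

theorem aco_mul_of_not (κ : O → ℂ) (W : ℝ → ℂ) (D : ℝ) (t : Tw O) {m : O} (hp : Prim m) (hm : ¬ Sq m)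
    (n : O) : aco κ W D t (m * n) = 0 :=
  aco_of_not_sq κ W D t fun h => hm (h.left hp)

theorem not_mem_SO_mul {L : ℝ} {k m : O} (hk : Prim k) (hm : m ∉ SO O L) : k * m ∉ SO O L :=
  fun h => hm (mem_SO_of_dvd h (hk.of_mul_left (mem_SO.1 h).2.prim) (dvd_mul_left _ _))

theorem div_N_le {b D L : ℝ} (hb : 0 ≤ b) (hD : 0 < D) (hL : b * D ≤ L) {m : O} (hm : m ≠ 0) :
    b * (D / N m) ≤ L := by
  refine le_trans ?_ hL
  gcongr
  exact div_le_self hD.le (one_le_N hm)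

namespace Sext

variable (S : Sext O)

theorem Asum_eq_sum (κ : O → ℂ) {W : ℝ → ℂ} {b : ℝ} (hb : ∀ x, W x ≠ 0 → x ≤ b) {D L : ℝ}
    (hD : 0 < D) (hL : b * D ≤ L) (t : Tw O) (u : O) :
    Asum S κ W D t u = ∑ n ∈ SO O L, aco κ W D t n * S.chi n u := by
  rw [Asum_eq, S.Sm_eq _ hb hD hL]
  refine sum_congr rfl fun n hn => ?_
  rw [aco, if_pos (mem_SO.1 hn).2]; ring

theorem sum_aco_mul (κ : O → ℂ) {W : ℝ → ℂ} {b : ℝ} (hb : ∀ x, W x ≠ 0 → x ≤ b) (hb0 : 0 ≤ b)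
    {D L : ℝ} (hD : 0 < D) (hL : b * D ≤ L) (t : Tw O) {k : O} (hk : Sq k) (u : O) :
    ∑ m ∈ SO O L, aco κ W D t (k * m) * S.chi (k * m) u =
      mob k * ps t k * S.chi k u * S.Ac k (fun n => κ (k * n)) W (D / N k) t u := by
  rw [Ac, S.Sm_eq _ hb (div_pos hD (N_pos' hk.ne_zero)) (div_N_le hb0 hD hL hk.ne_zero), mul_sum]
  refine sum_congr rfl fun m hm => ?_
  have hm' := (mem_SO.1 hm).2
  rw [aco_mul κ W t hk hm', S.chi_mul_left _ _ _ hk.1 hm'.1]; ring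

theorem cl_aco_le {κ : O → ℂ} (hκ : Cls κ) {W : ℝ → ℂ} {b : ℝ} (hb : ∀ x, W x ≠ 0 → x ≤ b)
    (hb0 : 0 ≤ b) {D L : ℝ} (hD : 0 < D) (hL : b * D ≤ L) (t : Tw O) {m : O} (hm : Sq m) (v : O) :
    cl (SO O L) (fun n => aco κ W D t (m * n) * S.chi n v) ≤ S.Acl m W (D / N m) t v := by
  rw [S.Acl_eq m hb (div_pos hD (N_pos' hm.ne_zero)) (div_N_le hb0 hD hL hm.ne_zero)]
  calc cl (SO O L) (fun n => aco κ W D t (m * n) * S.chi n v)
      = cl (SO O L) (fun n => mob m * ps t m * (κ (m * n) *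
          (mob n * cop n m * S.chi n v * wt W t (D / N m) n))) :=
        cl_congr fun n hn => by rw [aco_mul κ W t hm (mem_SO.1 hn).2]; ring
    _ ≤ cl (SO O L) (fun n => κ (m * n) *
          (mob n * cop n m * S.chi n v * wt W t (D / N m) n)) :=
        cl_const_mul_le _ (by rw [norm_mul, norm_mob, norm_ps, mul_one]) _
    _ ≤ _ := cl_cls_mul_le (hκ.comp_mul m) _ _

theorem Acl_mul_of_dvd (c : O) {k v : O} (h : k ∣ v) (W : ℝ → ℂ) (X : ℝ) (t : Tw O) :
    S.Acl (c * k) W X t v = S.Acl c W X t v := by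
  unfold Acl Ac Sm
  refine sum_congr rfl fun j _ => ?_
  congr 2
  refine tsum_congr fun n => ?_
  split_ifs with hn
  · have := S.cop_mul_chi hn.1 h
    beta_reduce
    rw [cop_mul_right]
    linear_combination (mob n * cop n c * ind j n * wt W t X n) * this
  · rfl

/-- expansion of the Gaussian-weighted square, with a common factor -/
theorem tsum_sq_mul_eq (A : Gr O) {T : Finset O} (hT : ∀ n ∈ T, Prim n) {k : O}
    (hk : Prim k) (c : O → ℂ) :
    ((∑' x : O, ‖∑ n ∈ T, c n * S.chi (k * n) x‖ ^ 2 * gw A x : ℝ) : ℂ) =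
      ∑ n1 ∈ T, ∑ n2 ∈ T, conj (c n1) * c n2 * S.psum A (k * n1) (k * n2) := by
  rw [Complex.ofReal_tsum]
  have h1 : ∀ x : O, ((‖∑ n ∈ T, c n * S.chi (k * n) x‖ ^ 2 * gw A x : ℝ) : ℂ) =
      ∑ n1 ∈ T, ∑ n2 ∈ T, conj (c n1) * c n2 *
        ((conj (S.chi (k * n1) x) * S.chi (k * n2) x) * (gw A x : ℂ)) := by
    intro x
    rw [Complex.ofReal_mul, Complex.ofReal_pow, ← Complex.conj_mul', map_sum, sum_mul_sum, sum_mul]
    refine sum_congr rfl fun n1 _ => ?_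
    rw [sum_mul]
    refine sum_congr rfl fun n2 _ => ?_
    rw [map_mul]; ring
  rw [tsum_congr h1, Summable.tsum_finsetSum]
  · refine sum_congr rfl fun n1 h1 => ?_
    rw [Summable.tsum_finsetSum]
    · refine sum_congr rfl fun n2 h2 => ?_
      rw [tsum_mul_left, psum]
    · intro n2 h2
      exact (S.summable_psum A (hk.mul (hT n1 h1)) (hk.mul (hT n2 h2))).mul_left _
  · intro n1 h1
    exact summable_sum fun n2 h2 =>
      (S.summable_psum A (hk.mul (hT n1 h1)) (hk.mul (hT n2 h2))).mul_left _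

/-- the naive dual sum of a pair with gcd `k` -/
theorem Fd_back {k m1 m2 : O} (hk : Prim k) (h1 : Sq (k * m1)) (h2 : Sq (k * m2))
    (hc : IsRelPrime m1 m2) (A : Gr O) :
    S.Fd A (k * m1) (k * m2) =
      S.Esg (k * m1) (k * m2) * S.Eb k m2 m1 * ∑ e ∈ D k, mob e * (((N k / N e : ℝ) : ℂ) *
          ∑' u : O, (conj (S.chi m1 (vv k e u)) * S.chi m2 (vv k e u)) * (gw A (vv k e u) : ℂ)) := by
  have s1 : Sq m1 := h1.of_mul_left hk
  have s2 : Sq m2 := h2.of_mul_left hk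
  have pk : (0 : ℝ) < N k := N_pos' hk.ne_zero
  have p1 : (0 : ℝ) < N m1 := N_pos' s1.ne_zero
  have p2 : (0 : ℝ) < N m2 := N_pos' s2.ne_zero
  have q1 : (0 : ℝ) < N (k * m1) := N_pos' h1.ne_zero
  have q2 : (0 : ℝ) < N (k * m2) := N_pos' h2.ne_zero
  have hb := S.back hk h1 h2 hc (Sc.dl * (sc (k * m1) * sc (k * m2)) / A)
  have hA := nG_pos A
  rw [div_div_cancel, nG_div, nG_mul, nG_mul, nG_dl, one_mul, nG_sc h1.ne_zero,
    nG_sc h2.ne_zero] at hb
  have e0 : S.Fd A (k * m1) (k * m2) =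
      ((nG A / (Real.sqrt (N (k * m1)) * Real.sqrt (N (k * m2))) : ℝ) : ℂ) *
        (S.Esg (k * m1) (k * m2) * (mob (k * m1) * mob (k * m2))) *
        (S.g (k * m1) * conj (S.g (k * m2)) *
          S.psum (Sc.dl * (sc (k * m1) * sc (k * m2)) / A) (k * m2) (k * m1)) := by
    rw [Fd, cst]; ring
  rw [e0, hb, mob_mul' hk.ne_zero s1.ne_zero, mob_mul' hk.ne_zero s2.ne_zero, mul_sum, mul_sum,
    mul_sum]
  refine sum_congr rfl fun e he => ?_
  have pe : (0 : ℝ) < N e := N_pos' ((mem_D hk.ne_zero).1 he).1.ne_zero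
  have e2 : ((nG A / (Real.sqrt (N (k * m1)) * Real.sqrt (N (k * m2))) : ℝ) : ℂ) *
      ((N (k * m1) * N (k * m2) / nG A / N e / (Real.sqrt (N m1) * Real.sqrt (N m2)) : ℝ) : ℂ) =
      ((N k / N e : ℝ) : ℂ) := by
    rw [← Complex.ofReal_mul]
    congr 1
    have r1 : Real.sqrt (N (k * m1)) = Real.sqrt (N k) * Real.sqrt (N m1) := by
      rw [N_mul', Real.sqrt_mul pk.le]
    have r2 : Real.sqrt (N (k * m2)) = Real.sqrt (N k) * Real.sqrt (N m2) := by
      rw [N_mul', Real.sqrt_mul pk.le]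
    have t0 := Real.sq_sqrt pk.le
    have t1 := Real.sq_sqrt p1.le
    have t2 := Real.sq_sqrt p2.le
    have u0 := Real.sqrt_pos.2 pk
    have u1 := Real.sqrt_pos.2 p1
    have u2 := Real.sqrt_pos.2 p2
    rw [r1, r2, N_mul', N_mul']
    set x := Real.sqrt (N k)
    set y1 := Real.sqrt (N m1)
    set y2 := Real.sqrt (N m2)
    rw [← t0, ← t1, ← t2]
    field_simp
  have m0 := mob_mul_self k
  have m1' := mob_mul_self m1
  have m2' := mob_mul_self m2
  set P := ∑' u : O, (conj (S.chi m1 (vv k e u)) * S.chi m2 (vv k e u)) * (gw A (vv k e u) : ℂ)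
  rw [← e2]
  set R1 : ℂ := ((nG A / (Real.sqrt (N (k * m1)) * Real.sqrt (N (k * m2))) : ℝ) : ℂ)
  set R2 : ℂ :=
    ((N (k * m1) * N (k * m2) / nG A / N e / (Real.sqrt (N m1) * Real.sqrt (N m2)) : ℝ) : ℂ)
  calc _ = (mob k * mob k) * (mob m1 * mob m1) * (mob m2 * mob m2) *
      (S.Esg (k * m1) (k * m2) * S.Eb k m2 m1 * (mob e * (R1 * R2 * P))) := by ring
    _ = _ := by rw [m0, m1', m2']; ring

end Sext

/-! ### the truncated Moebius weights -/

open Classical in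
/-- weight of a long common factor -/
noncomputable def lam1 (Z : ℝ) (k : O) : ℂ :=
  ∑ g ∈ D k, mob (dv k g) * (if Z < N g then 1 else 0)

open Classical in
/-- the truncated Moebius function -/
noncomputable def phi2 (Z : ℝ) (d : O) : ℂ := if (N d : ℝ) ≤ Z then mob d else 0

open Classical in
/-- weight of a long gcd after the truncated removal of coprimality -/
noncomputable def psi2 (Z : ℝ) (k : O) : ℂ := if Z < N k then ∑ d ∈ D k, phi2 Z d else 0

theorem norm_lam1_le (Z : ℝ) (k : O) : ‖lam1 Z k‖ ≤ (D k).card := by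
  unfold lam1
  refine (norm_sum_le _ _).trans ?_
  rw [card_eq_sum_ones, Nat.cast_sum]
  refine sum_le_sum fun g _ => ?_
  rw [norm_mul, norm_mob]
  split_ifs <;> simp

theorem lam1_eq_zero {Z : ℝ} {k : O} (hk : k ≠ 0) (h : (N k : ℝ) ≤ Z) : lam1 Z k = 0 := by
  unfold lam1
  refine sum_eq_zero fun g hg => ?_
  rw [if_neg, mul_zero]
  exact not_lt.2 ((N_le_of_dvd hk ((mem_D hk).1 hg).2).trans h)

theorem norm_phi2_le (Z : ℝ) (d : O) : ‖phi2 Z d‖ ≤ 1 := by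
  unfold phi2
  split_ifs
  · exact (norm_mob d).le
  · simp

theorem norm_psi2_le (Z : ℝ) (k : O) : ‖psi2 Z k‖ ≤ (D k).card := by
  unfold psi2
  split_ifs
  · refine (norm_sum_le _ _).trans ?_
    rw [card_eq_sum_ones, Nat.cast_sum]
    exact sum_le_sum fun g _ => by simpa using norm_phi2_le Z g
  · simp

theorem psi2_eq_zero {Z : ℝ} {k : O} (h : (N k : ℝ) ≤ Z) : psi2 Z k = 0 :=
  if_neg (not_lt.2 h)

theorem cop_eq_trunc {Z L : ℝ} (hZ : 1 ≤ Z) {m1 m2 : O} (h1 : m1 ∈ SO O L) (h2 : m2 ∈ SO O L) :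
    cop m1 m2 = (∑ d ∈ D (pg m1 m2), phi2 Z d) - psi2 Z (pg m1 m2) := by
  classical
  have p1 := (mem_SO.1 h1).2.prim
  have p2 := (mem_SO.1 h2).2.prim
  have hδ := (mem_SO.1 (pg_mem_SO h1 h2)).2
  have hc : cop m1 m2 = if pg m1 m2 = 1 then 1 else 0 := by
    rw [cop]
    simp only [pg_eq_one_iff p1 p2, isRelPrime_comm (x := m2)]
  rw [hc, psi2]
  by_cases hZ' : Z < N (pg m1 m2)
  · rw [if_pos hZ', sub_self, if_neg]
    intro h
    rw [h, N_one, Nat.cast_one] at hZ'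
    linarith
  · rw [if_neg hZ', sub_zero, ← sum_mob_D hδ.prim hδ.2]
    refine sum_congr rfl fun d hd => ?_
    rw [phi2, if_pos]
    exact (N_le_of_dvd hδ.ne_zero ((mem_D hδ.ne_zero).1 hd).2).trans (not_lt.1 hZ')

namespace Sext

variable (S : Sext O)

/-- the short terms -/
noncomputable def ShortT (L : ℝ) (A : Gr O) (a : O → ℂ) (d : O) : ℂ :=
  ∑ n1 ∈ SO O L, ∑ n2 ∈ SO O L, conj (a (d * n1)) * a (d * n2) * S.Fd A (d * n1) (d * n2)

/-- the long terms -/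
noncomputable def LongT (L : ℝ) (A : Gr O) (a : O → ℂ) (k : O) : ℂ :=
  ∑ m1 ∈ SO O L, ∑ m2 ∈ SO O L, cop m1 m2 * (conj (a (k * m1)) * a (k * m2) * S.Fd A (k * m1) (k * m2))

/-- the coprime part after Poisson summation -/
theorem core {L Z : ℝ} (A : Gr O) (hZ : 1 ≤ Z) {a : O → ℂ} (ha : ∀ n, n ∉ SO O L → a n = 0) :
    ∑ m1 ∈ SO O L, ∑ m2 ∈ SO O L, cop m1 m2 * (conj (a m1) * a m2 * S.psum A m1 m2) =
      ∑ d ∈ SO O L, phi2 Z d * S.ShortT L A a d - ∑ k ∈ SO O L, psi2 Z k * S.LongT L A a k := by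
  have hF : Supp2 L fun m1 m2 => conj (a m1) * a m2 * S.Fd A m1 m2 := by
    rintro n1 n2 (h | h) <;> simp [ha _ h]
  unfold ShortT LongT
  rw [sum_weight hF, ← sum_gcd hF, ← sum_sub_distrib]
  refine sum_congr rfl fun m1 h1 => ?_
  rw [← sum_sub_distrib]
  refine sum_congr rfl fun m2 h2 => ?_
  rw [← sub_mul, ← cop_eq_trunc hZ h1 h2]
  by_cases hc : IsRelPrime m1 m2
  · rw [S.psum_eq_Fd (mem_SO.1 h1).2 (mem_SO.1 h2).2 hc A]
  · rw [cop, if_neg (fun h => hc h.symm), zero_mul, zero_mul]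

/-- the terms with a long common factor -/
noncomputable def LargeT (L : ℝ) (H : Gr O) (a : O → ℂ) (k : O) : ℝ :=
  ∑' u : O, ‖∑ m ∈ SO O L, a (k * m) * S.chi (k * m) u‖ ^ 2 * gw H u

open Classical in
/-- **the decomposition of the Gaussian mean square** -/
theorem total {L Z : ℝ} (H : Gr O) (hZ : 1 ≤ Z) {a : O → ℂ} (ha : ∀ n, n ∉ SO O L → a n = 0) :
    ((∑' u : O, ‖∑ n ∈ SO O L, a n * S.chi n u‖ ^ 2 * gw H u : ℝ) : ℂ) =
      ∑ k ∈ SO O L, lam1 Z k * (S.LargeT L H a k : ℂ) +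
      ∑ g ∈ (SO O L).filter (fun g => (N g : ℝ) ≤ Z), ∑ e ∈ D g, mob e *
        (∑ d ∈ SO O L, phi2 Z d * S.ShortT L (H / sc e) (fun m => a (g * m) * S.chi m e) d -
          ∑ k ∈ SO O L, psi2 Z k * S.LongT L (H / sc e) (fun m => a (g * m) * S.chi m e) k) := by
  have hT : ∀ n ∈ SO O L, Prim n := fun n hn => (mem_SO.1 hn).2.1
  have hF : Supp2 L fun n1 n2 => conj (a n1) * a n2 * S.psum H n1 n2 := by
    rintro n1 n2 (h | h) <;> simp [ha _ h]
  rw [S.tsum_sq_eq H hT]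
  have h1 : ∑ k ∈ SO O L, lam1 Z k * (S.LargeT L H a k : ℂ) =
      ∑ n1 ∈ SO O L, ∑ n2 ∈ SO O L, (if Z < N (pg n1 n2) then 1 else 0) *
        (conj (a n1) * a n2 * S.psum H n1 n2) := by
    have h2 : ∀ k ∈ SO O L, lam1 Z k * (S.LargeT L H a k : ℂ) = lam1 Z k *
        ∑ m1 ∈ SO O L, ∑ m2 ∈ SO O L, conj (a (k * m1)) * a (k * m2) * S.psum H (k * m1) (k * m2) := by
      intro k hk
      rw [LargeT, S.tsum_sq_mul_eq H hT (hT k hk)]
    rw [sum_congr rfl h2, sum_weight hF]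
    refine sum_congr rfl fun n1 h1 => sum_congr rfl fun n2 h2 => ?_
    have hδ := (mem_SO.1 (pg_mem_SO h1 h2)).2
    unfold lam1
    rw [mob_collapse _ hδ.prim hδ.2 (fun g => if Z < N g then 1 else 0)]
  have h3 : ∑ g ∈ (SO O L).filter (fun g => (N g : ℝ) ≤ Z), ∑ e ∈ D g, mob e *
        (∑ d ∈ SO O L, phi2 Z d * S.ShortT L (H / sc e) (fun m => a (g * m) * S.chi m e) d -
          ∑ k ∈ SO O L, psi2 Z k * S.LongT L (H / sc e) (fun m => a (g * m) * S.chi m e) k) =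
      ∑ n1 ∈ SO O L, ∑ n2 ∈ SO O L, (if (N (pg n1 n2) : ℝ) ≤ Z then 1 else 0) *
        (conj (a n1) * a n2 * S.psum H n1 n2) := by
    rw [sum_gcd hF (fun g => if (N g : ℝ) ≤ Z then 1 else 0), sum_filter]
    refine sum_congr rfl fun g hg => ?_
    have sg := (mem_SO.1 hg).2
    split_ifs with hgZ
    · rw [one_mul]
      have h4 : ∀ e ∈ D g, mob e *
          (∑ d ∈ SO O L, phi2 Z d * S.ShortT L (H / sc e) (fun m => a (g * m) * S.chi m e) d -
            ∑ k ∈ SO O L, psi2 Z k * S.LongT L (H / sc e) (fun m => a (g * m) * S.chi m e) k) =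
          ∑ m1 ∈ SO O L, ∑ m2 ∈ SO O L, cop m1 m2 * (conj (a (g * m1)) * a (g * m2) *
            (mob e * (conj (S.chi m1 e) * S.chi m2 e) * S.psum (H / sc e) m1 m2)) := by
        intro e he
        rw [← S.core (H / sc e) hZ (a := fun m => a (g * m) * S.chi m e)
          (fun n hn => by rw [ha _ (not_mem_SO_mul sg.prim hn), zero_mul]), mul_sum]
        refine sum_congr rfl fun m1 _ => ?_
        rw [mul_sum]
        refine sum_congr rfl fun m2 _ => ?_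
        rw [map_mul]; ring
      rw [sum_congr rfl h4, sum_comm]
      refine sum_congr rfl fun m1 h1 => ?_
      rw [sum_comm]
      refine sum_congr rfl fun m2 h2 => ?_
      rw [S.psum_mul H sg (hT m1 h1) (hT m2 h2), mul_sum, mul_sum]
    · rw [zero_mul]
  rw [h1, h3, ← sum_add_distrib]
  refine sum_congr rfl fun n1 _ => ?_
  rw [← sum_add_distrib]
  refine sum_congr rfl fun n2 _ => ?_
  by_cases h : Z < N (pg n1 n2)
  · rw [if_pos h, if_neg (not_le.2 h)]; ring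
  · rw [if_neg h, if_pos (not_lt.1 h)]; ring

end Sext

end Vale.Agent.P016Z.Ab
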