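import Vale.Agent.P016Z.Ab.End
import Mathlib.RingTheory.UniqueFactorizationDomain.Multiplicative

/-!
P016, abstract block V6: from the mean square over squarefree twists (`ThmT`) to the mean square
over all `h ≠ 0` (`TB`).
-/

namespace Vale.Agent.P016Z.Ab

open Finset
open scoped ComplexConjugate

set_option linter.unusedSectionVars false

variable {O : Type} [CommMonoidWithZero O] [UniqueFactorizationMonoid O] [Ar O] [Sc O]

open Classical in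
/-- the twisted sum `∑_{m} τ(m) f(m) χ(m) W(N m / X) ψ_t(m)` over the generators `m` -/
noncomputable def Csum (τ f χ : O → ℂ) (W : ℝ → ℂ) (X : ℝ) (t : Tw O) : ℂ :=
  ∑' m : O, if Prim m then τ m * f m * χ m * wt W t X m else 0

/-- the statement of `ThmT` for one weight and given constants -/
def TBound (Ray : O → (O → ℂ) → Prop) (τ : O → ℂ) (χ : O → O → ℂ) (W : ℝ → ℂ) (ε C : ℝ)
    (K : ℕ) : Prop :=
  ∀ (t : Tw O) (X Y : ℝ) (c : O) (f : O → O → ℂ) (T : Finset O), 1 ≤ X → 1 ≤ Y → Prim c →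
    (∀ h k, ‖f h k‖ ≤ 1) → (∀ h, Ray c (f h)) →
    (∀ h ∈ T, Sq h ∧ IsRelPrime h c ∧ (N h : ℝ) ≤ Y) →
    ∑ h ∈ T, ‖Csum τ (f h) (χ h) W X t‖ ^ 2 ≤
      C * sz t ^ K * (X * Y * N c) ^ ε * (X * N c * (Y + Y ^ 2 * (N c : ℝ) ^ 2 / X))

/-- Mean square over squarefree `h` of the twisted sums. Intended meaning: `τ` the theta
coefficient, `χ h k = (k/h)_6`, `Ray c f`: the function `f` depends only on the class and on the
residue modulo `c`. -/
def ThmT (Ray : O → (O → ℂ) → Prop) (τ : O → ℂ) (χ : O → O → ℂ) : Prop :=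
  ∀ W : ℝ → ℂ, IsWt W → ∀ ε : ℝ, 0 < ε → ∃ (C : ℝ) (K : ℕ), TBound Ray τ χ W ε C K

/-- passing to complex conjugates -/
theorem ThmT.conj {Ray : O → (O → ℂ) → Prop} {τ : O → ℂ} {χ : O → O → ℂ}
    (hR : ∀ c f, Ray c f → Ray c fun m => conj (f m))
    (h : ThmT Ray (fun m => conj (τ m)) fun a m => conj (χ a m)) : ThmT Ray τ χ := by
  classical
  intro W hW ε hε
  obtain ⟨C, K, hC⟩ := h _ hW.conj ε hε
  refine ⟨C, K, fun t X Y c f T hX hY hc h1 h2 h3 => ?_⟩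
  have h4 := hC (-t) X Y c (fun h m => conj (f h m)) T hX hY hc
    (fun h k => by rw [Complex.norm_conj]; exact h1 h k) (fun h => hR _ _ (h2 h)) h3
  rw [sz_neg] at h4
  refine le_trans (le_of_eq (sum_congr rfl fun h _ => ?_)) h4
  rw [← Complex.norm_conj, Csum, Csum, Complex.conj_tsum]
  congr 2
  refine tsum_congr fun m => ?_
  split_ifs
  · rw [map_mul, map_mul, map_mul, conj_wt]
  · exact map_zero _

/-- the extra properties of the sextic data used in this block -/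
structure VHyp (S : Sext O) (Ray : O → (O → ℂ) → Prop) : Prop where
  assoc : ∀ x : O, x ≠ 0 → ∃ y : O, Prim y ∧ Associated x y
  recip : ∃ hil : O → O → ℂ, (∀ x, Cls (hil x)) ∧
    (∀ a m, Prim a → Prim m → S.chi m a = hil a m * S.chi a m) ∧
    ∀ e m, IsUnit e → Prim m → S.chi m e = hil e m
  ray : ∀ (κ : O → ℂ) (a b : O), Cls κ → Prim a → Prim b →
    Ray (a * b) fun m => κ m * (S.chi a m ^ 2 * S.chi b m ^ 3)

namespace V6

theorem decomp0 (h : O) : h ≠ 0 → ∃ e h1 a b : O, IsUnit e ∧ Squarefree h1 ∧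
    IsRelPrime h1 a ∧ IsRelPrime h1 b ∧ h = e * h1 * a ^ 2 * b ^ 3 := by
  refine UniqueFactorizationMonoid.induction_on_coprime
    (P := fun h => h ≠ 0 → ∃ e h1 a b : O, IsUnit e ∧ Squarefree h1 ∧
      IsRelPrime h1 a ∧ IsRelPrime h1 b ∧ h = e * h1 * a ^ 2 * b ^ 3) h ?_ ?_ ?_ ?_
  · intro h; exact absurd rfl h
  · intro x hx _
    exact ⟨x, 1, 1, 1, hx, squarefree_one, isRelPrime_one_left, isRelPrime_one_left, by simp⟩
  · intro p i hp _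
    rcases Nat.even_or_odd' i with ⟨j, rfl | rfl⟩
    · exact ⟨1, 1, p ^ j, 1, isUnit_one, squarefree_one, isRelPrime_one_left, isRelPrime_one_left,
        by simp [← pow_mul, mul_comm]⟩
    · rcases j with _ | j
      · exact ⟨1, p, 1, 1, isUnit_one, hp.squarefree, isRelPrime_one_right, isRelPrime_one_right,
          by simp⟩
      · refine ⟨1, 1, p ^ j, p, isUnit_one, squarefree_one, isRelPrime_one_left,
          isRelPrime_one_left, ?_⟩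
        rw [one_mul, one_mul, ← pow_mul, ← pow_add]
        congr 1
        ring
  · intro x y hc hx hy h0
    obtain ⟨e, h1, a, b, he, hs, c2, c3, rfl⟩ := hx (left_ne_zero_of_mul h0)
    obtain ⟨e', h1', a', b', he', hs', c2', c3', rfl⟩ := hy (right_ne_zero_of_mul h0)
    have key : ∀ u v : O, u ∣ e * h1 * a ^ 2 * b ^ 3 → v ∣ e' * h1' * a' ^ 2 * b' ^ 3 →
        IsRelPrime u v := fun u v hu hv => (hc.of_dvd_left hu).of_dvd_right hv
    have d2 : ∀ e h1 a b : O, h1 ∣ e * h1 * a ^ 2 * b ^ 3 := fun e h1 a b =>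
      ((dvd_mul_left h1 e).mul_right _).mul_right _
    have d3 : ∀ e h1 a b : O, a ∣ e * h1 * a ^ 2 * b ^ 3 := fun e h1 a b =>
      ((dvd_pow_self a two_ne_zero).mul_left _).mul_right _
    have d4 : ∀ e h1 a b : O, b ∣ e * h1 * a ^ 2 * b ^ 3 := fun e h1 a b =>
      (dvd_pow_self b three_ne_zero).mul_left _
    refine ⟨e * e', h1 * h1', a * a', b * b', he.mul he', ?_, ?_, ?_, ?_⟩
    · exact squarefree_mul_iff.2 ⟨key _ _ (d2 _ _ _ _) (d2 _ _ _ _), hs, hs'⟩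
    · exact (c2.mul_right (key _ _ (d2 _ _ _ _) (d3 _ _ _ _))).mul_left
        ((key _ _ (d3 _ _ _ _) (d2 _ _ _ _)).symm.mul_right c2')
    · exact (c3.mul_right (key _ _ (d2 _ _ _ _) (d4 _ _ _ _))).mul_left
        ((key _ _ (d4 _ _ _ _) (d2 _ _ _ _)).symm.mul_right c3')
    · rw [mul_pow, mul_pow]; ac_rfl

/-- the decomposition with chosen generators -/
theorem decomp1 (hA : ∀ x : O, x ≠ 0 → ∃ y : O, Prim y ∧ Associated x y) {h : O} (hh : h ≠ 0) :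
    ∃ e h1 a b : O, IsUnit e ∧ Sq h1 ∧ Prim a ∧ Prim b ∧ IsRelPrime h1 (a * b) ∧
      h = e * h1 * a ^ 2 * b ^ 3 := by
  obtain ⟨e, h1, a, b, he, hs, c2, c3, rfl⟩ := decomp0 h hh
  have a0 : a ≠ 0 := by rintro rfl; simp at hh
  have b0 : b ≠ 0 := by rintro rfl; simp at hh
  have k0 : h1 ≠ 0 := by rintro rfl; simp at hh
  obtain ⟨h', p1, q1⟩ := hA h1 k0
  obtain ⟨a', p2, q2⟩ := hA a a0
  obtain ⟨b', p3, q3⟩ := hA b b0
  have h4 : Associated (h' * a' ^ 2 * b' ^ 3) (e * h1 * a ^ 2 * b ^ 3) :=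
    (((q1.symm.trans (associated_unit_mul_right h1 e he)).mul_mul (q2.symm.pow_pow)).mul_mul
      (q3.symm.pow_pow))
  obtain ⟨u, hu⟩ := h4
  refine ⟨u, h', a', b', u.isUnit, ⟨p1, q1.squarefree_iff.1 hs⟩, p2, p3, ?_, ?_⟩
  · exact (((c2.mul_right c3).of_dvd_left q1.symm.dvd)).of_dvd_right (q2.mul_mul q3).symm.dvd
  · rw [← hu]; ac_rfl

open Classical in
/-- the squarefree parts attached to `(a, b)` -/
noncomputable def Sab (Y : ℝ) (a b : O) : Finset O :=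
  (Hn O Y).filter (fun h => Sq h ∧ IsRelPrime h (a * b) ∧
    (N h : ℝ) * ((N a : ℝ) ^ 2 * (N b : ℝ) ^ 3) ≤ Y)

theorem mem_Sab {a b h : O} {Y : ℝ} (hh : h ∈ Sab Y a b) :
    Sq h ∧ IsRelPrime h (a * b) ∧ (N h : ℝ) * ((N a : ℝ) ^ 2 * (N b : ℝ) ^ 3) ≤ Y := by
  classical
  exact (mem_filter.1 hh).2

theorem isUnit_of_mem_Hn {e : O} (he : e ∈ Hn O 1) : IsUnit e := by
  rw [mem_Hn] at he
  have h1 : N e ≤ 1 := by exact_mod_cast he.1
  exact isUnit_iff_N.2 (le_antisymm h1 (N_pos he.2))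

/-- the covering inequality -/
theorem sum_Hn_cover (hA : ∀ x : O, x ≠ 0 → ∃ y : O, Prim y ∧ Associated x y) (Y : ℝ)
    (g : O → ℝ) (hg : ∀ h, 0 ≤ g h) :
    ∑ h ∈ Hn O Y, g h ≤ ∑ e ∈ Hn O 1, ∑ a ∈ AO O Y, ∑ b ∈ AO O Y, ∑ h ∈ Sab Y a b,
      g (e * h * a ^ 2 * b ^ 3) := by
  classical
  set T := (Hn O 1).sigma fun _ => (AO O Y).sigma fun a => (AO O Y).sigma fun b => Sab Y a b
    with hT
  calc ∑ h ∈ Hn O Y, g h
      ≤ ∑ h ∈ T.image (fun x => x.1 * x.2.2.2 * x.2.1 ^ 2 * x.2.2.1 ^ 3), g h := by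
        refine sum_le_sum_of_subset_of_nonneg (fun h hh => ?_) fun a _ _ => hg a
        rw [mem_Hn] at hh
        obtain ⟨e, h1, a, b, he, hs, pa, pb, c1, rfl⟩ := decomp1 hA hh.2
        have na := one_le_N pa.ne_zero
        have nb := one_le_N pb.ne_zero
        have nk := one_le_N hs.ne_zero
        have ne : N e = 1 := isUnit_iff_N.1 he
        have hN1 : (N h1 : ℝ) * ((N a : ℝ) ^ 2 * (N b : ℝ) ^ 3) ≤ Y := by
          have := hh.1
          rw [N_mul', N_mul', N_mul', N_pow, N_pow, ne] at this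
          push_cast at this
          linarith
        have d2 := N_le_of_dvd hh.2 (((dvd_mul_left h1 e).mul_right _).mul_right _)
        have d3 := N_le_of_dvd hh.2 (((dvd_pow_self a two_ne_zero).mul_left _).mul_right _)
        have d4 := N_le_of_dvd hh.2 ((dvd_pow_self b three_ne_zero).mul_left _)
        refine mem_image.2 ⟨⟨e, a, b, h1⟩, ?_, rfl⟩
        simp only [hT, mem_sigma, Sab, mem_filter, mem_Hn, mem_AO]
        refine ⟨⟨by rw [ne, Nat.cast_one], ?_⟩, ⟨d3.trans hh.1, pa⟩, ⟨d4.trans hh.1, pb⟩,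
          ⟨d2.trans hh.1, hs.ne_zero⟩, hs, c1, hN1⟩
        rintro rfl
        simp at ne
    _ ≤ ∑ x ∈ T, g (x.1 * x.2.2.2 * x.2.1 ^ 2 * x.2.2.1 ^ 3) :=
        sum_image_le_of_nonneg fun _ _ => hg _
    _ = _ := by
        rw [hT, sum_sigma]
        refine sum_congr rfl fun e _ => ?_
        rw [sum_sigma]
        refine sum_congr rfl fun a _ => ?_
        rw [sum_sigma]

/-- the class function attached to `(e, a, b)` and `h` -/
noncomputable def Kf (κ : O → ℂ) (hil : O → O → ℂ) (e a b h m : O) : ℂ :=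
  κ m * hil e m * hil h m * (hil a m * hil a m) * (hil b m * hil b m * hil b m)

theorem cls_Kf {κ : O → ℂ} (hκ : Cls κ) {hil : O → O → ℂ} (hh : ∀ x, Cls (hil x)) (e a b h : O) :
    Cls (Kf κ hil e a b h) :=
  (((hκ.mul (hh e)).mul (hh h)).mul ((hh a).mul (hh a))).mul (((hh b).mul (hh b)).mul (hh b))

/-- the completed sum at `e h a² b³` is a twisted sum -/
theorem Tsum_eq (S : Sext O) {hil : O → O → ℂ}
    (h1 : ∀ a m, Prim a → Prim m → S.chi m a = hil a m * S.chi a m)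
    (h2 : ∀ e m, IsUnit e → Prim m → S.chi m e = hil e m)
    (κ : O → ℂ) (W : ℝ → ℂ) (X : ℝ) (t : Tw O) {e a b h : O} (he : IsUnit e) (ha : Prim a)
    (hb : Prim b) (hh : Prim h) :
    Tsum S κ W X t (e * h * a ^ 2 * b ^ 3) =
      Csum S.tau (fun m => Kf κ hil e a b h m * (S.chi a m ^ 2 * S.chi b m ^ 3)) (S.chi h)
        W X t := by
  classical
  rw [Tsum, Csum]
  refine tsum_congr fun m => ?_
  split_ifs with hm
  · rw [S.chi_mul _ _ _ hm, S.chi_mul _ _ _ hm, S.chi_mul _ _ _ hm, S.chi_pow hm, S.chi_pow hm,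
      h1 a m ha hm, h1 b m hb hm, h1 h m hh hm, h2 e m he hm, Kf]
    ring
  · rfl

theorem arith_ab {X Y c A B : ℝ} (hX : 0 < X) (hY : 0 ≤ Y) (hc : 1 ≤ c) (hA : 1 ≤ A)
    (hB : 1 ≤ B) :
    X * (c * A * B) * (Y / (A ^ 2 * B ^ 3) + (Y / (A ^ 2 * B ^ 3)) ^ 2 * (c * A * B) ^ 2 / X) ≤
      c ^ 3 * (X * (Y + Y ^ 2 / X)) * (A⁻¹ * B⁻¹) := by
  have hA0 : 0 < A := by linarith
  have hB0 : 0 < B := by linarith
  have hc0 : 0 < c := by linarith
  have e1 : X * (c * A * B) * (Y / (A ^ 2 * B ^ 3) + (Y / (A ^ 2 * B ^ 3)) ^ 2 * (c * A * B) ^ 2 / X)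
      = (c * X * Y * (B⁻¹) + c ^ 3 * Y ^ 2 * (B⁻¹) ^ 2) * (A⁻¹ * B⁻¹) := by
    field_simp
  have e2 : c ^ 3 * (X * (Y + Y ^ 2 / X)) = c ^ 3 * X * Y * 1 + c ^ 3 * Y ^ 2 * 1 ^ 2 := by
    field_simp
  have hBi : B⁻¹ ≤ 1 := inv_le_one_of_one_le₀ hB
  have hc3 : c ≤ c ^ 3 := le_self_pow₀ hc (by norm_num)
  rw [e1, e2]
  gcongr

theorem arith_fin {X Y c A B C T ε : ℝ} (hX : 0 < X) (hY : 0 < Y) (hc : 1 ≤ c) (hA : 1 ≤ A)
    (hB : 1 ≤ B) (hT : 0 ≤ T) (hε : 0 ≤ ε) :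
    C * T * (X * (Y / (A ^ 2 * B ^ 3)) * (c * A * B)) ^ ε * (X * (c * A * B) *
      (Y / (A ^ 2 * B ^ 3) + (Y / (A ^ 2 * B ^ 3)) ^ 2 * (c * A * B) ^ 2 / X)) ≤
      |C| * c ^ ε * c ^ 3 * T * (X * Y) ^ ε * (X * (Y + Y ^ 2 / X)) * (A⁻¹ * B⁻¹) := by
  have hA0 : 0 < A := by linarith
  have hB0 : 0 < B := by linarith
  have hc0 : 0 < c := by linarith
  have h4 : X * (Y / (A ^ 2 * B ^ 3)) * (c * A * B) ≤ c * (X * Y) := by
    have e1 : X * (Y / (A ^ 2 * B ^ 3)) * (c * A * B) = c * (X * Y) * (A⁻¹ * (B⁻¹) ^ 2) := by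
      field_simp
    have hA' : A⁻¹ ≤ 1 := inv_le_one_of_one_le₀ hA
    have hB' : B⁻¹ ≤ 1 := inv_le_one_of_one_le₀ hB
    rw [e1]
    calc _ ≤ c * (X * Y) * (1 * 1 ^ 2) := by gcongr
      _ = _ := by ring
  have h5 : (X * (Y / (A ^ 2 * B ^ 3)) * (c * A * B)) ^ ε ≤ c ^ ε * (X * Y) ^ ε := by
    rw [← Real.mul_rpow hc0.le (by positivity)]
    exact Real.rpow_le_rpow (by positivity) h4 hε
  have h6 := arith_ab (Y := Y) hX hY.le hc hA hB
  calc _ ≤ |C| * T * (c ^ ε * (X * Y) ^ ε) *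
        (c ^ 3 * (X * (Y + Y ^ 2 / X)) * (A⁻¹ * B⁻¹)) := by
        gcongr
        exact le_abs_self C
    _ = _ := by ring

/-- the bound for one `(e, a, b)` -/
theorem block_le (S : Sext O) {Ray : O → (O → ℂ) → Prop} {hil : O → O → ℂ}
    (h0 : ∀ x, Cls (hil x)) (h1 : ∀ a m, Prim a → Prim m → S.chi m a = hil a m * S.chi a m)
    (h2 : ∀ e m, IsUnit e → Prim m → S.chi m e = hil e m)
    (hray : ∀ (κ : O → ℂ) (a b : O), Cls κ → Prim a → Prim b →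
      Ray (a * b) fun m => κ m * (S.chi a m ^ 2 * S.chi b m ^ 3))
    {W : ℝ → ℂ} {ε C : ℝ} {K : ℕ} (hε : 0 ≤ ε) (hC : TBound Ray S.tau S.chi W ε C K)
    {κ : O → ℂ} (hκ : Cls κ) (t : Tw O) {X Y : ℝ} (hX : 1 ≤ X) (hY : 1 ≤ Y) {e a b : O}
    (he : IsUnit e) (ha : Prim a) (hb : Prim b) :
    ∑ h ∈ Sab Y a b, ‖Tsum S κ W X t (e * h * a ^ 2 * b ^ 3)‖ ^ 2 ≤
      |C| * sz t ^ K * (X * Y) ^ ε * (X * (Y + Y ^ 2 / X)) * ((N a : ℝ)⁻¹ * (N b : ℝ)⁻¹) := by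
  have hsz := sz_pos t
  have hX0 : 0 < X := by linarith
  have hY0 : 0 < Y := by linarith
  have na := one_le_N ha.ne_zero
  have nb := one_le_N hb.ne_zero
  rcases (Sab Y a b).eq_empty_or_nonempty with h3 | ⟨h3, hh0⟩
  · rw [h3, sum_empty]; positivity
  have hab : (0 : ℝ) < (N a : ℝ) ^ 2 * (N b : ℝ) ^ 3 := by positivity
  have hY1 : 1 ≤ Y / ((N a : ℝ) ^ 2 * (N b : ℝ) ^ 3) := by
    have h4 := (mem_Sab hh0).2.2
    have h5 := one_le_N (mem_Sab hh0).1.ne_zero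
    rw [le_div_iff₀ hab]
    exact le_trans (mul_le_mul_of_nonneg_right h5 hab.le) h4
  have h4 := hC t X _ (a * b)
    (fun h m => Kf κ hil e a b h m * (S.chi a m ^ 2 * S.chi b m ^ 3)) (Sab Y a b) hX hY1
    (ha.mul hb) (fun h k => by
      have q1 := (cls_Kf hκ h0 e a b h).2 k
      have q2 := S.norm_chi_le ha k
      have q3 := S.norm_chi_le hb k
      rw [norm_mul, norm_mul, norm_pow, norm_pow]
      calc _ ≤ 1 * (1 ^ 2 * 1 ^ 3 : ℝ) := by gcongr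
        _ = 1 := by norm_num)
    (fun h => hray _ a b (cls_Kf hκ h0 e a b h) ha hb)
    (fun h hh => ⟨(mem_Sab hh).1, (mem_Sab hh).2.1, by
      rw [le_div_iff₀ hab]; exact (mem_Sab hh).2.2⟩)
  rw [N_mul'] at h4
  rw [sum_congr rfl fun h hh => by rw [Tsum_eq S h1 h2 κ W X t he ha hb (mem_Sab hh).1.prim]]
  refine h4.trans ?_
  have h5 := arith_fin (C := C) (T := sz t ^ K) hX0 hY0 le_rfl na nb (by positivity) hε
  simpa only [one_mul, Real.one_rpow, one_pow, mul_one] using h5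

end V6

open V6 in
/-- **from squarefree twists to all twists** -/
theorem TB_of_ThmT (S : Sext O) {Ray : O → (O → ℂ) → Prop} (hV : VHyp S Ray)
    (hT : ThmT Ray S.tau S.chi) : TB S := by
  classical
  intro W hW ε hε
  obtain ⟨hil, h0, h1, h2⟩ := hV.recip
  obtain ⟨C, K, hC⟩ := hT _ hW (ε / 3) (by positivity)
  obtain ⟨C1, hC1, hinv⟩ := sum_inv_N_le O (ε := ε / 3) (by positivity)
  refine ⟨(Hn O 1).card * |C| * C1 ^ 2, K, fun κ hκ t X Y hX hY => ?_⟩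
  have hsz := sz_pos t
  have hX0 : 0 < X := by linarith
  have hY0 : 0 < Y := by linarith
  obtain ⟨R, hR⟩ : ∃ R : ℝ, R = |C| * sz t ^ K * (X * Y) ^ (ε / 3) * (X * (Y + Y ^ 2 / X)) :=
    ⟨_, rfl⟩
  have hR0 : 0 ≤ R := by rw [hR]; positivity
  have key : ∀ e ∈ Hn O 1, ∀ a ∈ AO O Y, ∀ b ∈ AO O Y, ∑ h ∈ Sab Y a b,
      ‖Tsum S κ W X t (e * h * a ^ 2 * b ^ 3)‖ ^ 2 ≤ R * ((N a : ℝ)⁻¹ * (N b : ℝ)⁻¹) := by
    intro e he a ha b hb
    rw [hR]
    exact block_le S h0 h1 h2 hV.ray (by positivity) hC hκ t hX hY (isUnit_of_mem_Hn he)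
      (mem_AO.1 ha).2 (mem_AO.1 hb).2
  have hs0 : 0 ≤ ∑ h ∈ AO O Y, (N h : ℝ)⁻¹ :=
    sum_nonneg fun h _ => inv_nonneg.2 (Nat.cast_nonneg _)
  have hYX : Y ^ (ε / 3) ≤ (X * Y) ^ (ε / 3) :=
    Real.rpow_le_rpow hY0.le (le_mul_of_one_le_left hY0.le hX) (by positivity)
  have hpow : (X * Y) ^ ε = (X * Y) ^ (ε / 3) * (X * Y) ^ (ε / 3) * (X * Y) ^ (ε / 3) := by
    rw [← Real.rpow_add (by positivity), ← Real.rpow_add (by positivity)]
    congr 1; ring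
  have hs1 : ∑ h ∈ AO O Y, (N h : ℝ)⁻¹ ≤ C1 * (X * Y) ^ (ε / 3) :=
    ((sum_le_sum_of_subset_of_nonneg (AO_subset_Hn Y) fun _ _ _ => by positivity).trans
      (hinv Y hY0.le)).trans (mul_le_mul_of_nonneg_left hYX hC1.le)
  calc ∑ h ∈ Hn O Y, ‖Tsum S κ W X t h‖ ^ 2
      ≤ ∑ e ∈ Hn O 1, ∑ a ∈ AO O Y, ∑ b ∈ AO O Y, ∑ h ∈ Sab Y a b,
          ‖Tsum S κ W X t (e * h * a ^ 2 * b ^ 3)‖ ^ 2 :=
        sum_Hn_cover hV.assoc Y (fun h => ‖Tsum S κ W X t h‖ ^ 2) (fun h => by positivity)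
    _ ≤ ∑ e ∈ Hn O 1, ∑ a ∈ AO O Y, ∑ b ∈ AO O Y, R * ((N a : ℝ)⁻¹ * (N b : ℝ)⁻¹) :=
        sum_le_sum fun e he => sum_le_sum fun a ha => sum_le_sum fun b hb => key e he a ha b hb
    _ = (Hn O 1).card * (R * ((∑ h ∈ AO O Y, (N h : ℝ)⁻¹) * ∑ h ∈ AO O Y, (N h : ℝ)⁻¹)) := by
        rw [sum_const, nsmul_eq_mul, sum_mul_sum]
        congr 1
        rw [mul_sum]
        exact sum_congr rfl fun a _ => by rw [mul_sum]
    _ ≤ (Hn O 1).card * (R * ((C1 * (X * Y) ^ (ε / 3)) * (C1 * (X * Y) ^ (ε / 3)))) :=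
        mul_le_mul_of_nonneg_left (mul_le_mul_of_nonneg_left
          (mul_self_le_mul_self hs0 hs1) hR0) (Nat.cast_nonneg _)
    _ = _ := by rw [hR, hpow]; ring

/-- the whole abstract chain -/
theorem muB_of_ThmT (S : Sext O) {Ray : O → (O → ℂ) → Prop} (hV : VHyp S Ray)
    (hT : ThmT Ray S.tau S.chi) : MuB O (11 / 12) := muB_of_TB S (TB_of_ThmT S hV hT)

end Vale.Agent.P016Z.Ab
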