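import Vale.Agent.P016Z.Ab.Ar
import Mathlib.Analysis.Distribution.SchwartzSpace.Fourier
import Mathlib.Analysis.Calculus.BumpFunction.Normed
import Mathlib.Analysis.Calculus.BumpFunction.InnerProduct
import Mathlib.Analysis.SpecialFunctions.ImproperIntegrals

/-!
P016, abstract context: Mellin representation of the weights, the scale group, twists and the
theta weight.
-/

namespace Vale.Agent.P016Z.Ab

open MeasureTheory Complex
open scoped ComplexConjugate ContDiff FourierTransform Real SchwartzMap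

set_option linter.unusedSectionVars false

/-- continuous and rapidly decreasing -/
def Rapid (ρ : ℝ → ℂ) : Prop :=
  Continuous ρ ∧ ∀ K : ℕ, ∃ C : ℝ, ∀ τ : ℝ, ‖ρ τ‖ * (1 + |τ|) ^ K ≤ C

theorem Rapid.integrable_mul {ρ : ℝ → ℂ} (h : Rapid ρ) (K : ℕ) :
    Integrable fun τ : ℝ => ‖ρ τ‖ * (1 + |τ|) ^ K := by
  obtain ⟨C, hC⟩ := h.2 (K + 2)
  have hc : Continuous fun τ : ℝ => ‖ρ τ‖ * (1 + |τ|) ^ K := by
    have := h.1
    fun_prop
  refine (integrable_inv_one_add_sq.const_mul C).mono' hc.aestronglyMeasurable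
    (Filter.Eventually.of_forall fun τ => ?_)
  rw [Real.norm_of_nonneg (by positivity), ← div_eq_mul_inv, le_div_iff₀ (by positivity)]
  refine le_trans ?_ (hC τ)
  have h1 : 1 + τ ^ 2 ≤ (1 + |τ|) ^ 2 := by
    rw [← sq_abs τ]; nlinarith [abs_nonneg τ]
  calc ‖ρ τ‖ * (1 + |τ|) ^ K * (1 + τ ^ 2) ≤ ‖ρ τ‖ * (1 + |τ|) ^ K * (1 + |τ|) ^ 2 := by gcongr
    _ = _ := by ring

theorem Rapid.integrable {ρ : ℝ → ℂ} (h : Rapid ρ) : Integrable ρ := by
  have h1 := h.integrable_mul 0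
  simp only [pow_zero, mul_one] at h1
  exact (integrable_norm_iff h.1.aestronglyMeasurable).1 h1

/-- a rapidly decreasing function times a bounded continuous function is integrable -/
theorem Rapid.integrable_mul_bdd {ρ φ : ℝ → ℂ} (h : Rapid ρ) (hφ : Continuous φ) {M : ℝ}
    (hM : ∀ τ, ‖φ τ‖ ≤ M) : Integrable fun τ => ρ τ * φ τ := by
  refine (h.integrable.norm.mul_const M).mono' (h.1.mul hφ).aestronglyMeasurable
    (Filter.Eventually.of_forall fun τ => ?_)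
  rw [norm_mul]
  exact mul_le_mul_of_nonneg_left (hM τ) (norm_nonneg _)

theorem one_add_pow_le (x : ℝ) (hx : 0 ≤ x) (K : ℕ) : (1 + x) ^ K ≤ 2 ^ K * (1 + x ^ K) := by
  rcases le_total x 1 with h | h
  · calc (1 + x) ^ K ≤ 2 ^ K := by gcongr; linarith
      _ ≤ 2 ^ K * (1 + x ^ K) := by
        have : 0 ≤ x ^ K := by positivity
        have h2 : (0 : ℝ) < 2 ^ K := by positivity
        nlinarith
  · calc (1 + x) ^ K ≤ (2 * x) ^ K := by gcongr; linarith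
      _ = 2 ^ K * x ^ K := mul_pow _ _ _
      _ ≤ 2 ^ K * (1 + x ^ K) := by gcongr; linarith

theorem Rapid.const_mul {ρ : ℝ → ℂ} (h : Rapid ρ) (c : ℂ) : Rapid fun τ => c * ρ τ := by
  refine ⟨continuous_const.mul h.1, fun K => ?_⟩
  obtain ⟨C, hC⟩ := h.2 K
  refine ⟨‖c‖ * C, fun τ => ?_⟩
  rw [norm_mul, mul_assoc]
  exact mul_le_mul_of_nonneg_left (hC τ) (norm_nonneg _)

/-! ### weights -/

theorem rapid_schwartz (f : 𝓢(ℝ, ℂ)) : Rapid f := by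
  refine ⟨f.continuous, fun K => ?_⟩
  obtain ⟨C0, -, h0⟩ := f.decay 0 0
  obtain ⟨C1, -, h1⟩ := f.decay K 0
  refine ⟨2 ^ K * (C0 + C1), fun τ => ?_⟩
  have a0 := h0 τ
  have a1 := h1 τ
  simp only [norm_iteratedFDeriv_zero, pow_zero, one_mul, Real.norm_eq_abs] at a0 a1
  calc ‖f τ‖ * (1 + |τ|) ^ K ≤ ‖f τ‖ * (2 ^ K * (1 + |τ| ^ K)) := by
        gcongr; exact one_add_pow_le _ (abs_nonneg τ) K
    _ = 2 ^ K * (‖f τ‖ + |τ| ^ K * ‖f τ‖) := by ring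
    _ ≤ _ := by gcongr

theorem Rapid.comp_div {ρ : ℝ → ℂ} (h : Rapid ρ) {c : ℝ} (hc : 1 ≤ c) :
    Rapid fun τ => ρ (τ / c) := by
  refine ⟨h.1.comp (by fun_prop), fun K => ?_⟩
  obtain ⟨C, hC⟩ := h.2 K
  refine ⟨C * c ^ K, fun τ => ?_⟩
  have h1 : 1 + |τ| ≤ (1 + |τ / c|) * c := by
    rw [abs_div, abs_of_pos (by linarith : 0 < c), add_mul, div_mul_cancel₀ _ (by linarith)]
    linarith
  calc ‖ρ (τ / c)‖ * (1 + |τ|) ^ K ≤ ‖ρ (τ / c)‖ * ((1 + |τ / c|) * c) ^ K := by gcongr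
    _ = ‖ρ (τ / c)‖ * (1 + |τ / c|) ^ K * c ^ K := by rw [mul_pow]; ring
    _ ≤ C * c ^ K := by gcongr; exact hC _

/-- `W(x) = ∫ ρ(τ) x^{iτ} dτ` -/
theorem mellin_wt {W : ℝ → ℂ} (hW : IsWt W) : ∃ ρ : ℝ → ℂ, Rapid ρ ∧ ∀ x : ℝ, 0 < x →
    W x = ∫ τ : ℝ, ρ τ * (x : ℂ) ^ ((τ : ℂ) * I) := by
  obtain ⟨hs, a, b, ha, hab⟩ := hW
  set f : ℝ → ℂ := fun L => W (Real.exp L) with hf
  have hfs : ContDiff ℝ ∞ f := hs.comp Real.contDiff_exp
  have hfc : HasCompactSupport f := by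
    refine HasCompactSupport.intro (K := Set.Icc (Real.log a) (Real.log b)) isCompact_Icc ?_
    intro L hL
    by_contra h
    obtain ⟨h1, h2⟩ := hab _ h
    apply hL
    constructor
    · rw [Real.log_le_iff_le_exp ha]; exact h1
    · rw [Real.le_log_iff_exp_le (lt_of_lt_of_le (Real.exp_pos L) h2)]; exact h2
  set φ : 𝓢(ℝ, ℂ) := hfc.toSchwartzMap hfs with hφ
  have h2π : (1 : ℝ) ≤ 2 * π := by linarith [Real.two_le_pi]
  refine ⟨fun τ => (1 / (2 * π) : ℝ) * (𝓕 φ : 𝓢(ℝ, ℂ)) (τ / (2 * π)),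
    ((rapid_schwartz (𝓕 φ)).comp_div h2π).const_mul _, fun x hx => ?_⟩
  have hinv : f = 𝓕⁻ (𝓕 f) :=
    (hfs.continuous.fourierInv_fourier_eq φ.integrable (𝓕 φ : 𝓢(ℝ, ℂ)).integrable).symm
  have h1 : W x = f (Real.log x) := by rw [hf]; simp only; rw [Real.exp_log hx]
  rw [h1, hinv, Real.fourierInv_eq']
  have h3 := Measure.integral_comp_div (fun ξ : ℝ =>
    cexp ((2 * π * inner ℝ ξ (Real.log x) : ℝ) * I) • 𝓕 f ξ) (2 * π)
  have hπ : (0 : ℝ) < 2 * π := by positivity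
  rw [abs_of_pos hπ] at h3
  have h4 : (∫ ξ : ℝ, cexp ((2 * π * inner ℝ ξ (Real.log x) : ℝ) * I) • 𝓕 f ξ) =
      ((1 / (2 * π) : ℝ) : ℂ) * ∫ τ : ℝ, cexp ((2 * π * inner ℝ (τ / (2 * π)) (Real.log x) : ℝ) * I)
        • 𝓕 f (τ / (2 * π)) := by
    rw [h3, Complex.real_smul, ← mul_assoc, ← Complex.ofReal_mul, one_div_mul_cancel hπ.ne']
    simp
  rw [h4, ← integral_const_mul]
  refine integral_congr_ae (Filter.Eventually.of_forall fun τ => ?_)
  simp only [smul_eq_mul]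
  have hx' : (x : ℂ) ≠ 0 := by exact_mod_cast hx.ne'
  have e1 : cexp ((2 * π * inner ℝ (τ / (2 * π)) (Real.log x) : ℝ) * I) =
      (x : ℂ) ^ ((τ : ℂ) * I) := by
    rw [Complex.cpow_def_of_ne_zero hx', ← Complex.ofReal_log hx.le]
    congr 1
    have : (2 * π * inner ℝ (τ / (2 * π)) (Real.log x) : ℝ) = Real.log x * τ := by
      rw [show inner ℝ (τ / (2 * π)) (Real.log x) = Real.log x * (τ / (2 * π)) by simp]
      field_simp
    rw [this]; push_cast; ring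
  rw [e1]
  have e2 : (𝓕 φ : 𝓢(ℝ, ℂ)) (τ / (2 * π)) = 𝓕 f (τ / (2 * π)) := rfl
  rw [e2]; ring

theorem IsWt.bounds {W : ℝ → ℂ} (hW : IsWt W) : ∃ a b M : ℝ, 0 < a ∧ a < b ∧ 1 ≤ b ∧ 0 ≤ M ∧
    (∀ x, W x ≠ 0 → a ≤ x ∧ x ≤ b) ∧ ∀ x, ‖W x‖ ≤ M := by
  obtain ⟨hs, a, b, ha, hab⟩ := hW
  obtain ⟨M, hM⟩ := (isCompact_Icc (a := a) (b := b)).exists_bound_of_continuousOn
    hs.continuous.continuousOn
  refine ⟨a, max (max b (a + 1)) 1, max M 0, ha, ?_, le_max_right _ _, le_max_right _ _, ?_, ?_⟩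
  · exact lt_of_lt_of_le (by linarith) ((le_max_right _ _).trans (le_max_left _ _))
  · intro x hx
    exact ⟨(hab x hx).1, (hab x hx).2.trans ((le_max_left _ _).trans (le_max_left _ _))⟩
  · intro x
    by_cases hx : W x = 0
    · rw [hx, norm_zero]; exact le_max_right _ _
    · exact (hM x (hab x hx)).trans (le_max_left _ _)

theorem IsWt.conj {W : ℝ → ℂ} (hW : IsWt W) : IsWt fun x => conj (W x) := by
  obtain ⟨hs, a, b, ha, hab⟩ := hW
  refine ⟨Complex.conjCLE.contDiff.comp hs, a, b, ha, fun x hx => hab x ?_⟩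
  intro h; apply hx; simp [h]

theorem IsWt.mul_rpow {W : ℝ → ℂ} (hW : IsWt W) (σ : ℝ) :
    IsWt fun x => W x * ((x ^ σ : ℝ) : ℂ) := by
  obtain ⟨hs, a, b, ha, hab⟩ := hW
  refine ⟨?_, a, b, ha, fun x hx => hab x (left_ne_zero_of_mul hx)⟩
  rw [contDiff_iff_contDiffAt]
  intro x
  by_cases hx : x < a
  · have h0 : (fun x => W x * ((x ^ σ : ℝ) : ℂ)) =ᶠ[nhds x] fun _ => 0 := by
      filter_upwards [Iio_mem_nhds hx] with y hy
      have : W y = 0 := by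
        by_contra h
        exact absurd (hab y h).1 (not_le.2 hy)
      simp [this]
    exact contDiffAt_const.congr_of_eventuallyEq h0
  · have hx0 : x ≠ 0 := by push Not at hx; linarith
    exact hs.contDiffAt.mul (Complex.ofRealCLM.contDiff.contDiffAt.comp x
      (Real.contDiffAt_rpow_const_of_ne hx0))

/-- a weight equal to `1` on a given compact interval of `(0, ∞)` -/
theorem exists_wt_one {a b : ℝ} (ha : 0 < a) (hab : a < b) :
    ∃ V : ℝ → ℂ, IsWt V ∧ ∀ x, a ≤ x → x ≤ b → V x = 1 := by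
  let φ : ContDiffBump ((a + b) / 2) := ⟨(b - a) / 2, (b - a) / 2 + a / 2, by linarith, by linarith⟩
  refine ⟨fun x => (φ x : ℂ), ⟨Complex.ofRealCLM.contDiff.comp φ.contDiff, a / 2, b + a / 2,
    by linarith, fun x hx => ?_⟩, fun x h1 h2 => ?_⟩
  · have h1 : x ∈ Function.support φ := by
      intro h; apply hx; simp [h]
    rw [φ.support_eq, Metric.mem_ball, Real.dist_eq, abs_lt] at h1
    have e : φ.rOut = (b - a) / 2 + a / 2 := rfl
    rw [e] at h1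
    constructor <;> linarith [h1.1, h1.2]
  · have : φ x = 1 := by
      apply φ.one_of_mem_closedBall
      rw [Metric.mem_closedBall, Real.dist_eq, abs_le]
      have e : φ.rIn = (b - a) / 2 := rfl
      rw [e]
      constructor <;> linarith
    simp [this]

theorem norm_cpow_I {x : ℝ} (hx : 0 < x) (t : ℝ) : ‖(x : ℂ) ^ ((t : ℂ) * I)‖ = 1 := by
  rw [norm_cpow_eq_rpow_re_of_pos hx]; simp

theorem conj_cpow_pos {x : ℝ} (hx : 0 < x) (w : ℂ) :
    conj ((x : ℂ) ^ w) = (x : ℂ) ^ (conj w) := by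
  rw [cpow_conj _ _ (by rw [arg_ofReal_of_nonneg hx.le]; exact Real.pi_ne_zero.symm), conj_ofReal]

/-! ### the scale group -/

variable {O : Type} [CommMonoidWithZero O] [Ar O] [Sc O]

theorem nG_mul (x y : Gr O) : nG (x * y) = nG x * nG y := Sc.nG_mul x y

theorem nG_pos (x : Gr O) : 0 < nG x := Sc.nG_pos x

theorem nG_one : nG (1 : Gr O) = 1 := by
  have h := nG_mul (1 : Gr O) 1
  rw [mul_one] at h
  have h1 := nG_pos (1 : Gr O)
  nlinarith

theorem nG_div (x y : Gr O) : nG (x / y) = nG x / nG y := by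
  rw [eq_div_iff (nG_pos y).ne', ← nG_mul, div_mul_cancel]

theorem nG_sc {a : O} (h : a ≠ 0) : nG (sc a) = N a := Sc.nG_sc a h

theorem nG_dl : nG (Sc.dl : Gr O) = 1 := Sc.nG_dl

theorem sc_mul {a b : O} (ha : a ≠ 0) (hb : b ≠ 0) : sc (a * b) = sc a * sc b := Sc.sc_mul a b ha hb

theorem ch_mul (τ : Tw O) (x y : Gr O) : Sc.ch τ (x * y) = Sc.ch τ x * Sc.ch τ y :=
  Sc.ch_mul τ x y

theorem ch_add (τ τ' : Tw O) (x : Gr O) : Sc.ch (τ + τ') x = Sc.ch τ x * Sc.ch τ' x :=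
  Sc.ch_add τ τ' x

theorem norm_ch (τ : Tw O) (x : Gr O) : ‖Sc.ch τ x‖ = 1 := Sc.norm_ch τ x

theorem ch_ne_zero (τ : Tw O) (x : Gr O) : Sc.ch τ x ≠ 0 := by
  rw [← norm_ne_zero_iff, norm_ch]; exact one_ne_zero

theorem ch_mul_conj (τ : Tw O) (x : Gr O) : Sc.ch τ x * conj (Sc.ch τ x) = 1 := by
  rw [Complex.mul_conj, Complex.normSq_eq_norm_sq, norm_ch]; simp

theorem ch_zero (x : Gr O) : Sc.ch (0 : Tw O) x = 1 := by
  have h := ch_add (0 : Tw O) 0 x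
  rw [add_zero] at h
  exact (mul_left_cancel₀ (ch_ne_zero 0 x) (by rw [mul_one]; exact h)).symm

theorem ch_neg (τ : Tw O) (x : Gr O) : Sc.ch (-τ) x = conj (Sc.ch τ x) := by
  have h := ch_add τ (-τ) x
  rw [add_neg_cancel, ch_zero, ← ch_mul_conj τ x] at h
  exact (mul_left_cancel₀ (ch_ne_zero τ x) h).symm

theorem ch_div (τ : Tw O) (x y : Gr O) : Sc.ch τ (x / y) = Sc.ch τ x * conj (Sc.ch τ y) := by
  have h := ch_mul τ (x / y) y
  rw [div_mul_cancel] at h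
  rw [h, mul_assoc, ch_mul_conj, mul_one]

theorem one_le_sz (τ : Tw O) : 1 ≤ sz τ := Sc.one_le_sz τ

theorem sz_pos (τ : Tw O) : 0 < sz τ := lt_of_lt_of_le one_pos (one_le_sz τ)

theorem sz_nonneg (τ : Tw O) : 0 ≤ sz τ := (sz_pos τ).le

theorem sz_add (τ τ' : Tw O) : sz (τ + τ') ≤ sz τ * sz τ' := Sc.sz_add τ τ'

theorem sz_neg (τ : Tw O) : sz (-τ) = sz τ := Sc.sz_neg τ

theorem one_le_sz_pow (τ : Tw O) (K : ℕ) : 1 ≤ sz τ ^ K := one_le_pow₀ (one_le_sz τ)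

theorem sz_pow_nonneg (τ : Tw O) (K : ℕ) : 0 ≤ sz τ ^ K := pow_nonneg (sz_nonneg τ) K

theorem norm_ps (τ : Tw O) (n : O) : ‖ps τ n‖ = 1 := norm_ch _ _

theorem ps_mul (τ : Tw O) {a b : O} (ha : a ≠ 0) (hb : b ≠ 0) :
    ps τ (a * b) = ps τ a * ps τ b := by
  rw [ps, sc_mul ha hb, ch_mul]

theorem ps_add (τ τ' : Tw O) (n : O) : ps (τ + τ') n = ps τ n * ps τ' n := ch_add _ _ _

theorem ps_neg (τ : Tw O) (n : O) : ps (-τ) n = conj (ps τ n) := ch_neg _ _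

theorem ps_em (t : ℝ) {n : O} (hn : n ≠ 0) :
    ps (Sc.em t : Tw O) n = ((N n : ℝ) : ℂ) ^ ((t : ℂ) * I) := by
  rw [ps, Sc.ch_em, ← nG_sc hn]

theorem norm_wt (W : ℝ → ℂ) (t : Tw O) (X : ℝ) (n : O) : ‖wt W t X n‖ = ‖W (N n / X)‖ := by
  rw [wt, norm_mul, norm_ps, mul_one]

theorem conj_wt (W : ℝ → ℂ) (t : Tw O) (X : ℝ) (n : O) :
    conj (wt W t X n) = wt (fun y => conj (W y)) (-t) X n := by
  rw [wt, wt, map_mul, ps_neg]

theorem wt_mul (W : ℝ → ℂ) (t : Tw O) (X : ℝ) {m n : O} (hm : m ≠ 0) (hn : n ≠ 0) :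
    wt W t X (m * n) = ps t m * wt W t (X / N m) n := by
  rw [wt, wt, ps_mul t hm hn, N_mul', div_div_eq_mul_div, mul_comm (N m : ℝ)]
  ring

/-- the twist `(N n / X)^σ ψ_τ(n)` -/
noncomputable def tw (σ : ℝ) (τ : Tw O) (X : ℝ) (n : O) : ℂ :=
  (((N n / X) ^ σ : ℝ) : ℂ) * ps τ n

theorem conj_tw (σ : ℝ) (τ : Tw O) (X : ℝ) (n : O) : conj (tw σ τ X n) = tw σ (-τ) X n := by
  rw [tw, tw, map_mul, conj_ofReal, ps_neg]

theorem wt_mul_tw (W : ℝ → ℂ) (t τ : Tw O) (σ X : ℝ) (n : O) :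
    wt W t X n * tw σ τ X n = wt (fun y => W y * ((y ^ σ : ℝ) : ℂ)) (t + τ) X n := by
  rw [wt, wt, tw, ps_add]; ring

/-- uniformisation of the length -/
theorem exists_unif {W : ℝ → ℂ} (hW : IsWt W) : ∃ (V : ℝ → ℂ) (ρ : ℝ → ℂ), IsWt V ∧ Rapid ρ ∧
    ∀ (t : Tw O) (X y : ℝ) (n : O), 0 < X → n ≠ 0 → 1 ≤ y → y ≤ 2 →
      wt W t (X / y) n = ∫ τ : ℝ, ρ τ *
        (((y / X : ℝ) : ℂ) ^ ((τ : ℂ) * I) * wt V (t + Sc.em τ) X n) := by
  obtain ⟨a, b, M, ha, hab, -, -, hsupp, -⟩ := hW.bounds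
  obtain ⟨V, hV, hV1⟩ := exists_wt_one (a := a / 2) (b := b) (by linarith) (by linarith)
  obtain ⟨ρ, hρ, hrep⟩ := mellin_wt hW
  refine ⟨V, ρ, hV, hρ, fun t X y n hX hn hy1 hy2 => ?_⟩
  have hy : 0 < y := by linarith
  have pn := N_pos' hn
  have hx : 0 < N n / X := div_pos pn hX
  have e0 : (N n : ℝ) / (X / y) = N n / X * y := by field_simp
  have hxy : 0 < N n / X * y := mul_pos hx hy
  have h1 : W (N n / X * y) = V (N n / X) * W (N n / X * y) := by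
    by_cases h : W (N n / X * y) = 0
    · simp [h]
    · obtain ⟨h2, h3⟩ := hsupp _ h
      rw [hV1 _ (by nlinarith) (by nlinarith), one_mul]
  rw [wt, e0, h1, hrep _ hxy, ← integral_const_mul, ← integral_mul_const]
  refine integral_congr_ae (Filter.Eventually.of_forall fun τ => ?_)
  simp only [wt]
  have e1 : ((N n / X * y : ℝ) : ℂ) ^ ((τ : ℂ) * I) =
      ((y / X : ℝ) : ℂ) ^ ((τ : ℂ) * I) * ((N n : ℝ) : ℂ) ^ ((τ : ℂ) * I) := by
    rw [← mul_cpow_ofReal_nonneg (by positivity) pn.le, ← ofReal_mul]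
    congr 2
    ring
  rw [e1, ps_add, ps_em τ hn]
  ring

/-! ### the theta weight -/

theorem gw_zero (A : Gr O) : gw A (0 : O) = 1 := if_pos rfl

theorem gw_of_ne (A : Gr O) {x : O} (hx : x ≠ 0) : gw A x = Sc.Th (sc x / A) := if_neg hx

theorem gw_nonneg (A : Gr O) (x : O) : 0 ≤ gw A x := by
  unfold gw
  split_ifs
  · exact zero_le_one
  · exact Sc.Th_nonneg _

theorem gw_congr {A B : Gr O} {x y : O} (h0 : x = 0 ↔ y = 0)
    (h : x ≠ 0 → y ≠ 0 → sc x / A = sc y / B) : gw A x = gw B y := by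
  by_cases hx : x = 0
  · rw [hx, h0.1 hx, gw_zero, gw_zero]
  · have hy : y ≠ 0 := fun h1 => hx (h0.2 h1)
    rw [gw_of_ne A hx, gw_of_ne B hy, h hx hy]

variable (O) in
theorem Th_le {σ : ℝ} (hσ : 0 < σ) :
    ∃ C : ℝ, 0 ≤ C ∧ ∀ γ : Gr O, Sc.Th γ ≤ C * nG γ ^ (-σ) := by
  obtain ⟨ρ, -, h2, h3⟩ := Sc.mellin (M := O) σ hσ
  refine ⟨∫ τ, ‖ρ τ‖ ∂Sc.mu, integral_nonneg fun _ => norm_nonneg _, fun γ => ?_⟩
  have h4 : ‖(Sc.Th γ : ℂ)‖ ≤ ∫ τ, ‖ρ τ‖ * nG γ ^ (-σ) ∂Sc.mu := by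
    rw [h3]
    refine (norm_integral_le_integral_norm _).trans (le_of_eq ?_)
    refine integral_congr_ae (Filter.Eventually.of_forall fun τ => ?_)
    have := nG_pos γ
    simp only
    rw [norm_mul, norm_mul, Complex.norm_conj, norm_ch, mul_one, Complex.norm_real,
      Real.norm_of_nonneg (by positivity)]
  rw [integral_mul_const, Complex.norm_real] at h4
  exact (le_abs_self _).trans h4

theorem summable_gw0 (A : Gr O) : Summable fun x : O => gw A x := by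
  classical
  obtain ⟨C, hC, h⟩ := Th_le O (σ := 2) two_pos
  have h1 := ((summable_N_rpow (M := O) one_lt_two).mul_left (C * nG A ^ (2 : ℝ))).add
    (hasSum_ite_eq (0 : O) (1 : ℝ)).summable
  refine Summable.of_nonneg_of_le (gw_nonneg A) (fun x => ?_) h1
  have pA := nG_pos A
  by_cases hx : x = 0
  · rw [hx, gw_zero, if_pos rfl]
    have : 0 ≤ C * nG A ^ (2 : ℝ) * (N (0 : O) : ℝ) ^ (-2 : ℝ) := by positivity
    linarith
  · rw [gw_of_ne A hx, if_neg hx, add_zero]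
    refine (h _).trans (le_of_eq ?_)
    have px := N_pos' hx
    rw [nG_div, nG_sc hx, Real.div_rpow px.le pA.le, Real.rpow_neg pA.le]
    field_simp

theorem summable_gw (A : Gr O) {ψ : O → ℂ} {M : ℝ} (hψ : ∀ x, ‖ψ x‖ ≤ M) :
    Summable fun x : O => ψ x * (gw A x : ℂ) := by
  refine Summable.of_norm_bounded ((summable_gw0 A).mul_left M) fun x => ?_
  rw [norm_mul, Complex.norm_real, Real.norm_of_nonneg (gw_nonneg A x)]
  exact mul_le_mul_of_nonneg_right (hψ x) (gw_nonneg A x)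

theorem summable_gw_real (A : Gr O) {f : O → ℝ} {M : ℝ} (hf : ∀ x, |f x| ≤ M) :
    Summable fun x : O => f x * gw A x := by
  have h := summable_gw A (ψ := fun x => (f x : ℂ)) (M := M) (fun x => by simpa using hf x)
  have h2 : Summable fun x : O => ((f x * gw A x : ℝ) : ℂ) := by simpa using h
  exact Complex.summable_ofReal.1 h2

end Vale.Agent.P016Z.Ab
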